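import Vale.Agent.P229.QBr

/-! The adjoint identity. -/

open scoped ContDiff
open MeasureTheory Metric

namespace Vale.Agent.P229
noncomputable section

theorem adj_ring (σ k g1 g2 u v : Sm) :
    v * Lgen σ k g1 g2 u =
      dt (v * T σ u - u * T σ v) + ds (σ * (v * T σ u - u * T σ v) + k * (v * ds u - u * ds v))
      + (u * Qop σ k v + v * ((g1 - ds σ) * T σ u + (g2 - ds k) * ds u)) := by
  simp only [Lgen, Qop, T, map_add, map_sub, ds_mul, dt_mul, dt_ds]
  ring

theorem adj (σ k g1 g2 u v : Sm) (hv : HasCompactSupport v.1) :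
    ∫ x, (v * Lgen σ k g1 g2 u).1 x =
      ∫ x, (u * Qop σ k v + v * ((g1 - ds σ) * T σ u + (g2 - ds k) * ds u)).1 x := by
  have h1 : HasCompactSupport (v * T σ u - u * T σ v).1 :=
    cs_sub (cs_mul_right _ hv) (cs_mul_left _ (cs_T σ hv))
  exact integral_eq_of_div (adj_ring σ k g1 g2 u v) h1
    (cs_add (cs_mul_left _ h1) (cs_mul_left _ (cs_sub (cs_mul_right _ hv) (cs_mul_left _ (cs_ds hv)))))
    (cs_mul_right _ hv)

/-- integration by parts -/
theorem ibp_ds (f g : Sm) (hf : HasCompactSupport f.1) :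
    ∫ x, (ds f * g).1 x = -∫ x, (f * ds g).1 x := by
  rw [← integral_neg]
  refine integral_eq_of_div (B := -(f * ds g)) (J1 := 0) (J2 := f * g) ?_ ?_ (cs_mul_right _ hf)
    (cs_mul_right _ (cs_ds hf))
  · rw [ds_mul, map_zero]; ring
  · exact HasCompactSupport.zero
theorem ibp_dt (f g : Sm) (hf : HasCompactSupport f.1) :
    ∫ x, (dt f * g).1 x = -∫ x, (f * dt g).1 x := by
  rw [← integral_neg]
  refine integral_eq_of_div (B := -(f * dt g)) (J1 := f * g) (J2 := 0) ?_ (cs_mul_right _ hf) ?_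
    (cs_mul_right _ (cs_dt hf))
  · rw [dt_mul, map_zero]; ring
  · exact HasCompactSupport.zero

/-- a function vanishing outside a closed box has its integral over the box -/
theorem integral_box {f : Pt → ℝ} {r : ℝ} (h : ∀ x, x ∉ closedBall (0 : Pt) r → f x = 0) :
    ∫ x in closedBall (0 : Pt) r, f x = ∫ x, f x :=
  setIntegral_eq_integral_of_forall_compl_eq_zero h

/-- derivatives of a function vanishing on an open set vanish there -/
theorem ds_zero_of {f : Sm} {U : Set Pt} (hU : IsOpen U) (h : ∀ x ∈ U, f.1 x = 0) :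
    ∀ x ∈ U, (ds f).1 x = 0 := fun x hx => by
  rw [ds_congr (g := 0) hU h x hx, map_zero]; rfl
theorem dt_zero_of {f : Sm} {U : Set Pt} (hU : IsOpen U) (h : ∀ x ∈ U, f.1 x = 0) :
    ∀ x ∈ U, (dt f).1 x = 0 := fun x hx => by
  rw [dt_congr (g := 0) hU h x hx, map_zero]; rfl

end
end Vale.Agent.P229
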