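import Vale.Agent.P229.Good

open scoped ContDiff
open MeasureTheory Metric

namespace Vale.Agent.P229
noncomputable section

variable {I : Type} {c : Ctx I} {a b : ℕ} {f g : I → Sm}

/-- one term of the Leibniz sum -/
theorem cl_term (hc : c.OK) {n p q : ℕ} (k : ℝ) (hf : Good c (p + a) fun i => dsn p (f i))
    (hg : Good c (q + b) fun i => dsn q (g i)) (h1 : p + a ≤ n) (h2 : q + b ≤ n)
    (h : p + a + (q + b) ≤ n + 4) : Good c n fun i => k • (dsn p (f i) * dsn q (g i)) :=
  (hf.mul hc hg h1 h2 h).smul hc k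

theorem cl_split0 (j : ℕ) (f g : Sm) : dsn j (f * g) - f * dsn j g =
    ∑ l ∈ Finset.range j, (j.choose (l + 1) : ℝ) • (dsn (l + 1) f * dsn (j - (l + 1)) g) := by
  rw [dsn_mul, Finset.sum_range_succ']
  simp

theorem cl_split1 (k : ℕ) (f g : Sm) :
    dsn (k + 1) (f * g) - f * dsn (k + 1) g - g * dsn (k + 1) f =
    ∑ l ∈ Finset.range k,
      ((k + 1).choose (l + 1) : ℝ) • (dsn (l + 1) f * dsn (k + 1 - (l + 1)) g) := by
  rw [cl_split0, Finset.sum_range_succ]
  simp [mul_comm g]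

theorem cl_split2 (k : ℕ) (f g : Sm) :
    dsn (k + 2 + 1) (f * g) - f * dsn (k + 2 + 1) g - g * dsn (k + 2 + 1) f
      - cst ((k + 2 + 1 : ℕ) : ℝ) * (ds f * dsn (k + 2) g + ds g * dsn (k + 2) f) =
    ∑ l ∈ Finset.range k,
      ((k + 2 + 1).choose (l + 1 + 1) : ℝ) •
        (dsn (l + 1 + 1) f * dsn (k + 2 + 1 - (l + 1 + 1)) g) := by
  rw [cl_split1, Finset.sum_range_succ, Finset.sum_range_succ']
  have e1 : dsn (0 + 1) f = ds f := by rw [dsn_succ, dsn_zero]
  have e2 : dsn (k + 2 + 1 - (k + 1 + 1)) g = ds g := by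
    rw [show k + 2 + 1 - (k + 1 + 1) = 0 + 1 by omega, dsn_succ, dsn_zero]
  rw [e1, e2, show k + 2 + 1 - (0 + 1) = k + 2 by omega, Nat.choose_succ_self_right,
    Nat.choose_one_right, ← smul_eq_cst, smul_add, mul_comm (ds g)]
  abel

theorem Cls.add (hc : c.OK) (hf : Cls c a f) (hg : Cls c a g) : Cls c a fun i => f i + g i :=
  fun l => by
    simp only [map_add]
    exact (hf l).add hc (hg l)
theorem Cls.neg (hc : c.OK) (hf : Cls c a f) : Cls c a fun i => -f i :=
  fun l => by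
    simp only [map_neg]
    exact (hf l).neg hc
theorem Cls.sub (hc : c.OK) (hf : Cls c a f) (hg : Cls c a g) : Cls c a fun i => f i - g i :=
  fun l => by
    simp only [map_sub]
    exact (hf l).sub hc (hg l)
theorem Cls.mono (hc : c.OK) (h : a ≤ b) (hf : Cls c a f) : Cls c b f :=
  fun l => (hf l).mono hc (by omega)
theorem Cls.ds (hf : Cls c a f) : Cls c (a + 1) fun i => ds (f i) :=
  fun l => by
    simp only [← dsn_succ']
    rw [show l + (a + 1) = l + 1 + a by omega]
    exact hf (l + 1)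
theorem Cls.mul (hc : c.OK) {e : ℕ} (hf : Cls c a f) (hg : Cls c b g) (h1 : a ≤ e) (h2 : b ≤ e)
    (h : a + b ≤ e + 4) : Cls c e fun i => f i * g i :=
  fun l => by
    simp only [dsn_mul]
    refine good_sum hc _ fun q hq => ?_
    have := Finset.mem_range.1 hq
    exact cl_term hc _ (hf _) (hg _) (by omega) (by omega) (by omega)
theorem cls_of_bnd (hc : c.OK) (h : ∀ l, Bnd c fun i => dsn l (f i)) : Cls c a f :=
  fun l => good_of_bnd hc (h l)
theorem cls_congr (hc : c.OK) {U : Set Pt} (hU : IsOpen U) (hs : closedBall (0 : Pt) c.r ⊆ U)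
    (h : ∀ i, ∀ x ∈ U, (f i).1 x = (g i).1 x) (hg : Cls c a g) : Cls c a f :=
  fun l => good_congr hc (fun i x hx => dsn_congr l hU (h i) x (hs hx)) (hg l)
theorem rem0 (hc : c.OK) (j : ℕ) (hf : Cls c 0 f) (hg : Cls c 1 g) :
    Good c j fun i => dsn j (f i * g i) - f i * dsn j (g i) := by
  simp only [cl_split0]
  refine good_sum hc _ fun q hq => ?_
  have := Finset.mem_range.1 hq
  exact cl_term hc _ (hf _) (hg _) (by omega) (by omega) (by omega)
theorem rem1 (hc : c.OK) {j n : ℕ} (hj : 1 ≤ j) (ha : a ≤ 3) (hn : j + a = n + 1) (hf : Cls c a f)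
    (hg : Cls c a g) :
    Good c n fun i => dsn j (f i * g i) - f i * dsn j (g i) - g i * dsn j (f i) := by
  obtain ⟨k, rfl⟩ : ∃ k, j = k + 1 := ⟨j - 1, by omega⟩
  simp only [cl_split1]
  refine good_sum hc _ fun q hq => ?_
  have := Finset.mem_range.1 hq
  exact cl_term hc _ (hf _) (hg _) (by omega) (by omega) (by omega)
theorem rem2 (hc : c.OK) {j : ℕ} (hj : 2 ≤ j) (hf : Cls c 2 f) (hg : Cls c 2 g) :
    Good c (j + 1) fun i => dsn (j + 1) (f i * g i) - f i * dsn (j + 1) (g i)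
      - g i * dsn (j + 1) (f i)
      - cst ((j + 1 : ℕ) : ℝ) * (ds (f i) * dsn j (g i) + ds (g i) * dsn j (f i)) := by
  obtain ⟨k, rfl⟩ : ∃ k, j = k + 2 := ⟨j - 2, by omega⟩
  simp only [cl_split2]
  refine good_sum hc _ fun q hq => ?_
  have := Finset.mem_range.1 hq
  exact cl_term hc _ (hf _) (hg _) (by omega) (by omega) (by omega)
theorem cls_div (hc : c.OK) {h : I → Sm} {U : Set Pt} (hU : IsOpen U)
    (hs : closedBall (0 : Pt) c.r ⊆ U) (he : ∀ i, ∀ x ∈ U, (f i * g i).1 x = (h i).1 x) {κ : ℝ}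
    (hκ : 0 < κ) (hlo : ∀ i, ∀ x ∈ closedBall (0 : Pt) c.r, κ ≤ (f i).1 x) (hf : Cls c 2 f)
    (hh : Cls c 2 h) : Cls c 2 g := by
  intro l
  induction l using Nat.strong_induction_on with
  | _ l ih =>
    have h1 : Good c (l + 2) fun i => dsn l (f i * g i) - f i * dsn l (g i) := by
      simp only [cl_split0]
      refine good_sum hc _ fun q hq => ?_
      have := Finset.mem_range.1 hq
      exact cl_term hc _ (hf _) (ih _ (by omega)) (by omega) (by omega) (by omega)
    refine good_of_le hc (A := 1 / κ) (fun i x hx => ?_) ((hh l).sub hc h1)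
    rw [ev_sub, ev_sub, dsn_congr l hU (he i) x (hs hx), sub_sub_cancel, ev_mul, abs_mul,
      abs_of_pos (hκ.trans_le (hlo i x hx)), one_div, ← mul_assoc]
    refine le_mul_of_one_le_left (abs_nonneg _) ?_
    rw [← div_eq_inv_mul, le_div_iff₀ hκ, one_mul]
    exact hlo i x hx
theorem cls_exp (hc : c.OK) (he : ∀ i, ds (g i) = f i * g i) (hb : Bnd c g) (hf : Cls c 0 f) :
    Cls c 0 g := by
  intro l
  induction l using Nat.strong_induction_on with
  | _ l ih =>
    rcases l with _ | l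
    · exact good_of_bnd hc hb
    · simp only [dsn_succ', he, dsn_mul]
      refine good_sum hc _ fun q hq => ?_
      have := Finset.mem_range.1 hq
      exact cl_term hc _ (hf _) (ih _ (by omega)) (by omega) (by omega) (by omega)

end
end Vale.Agent.P229
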