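import Vale.Agent.P229.CBd
import Vale.Agent.P229.Cls

open scoped ContDiff
open MeasureTheory Metric

namespace Vale.Agent.P229
noncomputable section

variable {I : Type} {Λ r0 : ℝ} {N : ℕ} {cB μ M r1 : ℝ}

theorem base_pp {σ : Sm} (hM : 1 ≤ M) (h0 : |σ.1 0| ≤ M) (h1 : |(ds σ).1 0| ≤ M)
    (h2 : |(dt σ).1 0| ≤ M) {x : Pt} (hx : ‖x‖ ≤ 1) : |(pp σ).1 x| ≤ 4 * M ^ 2 * ‖x‖ := by
  have hs : |x.1| ≤ ‖x‖ := le_max_left _ _
  have ht : |x.2| ≤ ‖x‖ := le_max_right _ _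
  have hn := norm_nonneg x
  have hM2 : M ≤ M ^ 2 := by nlinarith
  have a1 : |σ.1 0 * x.2| ≤ M * ‖x‖ := by
    rw [abs_mul]
    gcongr
  have a2 : |(ds σ).1 0 * (x.1 * x.2)| ≤ M * (1 * ‖x‖) := by
    rw [abs_mul, abs_mul]
    gcongr
    exact hs.trans hx
  have a3 : |σ.1 0 * (ds σ).1 0| ≤ M * M := by
    rw [abs_mul]
    gcongr
  have a4 : |((dt σ).1 0 - σ.1 0 * (ds σ).1 0) / 2| ≤ M ^ 2 := by
    rw [abs_div, abs_two]
    have := abs_sub ((dt σ).1 0) (σ.1 0 * (ds σ).1 0)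
    linarith
  have a5 : |((dt σ).1 0 - σ.1 0 * (ds σ).1 0) / 2 * x.2 ^ 2| ≤ M ^ 2 * (1 * ‖x‖) := by
    rw [abs_mul, sq x.2, abs_mul]
    gcongr
    exact ht.trans hx
  have a6 := mul_le_mul_of_nonneg_right hM2 hn
  have a7 := mul_le_mul_of_nonneg_right (hM.trans hM2) hn
  simp only [pp, ev_sub, ev_mul, ev_cst, ev_cS, ev_cT, ev_pow]
  rw [abs_le] at *
  constructor <;> linarith [hs.1, hs.2, a1.1, a1.2, a2.1, a2.2, a5.1, a5.2]

theorem base_bw (F : Fam I Λ r0 N cB μ M r1) (hp : Par Λ r0 N cB μ M r1) (i : I) {x : Pt}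
    (hx : ‖x‖ ≤ 1) :
    (bw (F.σ i) (F.η i)).1 x ≤ 1 + 1 / F.η i ^ 56 * ((4 * M ^ 2) ^ 2 * ‖x‖ ^ 2) := by
  have hc := F.co i 0 (Nat.zero_le _)
  have h0 := mem_closedBall_self (x := (0 : Pt)) hp.r10.le
  have h := base_pp (σ := F.σ i) hp.hM (hc.σ0 0 h0) (hc.σs 0 h0) (hc.σt 0 h0) hx
  have h1 := pow_le_pow_left₀ (abs_nonneg _) h 2
  have h2 := F.pos i
  rw [sq_abs, mul_pow] at h1
  simp only [bw, ev_add, ev_one, ev_mul, ev_cst, ev_pow]
  gcongr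

theorem ctx_ok (F : Fam I Λ r0 N cB μ M r1) (hp : Par Λ r0 N cB μ M r1) (J : ℕ) {r : ℝ}
    (hr : 0 < r) (hr1 : r < r1) : (F.ctx J r).OK := by
  have hr2 : r ≤ 1 := by linarith [hp.r11, hp.r01]
  have hη : ∀ i, F.η i ≤ 1 := fun i => (F.le i).trans hp.cB1
  refine ⟨F.pos, hη, fun i => Sm.cont _, fun i x => ?_, ⟨1 + (4 * M ^ 2) ^ 2, fun i x hx => ?_⟩,
    ⟨1 + (4 * M ^ 2) ^ 2, fun i x hx => ?_⟩, hr, hr2, hp.hN⟩
  · have := F.pos i
    show 1 ≤ (bw (F.σ i) (F.η i)).1 x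
    simp only [bw, ev_add, ev_one, ev_mul, ev_cst, ev_pow]
    exact le_add_of_nonneg_right (by positivity)
  · have h1 : ‖x‖ ≤ 1 := (mem_closedBall_zero_iff.1 hx).trans hr2
    have h2 := F.pos i
    have h3 : 1 ≤ (1 / F.η i) ^ 56 := one_le_pow₀ (one_le_one_div h2 (hη i))
    have h4 : ‖x‖ ^ 2 ≤ 1 := pow_le_one₀ (norm_nonneg _) h1
    refine (base_bw F hp i h1).trans ?_
    show _ ≤ _ * (1 / F.η i) ^ 56
    rw [← one_div_pow, add_mul, one_mul, mul_comm _ (_ ^ 56)]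
    gcongr
    exact mul_le_of_le_one_right (by positivity) h4
  · have h2 := F.pos i
    have hx' : ‖x‖ ≤ F.η i ^ 28 := hx.trans (pow_le_pow_of_le_one h2.le (hη i) (by norm_num))
    have h3 := pow_le_pow_left₀ (norm_nonneg _) hx' 2
    rw [← pow_mul] at h3
    refine (base_bw F hp i (hx'.trans (pow_le_one₀ h2.le (hη i)))).trans ?_
    rw [add_le_add_iff_left, one_div, inv_mul_le_iff₀ (by positivity), mul_comm]
    gcongr

theorem inv_base (F : Fam I Λ r0 N cB μ M r1) (hp : Par Λ r0 N cB μ M r1) {r : ℝ}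
    (hr : 0 < r) (hr1 : r < r1) : F.Inv 8 r := by
  have hc := ctx_ok F hp 8 hr hr1
  have hs : closedBall (0 : Pt) r ⊆ ball 0 r0 := closedBall_subset_ball (hr1.trans hp.r11)
  have key : ∀ f : I → Sm, (∀ i, Bd (ball (0 : Pt) r0) Λ 7 (f i)) → Cls (F.ctx 8 r) 1 f := by
    intro f hf l
    by_cases hl : l ≤ 7
    · refine good_of_bnd hc ⟨Λ, fun i x hx => ?_⟩
      exact (Bd.dsn (k := 0) ((hf i).mono_ord (by omega))).zero x (hs hx)
    · refine ⟨fun h => ?_, fun h => ?_⟩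
      · change l + 1 ≤ 8 at h
        omega
      · change l + 1 ≤ 8 ∨ l + 1 + 3 ≤ 8 at h
        omega
  refine ⟨key _ fun i => (F.sol i).bd.2.1, key _ fun i => (F.sol i).bd.2.2, ?_⟩
  obtain ⟨C, hC⟩ := hc.big
  refine ⟨max C 0 * 3 * Λ ^ 2 * volume.real (closedBall (0 : Pt) r), fun i => ?_⟩
  have h0 := F.pos i
  have h1 : F.η i ≤ 1 := hc.le1 i
  have h2 : (1 / F.η i) ^ 56 ≤ F.η i ^ 32 * ((1 / F.η i) ^ ey N 8) ^ 2 := by
    have h3 : (1 / F.η i) ^ 88 ≤ (1 / F.η i) ^ (ey N 8 * 2) :=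
      pow_le_pow_right₀ (one_le_one_div h0 h1) (by have := gd_ey_ge N 8; omega)
    rw [← pow_mul]
    refine le_trans (le_of_eq ?_) (mul_le_mul_of_nonneg_left h3 (by positivity))
    field_simp
  have h3 := norm_setIntegral_le_of_norm_le_const (μ := volume) (s := closedBall (0 : Pt) r)
    (f := fun x => (bw (F.σ i) (F.η i)).1 x * Wt μ (F.η i) x * (dsn 8 (F.z i)).1 x ^ 2)
    (C := max C 0 * (1 / F.η i) ^ 56 * 3 * Λ ^ 2) measure_closedBall_lt_top fun x hx => by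
      have a1 : 0 ≤ (bw (F.σ i) (F.η i)).1 x := zero_le_one.trans (hc.one i x)
      have a2 : (bw (F.σ i) (F.η i)).1 x ≤ max C 0 * (1 / F.η i) ^ 56 :=
        (hC i x hx).trans (mul_le_mul_of_nonneg_right (le_max_left _ _) (by positivity))
      have a3 := mem_box.1 hx
      have a4 : x.1 ^ 2 ≤ 1 := (sq_le_one_iff_abs_le_one _).2 (a3.1.trans hc.hr1)
      have a5 : x.2 ^ 2 ≤ 1 := (sq_le_one_iff_abs_le_one _).2 (a3.2.trans hc.hr1)
      have a6 : F.η i ^ 32 ≤ 1 := pow_le_one₀ h0.le h1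
      have a7 := hp.μ0
      have a8 : Wt μ (F.η i) x ≤ 3 := by
        have := mul_le_one₀ hp.μ1 (sq_nonneg _) a4
        unfold Wt
        linarith
      have a9 : 0 ≤ Wt μ (F.η i) x := by
        unfold Wt
        positivity
      have a10 := pow_le_pow_left₀ (abs_nonneg _)
        ((Bd.dsn (k := 0) (l := 8) (F.sol i).bd).zero x (hs hx)) 2
      rw [sq_abs] at a10
      rw [Real.norm_of_nonneg (by positivity)]
      gcongr
  refine ((le_abs_self _).trans h3).trans ?_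
  have h4 : 0 ≤ max C 0 * 3 * Λ ^ 2 * volume.real (closedBall (0 : Pt) r) := by positivity
  refine le_trans (le_of_eq ?_) (mul_le_mul_of_nonneg_left h2 h4)
  ring

end
end Vale.Agent.P229
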