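import Mathlib

/-! The ring of smooth functions on the plane with its two coordinate derivations. -/

open scoped ContDiff
open MeasureTheory Metric

namespace Vale.Agent.P229
noncomputable section

abbrev Pt := ℝ × ℝ

/-- smooth real functions on the plane -/
def Sm : Subalgebra ℝ (Pt → ℝ) where
  carrier := {f | ContDiff ℝ ∞ f}
  mul_mem' := fun {f g} (hf : ContDiff ℝ ∞ f) (hg : ContDiff ℝ ∞ g) =>
    (hf.mul hg : ContDiff ℝ ∞ fun x => f x * g x)
  add_mem' := fun {f g} (hf : ContDiff ℝ ∞ f) (hg : ContDiff ℝ ∞ g) =>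
    (hf.add hg : ContDiff ℝ ∞ fun x => f x + g x)
  algebraMap_mem' := fun a => (contDiff_const : ContDiff ℝ ∞ fun _ : Pt => a)

/-- constructor -/
def mkS (f : Pt → ℝ) (h : ContDiff ℝ ∞ f) : Sm := ⟨f, h⟩
@[simp] theorem ev_mkS (f : Pt → ℝ) (h : ContDiff ℝ ∞ f) (x : Pt) : (mkS f h).1 x = f x := rfl

theorem Sm.cd (f : Sm) : ContDiff ℝ ∞ f.1 := f.2
theorem Sm.cont (f : Sm) : Continuous f.1 := (Sm.cd f).continuous
theorem Sm.diff (f : Sm) : Differentiable ℝ f.1 := (Sm.cd f).differentiable (by simp)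
theorem Sm.ext' {f g : Sm} (h : ∀ x, f.1 x = g.1 x) : f = g := Subtype.ext (funext h)

@[simp] theorem ev_add (f g : Sm) (x : Pt) : (f + g).1 x = f.1 x + g.1 x := rfl
@[simp] theorem ev_sub (f g : Sm) (x : Pt) : (f - g).1 x = f.1 x - g.1 x := rfl
@[simp] theorem ev_neg (f : Sm) (x : Pt) : (-f).1 x = - f.1 x := rfl
@[simp] theorem ev_mul (f g : Sm) (x : Pt) : (f * g).1 x = f.1 x * g.1 x := rfl
@[simp] theorem ev_pow (f : Sm) (n : ℕ) (x : Pt) : (f ^ n).1 x = f.1 x ^ n := by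
  induction n with
  | zero => simp
  | succ n ih => rw [pow_succ, ev_mul, ih, pow_succ]
@[simp] theorem ev_smul (a : ℝ) (f : Sm) (x : Pt) : (a • f).1 x = a * f.1 x := rfl
@[simp] theorem ev_zero (x : Pt) : (0 : Sm).1 x = 0 := rfl
@[simp] theorem ev_one (x : Pt) : (1 : Sm).1 x = 1 := rfl
theorem ev_sum {α : Type*} (s : Finset α) (f : α → Sm) (x : Pt) :
    (∑ a ∈ s, f a).1 x = ∑ a ∈ s, (f a).1 x := by
  classical
  induction s using Finset.induction_on with
  | empty => simp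
  | insert a s ha ih => rw [Finset.sum_insert ha, Finset.sum_insert ha, ev_add, ih]

/-- constants -/
def cst (a : ℝ) : Sm := algebraMap ℝ Sm a
@[simp] theorem ev_cst (a : ℝ) (x : Pt) : (cst a).1 x = a := rfl
theorem smul_eq_cst (a : ℝ) (f : Sm) : a • f = cst a * f := Sm.ext' fun _ => rfl

/-- directional derivative as a derivation -/
def dv (v : Pt) : Derivation ℝ Sm Sm :=
  Derivation.mk'
    { toFun := fun f => ⟨fun x => fderiv ℝ f.1 x v,
        ((Sm.cd f).fderiv_right (m := ∞) (by simp)).clm_apply contDiff_const⟩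
      map_add' := fun f g => Sm.ext' fun x => by
        show fderiv ℝ (f.1 + g.1) x v = fderiv ℝ f.1 x v + fderiv ℝ g.1 x v
        rw [fderiv_add (Sm.diff f x) (Sm.diff g x)]; rfl
      map_smul' := fun a f => Sm.ext' fun x => by
        show fderiv ℝ (a • f.1) x v = a * fderiv ℝ f.1 x v
        rw [fderiv_const_smul (Sm.diff f x)]; rfl }
    (fun f g => Sm.ext' fun x => by
      show fderiv ℝ (f.1 * g.1) x v = f.1 x * fderiv ℝ g.1 x v + g.1 x * fderiv ℝ f.1 x v
      rw [fderiv_mul (Sm.diff f x) (Sm.diff g x)]; rfl)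

theorem dv_ev (v : Pt) (f : Sm) (x : Pt) : (dv v f).1 x = fderiv ℝ f.1 x v := rfl

/-- derivative in the first coordinate -/
def ds : Derivation ℝ Sm Sm := dv (1, 0)
/-- derivative in the second coordinate -/
def dt : Derivation ℝ Sm Sm := dv (0, 1)

theorem ds_ev (f : Sm) (x : Pt) : (ds f).1 x = fderiv ℝ f.1 x (1, 0) := rfl
theorem dt_ev (f : Sm) (x : Pt) : (dt f).1 x = fderiv ℝ f.1 x (0, 1) := rfl

theorem dv_comm (v w : Pt) (f : Sm) : dv v (dv w f) = dv w (dv v f) := Sm.ext' fun x => by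
  have h2 : ContDiffAt ℝ 2 f.1 x := ((Sm.cd f).of_le (by norm_cast)).contDiffAt
  have hs := h2.isSymmSndFDerivAt (by simp)
  have hd : DifferentiableAt ℝ (fderiv ℝ f.1) x :=
    (((Sm.cd f).fderiv_right (m := ∞) (by simp)).differentiable (by simp)) x
  have key : ∀ a b : Pt, (dv a (dv b f)).1 x = fderiv ℝ (fderiv ℝ f.1) x a b := by
    intro a b
    show fderiv ℝ (fun y => fderiv ℝ f.1 y b) x a = _
    rw [fderiv_clm_apply hd (differentiableAt_const _)]; simp
  rw [key, key, hs.eq]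

/-- normal form: `dt` innermost is avoided; `dt (ds f)` rewrites to `ds (dt f)` -/
theorem dt_ds (f : Sm) : dt (ds f) = ds (dt f) := dv_comm _ _ f

theorem fderiv_ev (f : Sm) (x v : Pt) : fderiv ℝ f.1 x v = v.1 * (ds f).1 x + v.2 * (dt f).1 x := by
  have : v = v.1 • ((1, 0) : Pt) + v.2 • ((0, 1) : Pt) := by ext <;> simp
  conv_lhs => rw [this]
  rw [map_add, map_smul, map_smul]; rfl

@[simp] theorem dv_cst (v : Pt) (a : ℝ) : dv v (cst a) = 0 := Derivation.map_algebraMap _ a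
@[simp] theorem ds_cst (a : ℝ) : ds (cst a) = 0 := dv_cst _ a
@[simp] theorem dt_cst (a : ℝ) : dt (cst a) = 0 := dv_cst _ a
theorem ds_mul (f g : Sm) : ds (f * g) = f * ds g + g * ds f := by simp [Derivation.leibniz]
theorem dt_mul (f g : Sm) : dt (f * g) = f * dt g + g * dt f := by simp [Derivation.leibniz]
theorem dv_pow (v : Pt) (f : Sm) (n : ℕ) : dv v (f ^ (n + 1)) = cst (n + 1) * f ^ n * dv v f := by
  rw [Derivation.leibniz_pow]
  exact Sm.ext' fun x => by simp [mul_assoc]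
theorem ds_pow (f : Sm) (n : ℕ) : ds (f ^ (n + 1)) = cst (n + 1) * f ^ n * ds f := dv_pow _ f n
theorem dt_pow (f : Sm) (n : ℕ) : dt (f ^ (n + 1)) = cst (n + 1) * f ^ n * dt f := dv_pow _ f n

/-- the coordinate functions -/
def cS : Sm := mkS (fun x => x.1) contDiff_fst
def cT : Sm := mkS (fun x => x.2) contDiff_snd
@[simp] theorem ev_cS (x : Pt) : cS.1 x = x.1 := rfl
@[simp] theorem ev_cT (x : Pt) : cT.1 x = x.2 := rfl
@[simp] theorem ds_cS : ds cS = 1 := Sm.ext' fun x => by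
  show fderiv ℝ (fun y : Pt => y.1) x (1, 0) = 1
  rw [fderiv_fst]; rfl
@[simp] theorem dt_cS : dt cS = 0 := Sm.ext' fun x => by
  show fderiv ℝ (fun y : Pt => y.1) x (0, 1) = 0
  rw [fderiv_fst]; rfl
@[simp] theorem ds_cT : ds cT = 0 := Sm.ext' fun x => by
  show fderiv ℝ (fun y : Pt => y.2) x (1, 0) = 0
  rw [fderiv_snd]; rfl
@[simp] theorem dt_cT : dt cT = 1 := Sm.ext' fun x => by
  show fderiv ℝ (fun y : Pt => y.2) x (0, 1) = 1
  rw [fderiv_snd]; rfl

/-- post-composition with a smooth function of one variable -/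
def cmp (g : ℝ → ℝ) (hg : ContDiff ℝ ∞ g) (f : Sm) : Sm := ⟨fun x => g (f.1 x), hg.comp (Sm.cd f)⟩
@[simp] theorem ev_cmp (g : ℝ → ℝ) (hg : ContDiff ℝ ∞ g) (f : Sm) (x : Pt) :
    (cmp g hg f).1 x = g (f.1 x) := rfl
theorem dv_cmp_ev (v : Pt) (g : ℝ → ℝ) (hg : ContDiff ℝ ∞ g) (f : Sm) (x : Pt) (g' : ℝ)
    (h : HasDerivAt g g' (f.1 x)) : (dv v (cmp g hg f)).1 x = g' * (dv v f).1 x := by
  have := (h.comp_hasFDerivAt x (Sm.diff f x).hasFDerivAt).fderiv
  show fderiv ℝ (g ∘ f.1) x v = _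
  rw [this]; rfl

def ex (f : Sm) : Sm := cmp Real.exp Real.contDiff_exp f
def co (f : Sm) : Sm := cmp Real.cos Real.contDiff_cos f
def si (f : Sm) : Sm := cmp Real.sin Real.contDiff_sin f
@[simp] theorem ev_ex (f : Sm) (x : Pt) : (ex f).1 x = Real.exp (f.1 x) := rfl
@[simp] theorem ev_co (f : Sm) (x : Pt) : (co f).1 x = Real.cos (f.1 x) := rfl
@[simp] theorem ev_si (f : Sm) (x : Pt) : (si f).1 x = Real.sin (f.1 x) := rfl
theorem dv_ex (v : Pt) (f : Sm) : dv v (ex f) = ex f * dv v f :=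
  Sm.ext' fun x => dv_cmp_ev v _ _ f x _ (Real.hasDerivAt_exp _)
theorem dv_co (v : Pt) (f : Sm) : dv v (co f) = -(si f * dv v f) :=
  Sm.ext' fun x => by
    rw [co, dv_cmp_ev v _ _ f x _ (Real.hasDerivAt_cos _)]; simp
theorem dv_si (v : Pt) (f : Sm) : dv v (si f) = co f * dv v f :=
  Sm.ext' fun x => dv_cmp_ev v _ _ f x _ (Real.hasDerivAt_sin _)
theorem ds_ex (f : Sm) : ds (ex f) = ex f * ds f := dv_ex _ f
theorem dt_ex (f : Sm) : dt (ex f) = ex f * dt f := dv_ex _ f
theorem ds_co (f : Sm) : ds (co f) = -(si f * ds f) := dv_co _ f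
theorem dt_co (f : Sm) : dt (co f) = -(si f * dt f) := dv_co _ f
theorem ds_si (f : Sm) : ds (si f) = co f * ds f := dv_si _ f
theorem dt_si (f : Sm) : dt (si f) = co f * dt f := dv_si _ f

/-- iterated derivative in the first coordinate -/
def dsn (j : ℕ) : Sm →ₗ[ℝ] Sm := (ds : Sm →ₗ[ℝ] Sm) ^ j
@[simp] theorem dsn_zero (f : Sm) : dsn 0 f = f := rfl
theorem dsn_succ (j : ℕ) (f : Sm) : dsn (j + 1) f = ds (dsn j f) := by
  simp [dsn, pow_succ']
theorem dsn_succ' (j : ℕ) (f : Sm) : dsn (j + 1) f = dsn j (ds f) := by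
  simp [dsn, pow_succ]
theorem dsn_ds (j : ℕ) (f : Sm) : dsn j (ds f) = ds (dsn j f) := by rw [← dsn_succ', dsn_succ]
theorem dsn_dt (j : ℕ) (f : Sm) : dsn j (dt f) = dt (dsn j f) := by
  induction j with
  | zero => rfl
  | succ j ih => rw [dsn_succ, dsn_succ, ih, dt_ds]
theorem dsn_add (i j : ℕ) (f : Sm) : dsn (i + j) f = dsn i (dsn j f) := by
  simp [dsn, pow_add]

/-- Leibniz formula -/
theorem dsn_mul (j : ℕ) (f g : Sm) :
    dsn j (f * g) = ∑ l ∈ Finset.range (j + 1), (j.choose l : ℝ) • (dsn l f * dsn (j - l) g) := by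
  induction j with
  | zero => simp
  | succ j ih =>
    rw [dsn_succ, ih, map_sum]
    have h1 : ∀ l ∈ Finset.range (j + 1), ds ((j.choose l : ℝ) • (dsn l f * dsn (j - l) g)) =
        (j.choose l : ℝ) • (dsn l f * dsn (j + 1 - l) g) +
        (j.choose l : ℝ) • (dsn (l + 1) f * dsn (j + 1 - (l + 1)) g) := by
      intro l hl
      have hl' : l ≤ j := Nat.lt_succ_iff.mp (Finset.mem_range.mp hl)
      rw [Derivation.map_smul, ds_mul, smul_add, show j + 1 - l = (j - l) + 1 by omega,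
        show j + 1 - (l + 1) = j - l by omega, dsn_succ, dsn_succ, mul_comm (dsn (j - l) g)]
    rw [Finset.sum_congr rfl h1, Finset.sum_add_distrib,
      Finset.sum_range_succ' (fun l => ((j + 1).choose l : ℝ) • (dsn l f * dsn (j + 1 - l) g))]
    have h2 : ∀ l ∈ Finset.range (j + 1),
        (((j + 1).choose (l + 1) : ℕ) : ℝ) • (dsn (l + 1) f * dsn (j + 1 - (l + 1)) g) =
        (j.choose l : ℝ) • (dsn (l + 1) f * dsn (j + 1 - (l + 1)) g) +
        (j.choose (l + 1) : ℝ) • (dsn (l + 1) f * dsn (j + 1 - (l + 1)) g) := by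
      intro l _
      rw [Nat.choose_succ_succ', Nat.cast_add, add_smul]
    rw [Finset.sum_congr rfl h2, Finset.sum_add_distrib,
      Finset.sum_range_succ' (fun l => (j.choose l : ℝ) • (dsn l f * dsn (j + 1 - l) g)),
      Finset.sum_range_succ (fun l => (j.choose (l + 1) : ℝ) • (dsn (l + 1) f * dsn (j + 1 - (l + 1)) g))]
    simp only [Nat.choose_succ_self, Nat.cast_zero, zero_smul, add_zero, Nat.choose_zero_right]
    abel

theorem dv_congr (v : Pt) {f g : Sm} {U : Set Pt} (hU : IsOpen U) (h : ∀ x ∈ U, f.1 x = g.1 x) :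
    ∀ x ∈ U, (dv v f).1 x = (dv v g).1 x := by
  intro x hx
  have : f.1 =ᶠ[nhds x] g.1 := Filter.eventually_of_mem (hU.mem_nhds hx) h
  rw [dv_ev, dv_ev, this.fderiv_eq]
theorem ds_congr {f g : Sm} {U : Set Pt} (hU : IsOpen U) (h : ∀ x ∈ U, f.1 x = g.1 x) :
    ∀ x ∈ U, (ds f).1 x = (ds g).1 x := dv_congr _ hU h
theorem dt_congr {f g : Sm} {U : Set Pt} (hU : IsOpen U) (h : ∀ x ∈ U, f.1 x = g.1 x) :
    ∀ x ∈ U, (dt f).1 x = (dt g).1 x := dv_congr _ hU h
theorem dsn_congr (j : ℕ) {f g : Sm} {U : Set Pt} (hU : IsOpen U) (h : ∀ x ∈ U, f.1 x = g.1 x) :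
    ∀ x ∈ U, (dsn j f).1 x = (dsn j g).1 x := by
  induction j with
  | zero => exact h
  | succ j ih => simp only [dsn_succ]; exact ds_congr hU ih

theorem dv_compact (v : Pt) {f : Sm} (h : HasCompactSupport f.1) : HasCompactSupport (dv v f).1 :=
  h.fderiv_apply (𝕜 := ℝ) v

theorem integrable_of_compact {f : Sm} (h : HasCompactSupport f.1) : Integrable f.1 :=
  (Sm.cont f).integrable_of_hasCompactSupport h

/-- the integral of a derivative of a compactly supported function vanishes -/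
theorem integral_dv (v : Pt) {f : Sm} (h : HasCompactSupport f.1) : ∫ x, (dv v f).1 x = 0 := by
  have h1 := integral_mul_fderiv_eq_neg_fderiv_mul_of_integrable (μ := (volume : Measure Pt))
    (f := fun _ : Pt => (1 : ℝ)) (g := f.1) (v := v) (by simp)
    (by simp only [one_mul]; exact integrable_of_compact (dv_compact v h))
    (by simpa using integrable_of_compact h) (fun _ _ => differentiableAt_const _)
    (fun x _ => Sm.diff f x)
  simpa [dv_ev] using h1
theorem integral_ds {f : Sm} (h : HasCompactSupport f.1) : ∫ x, (ds f).1 x = 0 := integral_dv _ h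
theorem integral_dt {f : Sm} (h : HasCompactSupport f.1) : ∫ x, (dt f).1 x = 0 := integral_dv _ h

/-- continuous functions are integrable on closed boxes -/
theorem intOn {f : Pt → ℝ} (hf : Continuous f) (r : ℝ) : IntegrableOn f (closedBall (0 : Pt) r) :=
  hf.continuousOn.integrableOn_compact (isCompact_closedBall _ _)

theorem mem_box {x : Pt} {r : ℝ} : x ∈ closedBall (0 : Pt) r ↔ |x.1| ≤ r ∧ |x.2| ≤ r := by
  rw [mem_closedBall_zero_iff, Prod.norm_def, max_le_iff]; rfl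

theorem norm_pt (x : Pt) : ‖x‖ = max |x.1| |x.2| := rfl

/-- mean value inequality from the origin -/
theorem lip0 (f : Sm) {r A : ℝ} (h1 : ∀ y ∈ closedBall (0 : Pt) r, |(ds f).1 y| ≤ A)
    (h2 : ∀ y ∈ closedBall (0 : Pt) r, |(dt f).1 y| ≤ A) :
    ∀ x ∈ closedBall (0 : Pt) r, |f.1 x - f.1 0| ≤ 2 * A * ‖x‖ := by
  intro x hx
  have hr : 0 ≤ r := le_trans (norm_nonneg x) (mem_closedBall_zero_iff.mp hx)
  have hA : 0 ≤ A := le_trans (abs_nonneg _) (h1 x hx)
  have := (convex_closedBall (0 : Pt) r).norm_image_sub_le_of_norm_fderiv_le (𝕜 := ℝ) (f := f.1)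
    (C := 2 * A) (fun y _ => Sm.diff f y) (fun y hy => by
      refine ContinuousLinearMap.opNorm_le_bound _ (by positivity) fun v => ?_
      rw [fderiv_ev, Real.norm_eq_abs]
      have a1 : |v.1| ≤ ‖v‖ := by rw [norm_pt]; exact le_max_left _ _
      have a2 : |v.2| ≤ ‖v‖ := by rw [norm_pt]; exact le_max_right _ _
      calc |v.1 * (ds f).1 y + v.2 * (dt f).1 y| ≤ |v.1| * |(ds f).1 y| + |v.2| * |(dt f).1 y| := by
            rw [← abs_mul, ← abs_mul]; exact abs_add_le _ _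
        _ ≤ ‖v‖ * A + ‖v‖ * A := by gcongr; exacts [h1 y hy, h2 y hy]
        _ = 2 * A * ‖v‖ := by ring)
    (mem_closedBall_self hr) hx
  simpa using this

/-- a smooth cut-off: `1` on the box of radius `r/2`, supported in the open box of radius `r` -/
theorem exists_cut {r : ℝ} (hr : 0 < r) : ∃ χ : Sm, HasCompactSupport χ.1 ∧
    (∀ x, 0 ≤ χ.1 x ∧ χ.1 x ≤ 1) ∧ (∀ x ∈ closedBall (0 : Pt) (r / 2), χ.1 x = 1) ∧
    (∀ x, x ∉ ball (0 : Pt) r → χ.1 x = 0) := by
  let b : ContDiffBump (0 : Pt) := ⟨r / 2, r, by positivity, by linarith⟩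
  refine ⟨⟨b, b.contDiff⟩, b.hasCompactSupport, fun x => ⟨b.nonneg, b.le_one⟩,
    fun x hx => b.one_of_mem_closedBall hx, fun x hx => ?_⟩
  exact b.zero_of_le_dist (by simpa using hx)

/-- smooth functions with compact support are bounded -/
theorem exists_bound_compact {f : Sm} (h : HasCompactSupport f.1) : ∃ X, ∀ x, |f.1 x| ≤ X := by
  obtain ⟨C, hC⟩ := (Sm.cont f).bounded_above_of_compact_support h
  exact ⟨C, hC⟩

/-- smooth functions are bounded on boxes -/
theorem exists_bound_box (f : Sm) (r : ℝ) : ∃ X, ∀ x ∈ closedBall (0 : Pt) r, |f.1 x| ≤ X := by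
  obtain ⟨C, hC⟩ := (isCompact_closedBall (0 : Pt) r).exists_bound_of_continuousOn
    (Sm.cont f).continuousOn
  exact ⟨C, hC⟩

/-- a smooth function that is `1 / x` for `x ≥ κ` -/
theorem exists_sinv {κ : ℝ} (hκ : 0 < κ) :
    ∃ g : ℝ → ℝ, ContDiff ℝ ∞ g ∧ ∀ x, κ ≤ x → g x = 1 / x := by
  let S : ℝ → ℝ := fun x => Real.smoothTransition (2 * x / κ - 1)
  have hS : ContDiff ℝ ∞ S := Real.smoothTransition.contDiff.comp (by fun_prop)
  have hpos : ∀ x, 0 < x * S x + (1 - S x) := by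
    intro x
    have h0 : 0 ≤ S x := Real.smoothTransition.nonneg _
    have h1 : S x ≤ 1 := Real.smoothTransition.le_one _
    by_cases hx : x ≤ κ / 2
    · have : S x = 0 := Real.smoothTransition.zero_of_nonpos (by
        have : 2 * x / κ ≤ 1 := by rw [div_le_one hκ]; linarith
        linarith)
      rw [this]; norm_num
    · have hx0 : 0 < x := by linarith
      rcases eq_or_lt_of_le h1 with h | h
      · rw [h]; linarith
      · nlinarith [mul_nonneg hx0.le h0]
  refine ⟨fun x => 1 / (x * S x + (1 - S x)),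
    contDiff_const.div (by fun_prop) (fun x => (hpos x).ne'), fun x hx => ?_⟩
  have : S x = 1 := Real.smoothTransition.one_of_one_le (by
    have : 2 ≤ 2 * x / κ := by rw [le_div_iff₀ hκ]; linarith
    linarith)
  simp [this]

end
end Vale.Agent.P229
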