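import Vale.Agent.P229.QForm

open scoped ContDiff
open MeasureTheory Metric

namespace Vale.Agent.P229
noncomputable section

variable {I : Type} {U : Set Pt} {k : ℕ} {f g : I → Sm}

theorem Bd.mono_const {A B : ℝ} {h : Sm} (hb : Bd U A k h) (hAB : A ≤ B) : Bd U B k h := by
  induction k generalizing h with
  | zero => exact fun x hx => (hb x hx).trans hAB
  | succ k ih => exact ⟨fun x hx => (hb.1 x hx).trans hAB, ih hb.2.1, ih hb.2.2⟩
theorem Bd.mono_set {A : ℝ} {h : Sm} {V : Set Pt} (hb : Bd U A k h) (hV : V ⊆ U) : Bd V A k h := by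
  induction k generalizing h with
  | zero => exact fun x hx => hb x (hV hx)
  | succ k ih => exact ⟨fun x hx => hb.1 x (hV hx), ih hb.2.1, ih hb.2.2⟩
theorem cbd_zero {A : ℝ} {h : Sm} (hb : Bd U A k h) : ∀ x ∈ U, |h.1 x| ≤ A := by
  cases k with
  | zero => exact hb
  | succ k => exact hb.1
theorem Bd.mono_ord {A : ℝ} {h : Sm} {l : ℕ} (hb : Bd U A k h) (hl : l ≤ k) : Bd U A l h := by
  induction l generalizing h k with
  | zero => exact cbd_zero hb
  | succ l ih =>
    obtain ⟨k, rfl⟩ : ∃ k', k = k' + 1 := ⟨k - 1, by omega⟩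
    exact ⟨hb.1, ih hb.2.1 (by omega), ih hb.2.2 (by omega)⟩
theorem Bd.zero {A : ℝ} {h : Sm} (hb : Bd U A k h) : ∀ x ∈ U, |h.1 x| ≤ A :=
  cbd_zero hb
theorem Bd.dsn {A : ℝ} {h : Sm} {l : ℕ} (hb : Bd U A (k + l) h) : Bd U A k (dsn l h) := by
  induction l generalizing h with
  | zero => exact hb
  | succ l ih =>
    rw [dsn_succ']
    exact ih hb.2.1
theorem Bd.congr {A : ℝ} {h h' : Sm} (hU : IsOpen U) (he : ∀ x ∈ U, h.1 x = h'.1 x)
    (hb : Bd U A k h') : Bd U A k h := by
  induction k generalizing h h' with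
  | zero => exact fun x hx => (he x hx).symm ▸ hb x hx
  | succ k ih =>
    exact ⟨fun x hx => (he x hx).symm ▸ hb.1 x hx, ih (ds_congr hU he) hb.2.1,
      ih (dt_congr hU he) hb.2.2⟩
theorem exists_bd (h : Sm) (r : ℝ) (k : ℕ) : ∃ A : ℝ, Bd (closedBall (0 : Pt) r) A k h := by
  induction k generalizing h with
  | zero => exact exists_bound_box h r
  | succ k ih =>
    obtain ⟨A, hA⟩ := exists_bound_box h r
    obtain ⟨B, hB⟩ := ih (ds h)
    obtain ⟨C, hC⟩ := ih (dt h)
    exact ⟨max A (max B C), fun x hx => (hA x hx).trans (le_max_left _ _),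
      hB.mono_const ((le_max_left _ _).trans (le_max_right _ _)),
      hC.mono_const ((le_max_right _ _).trans (le_max_right _ _))⟩

theorem cbd_s (hf : CB U (k + 1) f) : CB U k fun i => ds (f i) :=
  hf.imp fun _ hC i => (hC i).2.1
theorem cbd_t (hf : CB U (k + 1) f) : CB U k fun i => dt (f i) :=
  hf.imp fun _ hC i => (hC i).2.2
theorem cbd_ord {l : ℕ} (hf : CB U k f) (hl : l ≤ k) : CB U l f :=
  hf.imp fun _ hC i => (hC i).mono_ord hl
theorem cbd_succ (h0 : CB U 0 f) (h1 : CB U k fun i => ds (f i)) (h2 : CB U k fun i => dt (f i)) :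
    CB U (k + 1) f := by
  obtain ⟨A, hA⟩ := h0
  obtain ⟨B, hB⟩ := h1
  obtain ⟨C, hC⟩ := h2
  exact ⟨max A (max B C), fun i => ⟨fun x hx => (hA i x hx).trans (le_max_left _ _),
    (hB i).mono_const ((le_max_left _ _).trans (le_max_right _ _)),
    (hC i).mono_const ((le_max_right _ _).trans (le_max_right _ _))⟩⟩
theorem cbd_add0 (hf : CB U 0 f) (hg : CB U 0 g) : CB U 0 fun i => f i + g i := by
  obtain ⟨A, hA⟩ := hf
  obtain ⟨B, hB⟩ := hg
  refine ⟨A + B, fun i x hx => ?_⟩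
  rw [ev_add]
  exact (abs_add_le _ _).trans (add_le_add (hA i x hx) (hB i x hx))
theorem cbd_mul0 (hf : CB U 0 f) (hg : CB U 0 g) : CB U 0 fun i => f i * g i := by
  obtain ⟨A, hA⟩ := hf
  obtain ⟨B, hB⟩ := hg
  refine ⟨A * B, fun i x hx => ?_⟩
  rw [ev_mul, abs_mul]
  exact mul_le_mul (hA i x hx) (hB i x hx) (abs_nonneg _) ((abs_nonneg _).trans (hA i x hx))
theorem cbd_add (hf : CB U k f) (hg : CB U k g) : CB U k fun i => f i + g i := by
  induction k generalizing f g with
  | zero => exact cbd_add0 hf hg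
  | succ k ih =>
    refine cbd_succ (cbd_add0 (cbd_ord hf (Nat.zero_le _)) (cbd_ord hg (Nat.zero_le _))) ?_ ?_
    · simp only [map_add]
      exact ih (cbd_s hf) (cbd_s hg)
    · simp only [map_add]
      exact ih (cbd_t hf) (cbd_t hg)
theorem cbd_neg0 (hf : CB U 0 f) : CB U 0 fun i => -f i :=
  hf.imp fun _ hC i x hx => by
    rw [ev_neg, abs_neg]
    exact hC i x hx
theorem cbd_neg (hf : CB U k f) : CB U k fun i => -f i := by
  induction k generalizing f with
  | zero => exact cbd_neg0 hf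
  | succ k ih =>
    refine cbd_succ (cbd_neg0 (cbd_ord hf (Nat.zero_le _))) ?_ ?_
    · simp only [map_neg]
      exact ih (cbd_s hf)
    · simp only [map_neg]
      exact ih (cbd_t hf)
theorem cbd_mul (hf : CB U k f) (hg : CB U k g) : CB U k fun i => f i * g i := by
  induction k generalizing f g with
  | zero => exact cbd_mul0 hf hg
  | succ k ih =>
    have hf' := cbd_ord hf (Nat.le_succ k)
    have hg' := cbd_ord hg (Nat.le_succ k)
    refine cbd_succ (cbd_mul0 (cbd_ord hf (Nat.zero_le _)) (cbd_ord hg (Nat.zero_le _))) ?_ ?_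
    · simp only [ds_mul]
      exact cbd_add (ih hf' (cbd_s hg)) (ih hg' (cbd_s hf))
    · simp only [dt_mul]
      exact cbd_add (ih hf' (cbd_t hg)) (ih hg' (cbd_t hf))
theorem cbd_null : CB U k fun _ : I => (0 : Sm) := by
  induction k with
  | zero => exact ⟨0, fun _ _ _ => by simp⟩
  | succ k ih =>
    refine cbd_succ ⟨0, fun _ _ _ => by simp⟩ ?_ ?_
    · simpa only [map_zero] using ih
    · simpa only [map_zero] using ih
theorem cbd_ex0 (hf : CB U 0 f) : CB U 0 fun i => ex (f i) := by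
  obtain ⟨A, hA⟩ := hf
  refine ⟨Real.exp A, fun i x hx => ?_⟩
  rw [ev_ex, abs_of_pos (Real.exp_pos _)]
  exact Real.exp_le_exp.2 ((le_abs_self _).trans (hA i x hx))
theorem cbd_ex (hf : CB U k f) : CB U k fun i => ex (f i) := by
  induction k with
  | zero => exact cbd_ex0 hf
  | succ k ih =>
    have h := ih (cbd_ord hf (Nat.le_succ k))
    refine cbd_succ (cbd_ex0 (cbd_ord hf (Nat.zero_le _))) ?_ ?_
    · simp only [ds_ex]
      exact cbd_mul h (cbd_s hf)
    · simp only [dt_ex]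
      exact cbd_mul h (cbd_t hf)
theorem cbd_congr (hU : IsOpen U) (he : ∀ i, ∀ x ∈ U, (f i).1 x = (g i).1 x) (hg : CB U k g) :
    CB U k f :=
  hg.imp fun _ hC i => (hC i).congr hU (he i)
theorem cbd_dinv (v : Pt) (hU : IsOpen U) {f g : Sm} (he : ∀ x ∈ U, f.1 x * g.1 x = 1) :
    ∀ x ∈ U, (dv v g).1 x = (-(g * g * dv v f)).1 x := by
  intro x hx
  have h1 := dv_congr v (f := f * g) (g := cst 1) hU (fun y hy => he y hy) x hx
  rw [dv_cst, Derivation.leibniz] at h1
  simp only [smul_eq_mul, ev_add, ev_mul, ev_zero] at h1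
  simp only [ev_neg, ev_mul]
  linear_combination g.1 x * h1 - (dv v g).1 x * he x hx
theorem cbd_inv (hU : IsOpen U) (hf : CB U k f) (he : ∀ i, ∀ x ∈ U, (f i).1 x * (g i).1 x = 1)
    (hg : CB U 0 g) : CB U k g := by
  induction k with
  | zero => exact hg
  | succ k ih =>
    have h := ih (cbd_ord hf (Nat.le_succ k))
    exact cbd_succ hg
      (cbd_congr hU (fun i => cbd_dinv _ hU (he i)) (cbd_neg (cbd_mul (cbd_mul h h) (cbd_s hf))))
      (cbd_congr hU (fun i => cbd_dinv _ hU (he i)) (cbd_neg (cbd_mul (cbd_mul h h) (cbd_t hf))))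

theorem CB.ds (hf : CB U (k + 1) f) : CB U k fun i => ds (f i) :=
  cbd_s hf
theorem CB.dt (hf : CB U (k + 1) f) : CB U k fun i => dt (f i) :=
  cbd_t hf
theorem CB.mono_ord {l : ℕ} (hf : CB U k f) (hl : l ≤ k) : CB U l f :=
  cbd_ord hf hl
theorem CB.add (hf : CB U k f) (hg : CB U k g) : CB U k fun i => f i + g i :=
  cbd_add hf hg
theorem CB.neg (hf : CB U k f) : CB U k fun i => -f i :=
  cbd_neg hf
theorem CB.sub (hf : CB U k f) (hg : CB U k g) : CB U k fun i => f i - g i := by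
  simp only [sub_eq_add_neg]
  exact cbd_add hf (cbd_neg hg)
theorem CB.mul (hf : CB U k f) (hg : CB U k g) : CB U k fun i => f i * g i :=
  cbd_mul hf hg
theorem cb_cst {a : I → ℝ} {A : ℝ} (h : ∀ i, |a i| ≤ A) : CB U k fun i => cst (a i) := by
  cases k with
  | zero => exact ⟨A, fun i _ _ => h i⟩
  | succ k =>
    refine cbd_succ ⟨A, fun i _ _ => h i⟩ ?_ ?_
    · simpa only [ds_cst] using cbd_null
    · simpa only [dt_cst] using cbd_null
theorem cb_const {r : ℝ} (hU : U ⊆ closedBall (0 : Pt) r) (h : Sm) : CB U k fun _ : I => h := by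
  obtain ⟨A, hA⟩ := exists_bd h r k
  exact ⟨A, fun _ => hA.mono_set hU⟩
theorem CB.ex (hf : CB U k f) : CB U k fun i => ex (f i) :=
  cbd_ex hf
/-- inverse: `g = 1 / f` on the open set `U`, with `g` bounded -/
theorem CB.inv (hU : IsOpen U) (hf : CB U k f) (he : ∀ i, ∀ x ∈ U, (f i).1 x * (g i).1 x = 1)
    (hg : CB U 0 g) : CB U k g :=
  cbd_inv hU hf he hg

end
end Vale.Agent.P229
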