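import Vale.Agent.P229.OmBd

open scoped ContDiff
open MeasureTheory Metric

namespace Vale.Agent.P229
noncomputable section

/-- the index type of all admissible data -/
structure CfI (Λ r0 : ℝ) (N : ℕ) where
  cB : ℝ
  μ : ℝ
  η : ℝ
  z : Sm
  j : ℕ
  h1 : 0 < η
  h2 : η ≤ cB
  h3 : cB ≤ 1
  h4 : 0 < μ
  h5 : μ ≤ 1
  sol : Sol Λ r0 (om μ η N cB) z
  hj : j ≤ 32 * N

def CfI.φ {Λ r0 : ℝ} {N : ℕ} (i : CfI Λ r0 N) : Sm := om i.μ i.η N i.cB

section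

variable {I : Type} {U : Set Pt} {k : ℕ} {f φ z : I → Sm}

theorem cf_ev (hf : CB U k f) : ∀ᶠ M in Filter.atTop, ∀ i, Bd U M k (f i) := by
  obtain ⟨C, hC⟩ := hf
  filter_upwards [Filter.eventually_ge_atTop C] with M hM i using (hC i).mono_const hM

theorem cf_set {V : Set Pt} (hf : CB U k f) (hV : V ⊆ U) : CB V k f := by
  obtain ⟨C, hC⟩ := hf
  exact ⟨C, fun i => (hC i).mono_set hV⟩

theorem cf_sq (hf : CB U k f) : CB U k fun i => f i ^ 2 := by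
  simpa only [pow_two] using hf.mul hf

theorem cf_cmul (hU : U ⊆ closedBall (0 : Pt) 1) (c : Sm) (hf : CB U k f) :
    CB U k fun i => c * f i := (cb_const hU c).mul hf

theorem cf_hA (hφ : CB U 6 φ) (hz : CB U 8 z) : CB U 4 fun i => hA (φ i) (z i) :=
  (((hz.mono_ord (l := 6) (by omega)).ds.ds).sub ((hφ.mono_ord (l := 5) (by omega)).ds.mul
    (hz.mono_ord (l := 5) (by omega)).ds)).add ((hφ.mono_ord (l := 5) (by omega)).dt.mul
    (hz.mono_ord (l := 5) (by omega)).dt)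

theorem cf_hB (hφ : CB U 6 φ) (hz : CB U 8 z) : CB U 4 fun i => hB (φ i) (z i) :=
  (((hz.mono_ord (l := 6) (by omega)).dt.ds).sub ((hφ.mono_ord (l := 5) (by omega)).dt.mul
    (hz.mono_ord (l := 5) (by omega)).ds)).sub ((hφ.mono_ord (l := 5) (by omega)).ds.mul
    (hz.mono_ord (l := 5) (by omega)).dt)

theorem cf_hC (hφ : CB U 6 φ) (hz : CB U 8 z) : CB U 4 fun i => hC (φ i) (z i) :=
  (((hz.mono_ord (l := 6) (by omega)).dt.dt).add ((hφ.mono_ord (l := 5) (by omega)).ds.mul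
    (hz.mono_ord (l := 5) (by omega)).ds)).sub ((hφ.mono_ord (l := 5) (by omega)).dt.mul
    (hz.mono_ord (l := 5) (by omega)).dt)

theorem cf_wv (hφ : CB U 6 φ) : CB U 4 fun i => wv (φ i) := (hφ.ds.ds.add hφ.dt.dt).neg

theorem cf_E1 (hU : U ⊆ closedBall (0 : Pt) 1) (hφ : CB U 6 φ) (hz : CB U 8 z) :
    CB U 4 fun i => E1 (φ i) (z i) :=
  (((cf_cmul hU 2 (hφ.mono_ord (l := 4) (by omega))).ex).sub
    (cf_sq (hz.mono_ord (l := 5) (by omega)).ds)).sub (cf_sq (hz.mono_ord (l := 5) (by omega)).dt)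

theorem cf_lip {g : Sm} {A r a : ℝ} (hg : Bd U A 1 g) (hr : closedBall (0 : Pt) r ⊆ U)
    (hA : 0 ≤ A) (ha : 2 * A * r ≤ a) (h0 : 2 * a ≤ g.1 0) :
    ∀ x ∈ closedBall (0 : Pt) r, a ≤ g.1 x := fun x hx => by
  have h1 := lip0 g (fun y hy => hg.2.1 y (hr hy)) (fun y hy => hg.2.2 y (hr hy)) x hx
  have h2 : 2 * A * ‖x‖ ≤ 2 * A * r :=
    mul_le_mul_of_nonneg_left (mem_closedBall_zero_iff.1 hx) (by positivity)
  linarith [neg_abs_le (g.1 x - g.1 0)]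

end

theorem cf_low (Λ r0 : ℝ) (N : ℕ) (hΛ : 1 ≤ Λ) (hr0 : 0 < r0)
    (h1 : CB (ball (0 : Pt) r0) 4 fun i : CfI Λ r0 N => hA i.φ i.z)
    (h2 : CB (ball (0 : Pt) r0) 4 fun i : CfI Λ r0 N => E1 i.φ i.z)
    (h3 : ∀ i : CfI Λ r0 N, 0 ≤ i.φ.1 0) : ∃ r, 0 < r ∧ r < r0 ∧ ∀ i : CfI Λ r0 N,
      ∀ x ∈ ball (0 : Pt) r, 1 / (2 * Λ) ≤ (hA i.φ i.z).1 x ∧ 1 / 2 ≤ (E1 i.φ i.z).1 x := by
  obtain ⟨A, ⟨a1, a2⟩, a3⟩ := (((cf_ev (h1.mono_ord (l := 1) (by omega))).and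
    (cf_ev (h2.mono_ord (l := 1) (by omega)))).and (Filter.eventually_gt_atTop 0)).exists
  have hΛ0 : 0 < Λ := by linarith
  have k1 : 2 * A * min (r0 / 2) (1 / (4 * A * Λ)) ≤ 1 / (2 * Λ) := by
    refine (mul_le_mul_of_nonneg_left (min_le_right _ _) (by positivity)).trans (le_of_eq ?_)
    field_simp
    ring
  have k2 : closedBall (0 : Pt) (min (r0 / 2) (1 / (4 * A * Λ))) ⊆ ball 0 r0 :=
    closedBall_subset_ball ((min_le_left _ _).trans_lt (by linarith))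
  have k3 : 1 / (2 * Λ) ≤ 1 / 2 := one_div_le_one_div_of_le two_pos (by linarith)
  refine ⟨min (r0 / 2) (1 / (4 * A * Λ)), by positivity,
    (min_le_left _ _).trans_lt (by linarith), fun i x hx => ⟨?_, ?_⟩⟩
  · refine cf_lip (a1 i) k2 a3.le k1 ?_ x (ball_subset_closedBall hx)
    refine le_trans (le_of_eq ?_) i.sol.lo
    field_simp
  · refine cf_lip (a2 i) k2 a3.le (k1.trans k3) ?_ x (ball_subset_closedBall hx)
    have e1 : (2 : Sm).1 0 = 2 := rfl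
    simp only [E1, ev_sub, ev_ex, ev_mul, ev_pow, i.sol.ds0, i.sol.dt0, e1]
    have := Real.one_le_exp (show 0 ≤ 2 * i.φ.1 0 by linarith [h3 i])
    linarith

theorem cf (Λ r0 : ℝ) (N : ℕ) (hΛ : 1 ≤ Λ) (hr0 : 0 < r0) (hr01 : r0 ≤ 1) (hN : 20 ≤ N) :
    ∃ M r1 : ℝ, 1 ≤ M ∧ (32 * N + 1 : ℝ) ≤ M ∧ 0 < r1 ∧ r1 < r0 ∧
      ∀ (cB μ η : ℝ) (z : Sm), 0 < η → η ≤ cB → cB ≤ 1 → 0 < μ → μ ≤ 1 →
        Sol Λ r0 (om μ η N cB) z →
        (∀ j, j ≤ 32 * N → CoefOK M r1 η (coef Λ μ η (om μ η N cB) z j)) ∧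
        AuxOK M r1 Λ (om μ η N cB) z := by
  obtain ⟨A, hA0⟩ := om_bd N hN
  have hΛ0 : 0 < Λ := by linarith
  have hU0 : ball (0 : Pt) r0 ⊆ closedBall 0 1 :=
    ball_subset_closedBall.trans (closedBall_subset_closedBall hr01)
  have hφ0 : CB (ball (0 : Pt) r0) 6 fun i : CfI Λ r0 N => i.φ :=
    ⟨A, fun i => (hA0 _ _ _ i.h1 i.h2 i.h3 i.h4 i.h5).1.mono_set hU0⟩
  have hz0 : CB (ball (0 : Pt) r0) 8 fun i : CfI Λ r0 N => i.z := ⟨Λ, fun i => i.sol.bd⟩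
  obtain ⟨r, r1, r2, hlo⟩ := cf_low Λ r0 N hΛ hr0 (cf_hA hφ0 hz0) (cf_E1 hU0 hφ0 hz0)
    fun i => (hA0 _ _ _ i.h1 i.h2 i.h3 i.h4 i.h5).2.2
  have hsub : ball (0 : Pt) r ⊆ ball 0 r0 := ball_subset_ball r2.le
  have hU := hsub.trans hU0
  have hφ := cf_set hφ0 hsub
  have hz := cf_set hz0 hsub
  have ha := cf_hA hφ hz
  have hb := cf_hB hφ hz
  have hc := cf_hC hφ hz
  have hw := cf_wv hφ
  have he := cf_E1 hU hφ hz
  have κ0 : 0 < 1 / (2 * Λ) := by positivity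
  have i1 : ∀ i : CfI Λ r0 N, ∀ x ∈ ball (0 : Pt) r, (iot Λ i.φ i.z).1 x = 1 / (hA i.φ i.z).1 x :=
    fun i x hx => sinv_eq κ0 (hlo i x hx).1
  have i2 : ∀ i : CfI Λ r0 N, ∀ x ∈ ball (0 : Pt) r,
      (hA i.φ i.z).1 x * (iot Λ i.φ i.z).1 x = 1 := fun i x hx => by
    rw [i1 i x hx]
    exact mul_one_div_cancel (κ0.trans_le (hlo i x hx).1).ne'
  have hι : CB (ball (0 : Pt) r) 4 fun i : CfI Λ r0 N => iot Λ i.φ i.z := by
    refine CB.inv isOpen_ball ha i2 ⟨2 * Λ, fun i x hx => ?_⟩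
    have k1 := (hlo i x hx).1
    have k2 := κ0.trans_le k1
    rw [i1 i x hx, abs_of_pos (by positivity)]
    exact (one_div_le k2 (by positivity)).2 k1
  have hσ : CB (ball (0 : Pt) r) 4 fun i : CfI Λ r0 N => sig Λ i.φ i.z := (hb.mul hι).neg
  have hm := he.mul (cf_sq hι)
  have hmh := he.mul hι
  have φ3 := hφ.mono_ord (l := 4) (by omega)
  have z3 := hz.mono_ord (l := 4) (by omega)
  have o3 : 3 ≤ 4 := by omega
  have hg1 := ((hι.mono_ord o3).mul (((((hc.sub ha).mono_ord o3).mul φ3.dt).add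
    (cf_cmul hU 2 ((hb.mono_ord o3).mul φ3.ds))).add
    (cf_cmul hU 2 ((hw.mono_ord o3).mul z3.dt)))).add
    ((cb_cst (a := fun i : CfI Λ r0 N => 2 * (i.j : ℝ)) (A := 2 * (32 * N)) fun i => by
      rw [abs_of_nonneg (by positivity)]
      have : (i.j : ℝ) ≤ 32 * N := by exact_mod_cast i.hj
      linarith).mul hσ.ds)
  have hg3 := ((hm.mono_ord o3).mul ((ha.ds.mul (hι.mono_ord o3)).sub (cf_cmul hU 2 φ3.ds))).add
    (cf_cmul hU 3 ((hι.mono_ord o3).mul (z3.ds.sub ((hσ.mono_ord o3).mul z3.dt))))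
  obtain ⟨C, c1, c2⟩ := ((cf_ev ha).and (Filter.eventually_ge_atTop 1)).exists
  have i3 : ∀ i : CfI Λ r0 N, ∀ x ∈ ball (0 : Pt) r, 1 / C ≤ (iot Λ i.φ i.z).1 x := fun i x hx => by
    rw [i1 i x hx]
    exact one_div_le_one_div_of_le (κ0.trans_le (hlo i x hx).1)
      ((le_abs_self _).trans ((c1 i).zero x hx))
  obtain ⟨M, ⟨⟨⟨m1, m2⟩, ⟨m3, m4⟩, m5⟩, ⟨⟨m6, m7⟩, m8, m9⟩, m10⟩, ⟨n1, n2⟩, ⟨n3, n4⟩, n5⟩ :=
    ((((((cf_ev ha).and (cf_ev hb)).and (((cf_ev hc).and (cf_ev hw)).and (cf_ev hι))).and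
    ((((cf_ev hσ).and (cf_ev hm)).and ((cf_ev hmh).and (cf_ev hg1))).and (cf_ev hg3))).and
    (((Filter.eventually_ge_atTop 1).and (Filter.eventually_ge_atTop (32 * N + 1 : ℝ))).and
    (((Filter.eventually_ge_atTop A).and (Filter.eventually_ge_atTop (2 * Λ))).and
    (Filter.eventually_ge_atTop (2 * C ^ 2)))))).exists
  have s1 : closedBall (0 : Pt) (r / 2) ⊆ ball 0 r := closedBall_subset_ball (by linarith)
  have s2 : ball (0 : Pt) (r / 2) ⊆ ball 0 r := ball_subset_ball (by linarith)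
  have C0 : 0 < C := by linarith
  have l1 : 1 / M ≤ 1 / 2 * (1 / C) ^ 2 :=
    (one_div_le_one_div_of_le (by positivity) n5).trans (le_of_eq (by field_simp))
  have l2 : 1 / M ≤ 1 / 2 * (1 / C) :=
    (one_div_le_one_div_of_le (by positivity) (show 2 * C ≤ M by nlinarith)).trans
      (le_of_eq (by field_simp))
  refine ⟨M, r / 2, n1, n2, by linarith, by linarith, fun cB μ η z h1 h2 h3 h4 h5 h6 =>
    ⟨fun j hj => ?_, ?_⟩⟩
  · let i : CfI Λ r0 N := ⟨cB, μ, η, z, j, h1, h2, h3, h4, h5, h6, hj⟩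
    have hwb := (hA0 _ _ _ h1 h2 h3 h4 h5).2.1.mono_const
      (mul_le_mul_of_nonneg_right n3 (by positivity : 0 ≤ η ^ 64))
    exact {
      m_lo := fun x hx => l1.trans (by
        have k1 := (hlo i x (s1 hx)).2
        have k2 := pow_le_pow_left₀ (by positivity) (i3 i x (s1 hx)) 2
        have := mul_le_mul k1 k2 (by positivity) (by linarith)
        rw [← ev_pow, ← ev_mul] at this
        exact this)
      m0 := fun x hx => (m7 i).1 x (s1 hx)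
      ms := fun x hx => (m7 i).2.1.1 x (s1 hx)
      mt := fun x hx => (m7 i).2.2.1 x (s1 hx)
      mh_lo := fun x hx => l2.trans (by
        have k1 := (hlo i x (s1 hx)).2
        exact mul_le_mul k1 (i3 i x (s1 hx)) (by positivity) (le_trans (by positivity) k1))
      mh0 := fun x hx => (m8 i).1 x (s1 hx)
      mhs := fun x hx => (m8 i).2.1.1 x (s1 hx)
      mht := fun x hx => (m8 i).2.2.1 x (s1 hx)
      σ0 := fun x hx => (m6 i).1 x (s1 hx)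
      σs := fun x hx => (m6 i).2.1.1 x (s1 hx)
      σt := fun x hx => (m6 i).2.2.1 x (s1 hx)
      σss := fun x hx => (m6 i).2.1.2.1.1 x (s1 hx)
      σst := fun x hx => (m6 i).2.2.2.1.1 x (s1 hx)
      σtt := fun x hx => (m6 i).2.2.2.2.1 x (s1 hx)
      g10 := fun x hx => (m9 i).1 x (s1 hx)
      g1s := fun x hx => (m9 i).2.1.1 x (s1 hx)
      g1t := fun x hx => (m9 i).2.2.1 x (s1 hx)
      g30 := fun x hx => (m10 i).1 x (s1 hx)
      wb0 := fun x _ => hwb.1 x trivial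
      wbs := fun x _ => hwb.2.1 x trivial
      wbt := fun x _ => hwb.2.2 x trivial }
  · let i : CfI Λ r0 N := ⟨cB, μ, η, z, 0, h1, h2, h3, h4, h5, h6, Nat.zero_le _⟩
    exact {
      inv := fun x hx => i2 i x (s2 hx)
      lo := fun x hx => (one_div_le_one_div_of_le (by positivity) n4).trans (hlo i x (s2 hx)).1
      ι0 := fun x hx => (m5 i).1 x (s2 hx)
      a0 := fun x hx => (m1 i).1 x (s2 hx)
      b0 := fun x hx => (m2 i).1 x (s2 hx)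
      c0 := fun x hx => (m3 i).1 x (s2 hx)
      a1 := fun x hx => (m1 i).2.1.1 x (s2 hx)
      b1 := fun x hx => (m2 i).2.1.1 x (s2 hx)
      c1 := fun x hx => (m3 i).2.1.1 x (s2 hx)
      w0 := fun x hx => (m4 i).1 x (s2 hx) }

end
end Vale.Agent.P229
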