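import Vale.Agent.P229.RBas

open scoped ContDiff
open MeasureTheory Metric

namespace Vale.Agent.P229
noncomputable section

theorem cut_main {V qq qy yy : ℝ} (h1 : 1 / 2 ≤ qq) (h2 : 4 * V ≤ yy) (h3 : qy ^ 2 ≤ V)
    (q y : ℝ) : q ^ 2 / 4 + 3 * V * y ^ 2 ≤ qq * q ^ 2 + qy * (q * y) + yy * y ^ 2 := by
  have a1 := mul_le_mul_of_nonneg_right h1 (sq_nonneg q)
  have a2 := mul_le_mul_of_nonneg_right h2 (sq_nonneg y)
  have a3 := mul_le_mul_of_nonneg_right h3 (sq_nonneg y)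
  nlinarith [sq_nonneg (q / 2 + qy * y)]

theorem cut_form {a b e E : ℝ} (ha : |a| ≤ E / 2) (hb : |b| ≤ E / 2) (he : |e| ≤ 3 * E / 4)
    (q y : ℝ) : -(E * (q ^ 2 + y ^ 2)) ≤ a * q ^ 2 + b * (q * y) + e * y ^ 2 := by
  have hE : 0 ≤ E := by have := abs_nonneg a; linarith
  have a1 := mul_le_mul_of_nonneg_right (abs_le.1 ha).1 (sq_nonneg q)
  have a2 := mul_le_mul_of_nonneg_right (abs_le.1 he).1 (sq_nonneg y)
  have a3 : |b * (q * y)| ≤ E / 2 * ((q ^ 2 + y ^ 2) / 2) := by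
    rw [abs_mul]
    refine mul_le_mul hb ?_ (abs_nonneg _) (by linarith)
    rw [abs_le]
    constructor <;> nlinarith [sq_nonneg (q + y), sq_nonneg (q - y)]
  have a4 := (abs_le.1 a3).1
  nlinarith [mul_nonneg hE (sq_nonneg q), mul_nonneg hE (sq_nonneg y)]

theorem cut_mul {a b A B : ℝ} (ha : |a| ≤ A) (hb : |b| ≤ B) : |a * b| ≤ A * B := by
  rw [abs_mul]
  exact mul_le_mul ha hb (abs_nonneg _) ((abs_nonneg _).trans ha)

theorem cut_sq (D : PD) : D.d ^ 2 ≤ D.s ^ 2 + D.t ^ 2 := by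
  unfold PD.d
  rcases le_total |D.s| |D.t| with h | h
  · rw [max_eq_right h, sq_abs]; nlinarith [sq_nonneg D.s]
  · rw [max_eq_left h, sq_abs]; nlinarith [sq_nonneg D.t]

/-- the outer region -/
theorem cut_out {χ P Q R W S k C1 E F c q y : ℝ} (h0 : 0 ≤ χ) (h1 : χ ≤ 1) (hP : 0 ≤ P)
    (hQ : -(E * (q ^ 2 + y ^ 2)) ≤ Q) (hE : 0 ≤ E) (hF : E ≤ F * W)
    (hS1 : E + c ≤ C1 * S) (hS2 : (F + c) * W ≤ C1 * S * k)
    (hR : R = χ ^ 4 * P + χ ^ 3 * Q + χ ^ 2 * (C1 * S * q ^ 2 + C1 * S * k * y ^ 2)) :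
    c * χ ^ 2 * (q ^ 2 + W * y ^ 2) ≤ R := by
  have a0 : 0 ≤ χ ^ 4 * P := by positivity
  have a1 : 0 ≤ E * (q ^ 2 + y ^ 2) := by positivity
  have a2 : -(E * (q ^ 2 + y ^ 2)) ≤ χ * Q := by
    have b1 := mul_le_mul_of_nonneg_left hQ h0
    nlinarith [mul_nonneg (sub_nonneg.2 h1) a1]
  have a3 := mul_le_mul_of_nonneg_right hS1 (sq_nonneg q)
  have a4 := mul_le_mul_of_nonneg_right hS2 (sq_nonneg y)
  have a5 := mul_le_mul_of_nonneg_right hF (sq_nonneg y)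
  have a6 : c * (q ^ 2 + W * y ^ 2) ≤ χ * Q + (C1 * S * q ^ 2 + C1 * S * k * y ^ 2) := by
    nlinarith
  have a7 := mul_le_mul_of_nonneg_left a6 (sq_nonneg χ)
  rw [hR]
  nlinarith

/-- the inner region: the penalty term is harmless -/
theorem cut_in {M μ η ε C1 V W w m s t : ℝ} (hM0 : 0 < M) (hμ : 0 < μ) (hμ1 : μ ≤ 1)
    (hC0 : 0 < C1) (hV0 : 0 < V) (hVW : W = 256 * M * V) (hm0 : 0 < m) (e4 : ε ≤ η)
    (e2 : η ≤ μ / (3072 * M ^ 2 * C1)) (w2 : W - 3 * ε ≤ w) (c1 : μ * s ^ 2 ≤ W)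
    (c2 : t ^ 2 ≤ W) (k1 : |m * w| ≤ 2 * M * W) : -V ≤ C1 * (s ^ 2 + t ^ 2) * (m * w) := by
  rcases le_total 0 w with hw | hw
  · have : 0 ≤ C1 * (s ^ 2 + t ^ 2) * (m * w) := by positivity
    linarith
  · have b2 : μ * (s ^ 2 + t ^ 2) ≤ 6 * η := by
      have c3 : μ * t ^ 2 ≤ t ^ 2 := mul_le_of_le_one_left (sq_nonneg _) hμ1
      linarith
    have b3 : 3072 * M ^ 2 * C1 * η ≤ μ := by
      have := (le_div_iff₀ (by positivity)).1 e2
      linarith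
    have b4 : 512 * M ^ 2 * (C1 * (s ^ 2 + t ^ 2)) ≤ 1 := by
      have c1 := mul_le_mul_of_nonneg_left b2 (by positivity : 0 ≤ 512 * M ^ 2 * C1)
      have c2 : μ * (512 * M ^ 2 * (C1 * (s ^ 2 + t ^ 2))) ≤ μ * 1 := by linarith
      exact le_of_mul_le_mul_left c2 hμ
    have b5 : -(512 * M ^ 2 * V) ≤ m * w := by
      have := (abs_le.1 k1).1
      rw [hVW] at this
      linarith
    have b6 := mul_le_mul_of_nonneg_left b5 (by positivity : 0 ≤ C1 * (s ^ 2 + t ^ 2))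
    have b7 := mul_le_mul_of_nonneg_right b4 hV0.le
    linarith

/-- bounds for the terms carrying a derivative of the cut-off -/
theorem cut_err {M X cs ct B τ k : ℝ} (hM : 1 ≤ M) (hX : |cs| ≤ X) (hX' : |ct| ≤ X)
    (hB : |B| ≤ 3 / 2) (hτ : |τ| ≤ 1 / 2) (hk : |k| ≤ 4 * M) (q y : ℝ) :
    -(20 * M * X * (q ^ 2 + y ^ 2)) ≤ (2 * cs * B - ct * τ / 2) * q ^ 2
      + (-(4 * ct * B) - τ * cs * k) * (q * y) + (-2 * cs * B * k + ct * τ * k / 2) * y ^ 2 := by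
  have hX0 : 0 ≤ X := (abs_nonneg _).trans hX
  have hMX : X ≤ M * X := le_mul_of_one_le_left hX0 hM
  have t1 := abs_le.1 (cut_mul hX hB)
  have t2 := abs_le.1 (cut_mul hX' hτ)
  have t3 := abs_le.1 (cut_mul hX' hB)
  have t4 := abs_le.1 (cut_mul (cut_mul hτ hX) hk)
  have t5 := abs_le.1 (cut_mul (cut_mul hX hB) hk)
  have t6 := abs_le.1 (cut_mul (cut_mul hX' hτ) hk)
  refine cut_form ?_ ?_ ?_ q y
  · rw [abs_le]; constructor <;> linarith [t1.1, t1.2, t2.1, t2.2]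
  · rw [abs_le]; constructor <;> linarith [t3.1, t3.2, t4.1, t4.2]
  · rw [abs_le]; constructor <;> linarith [t5.1, t5.2, t6.1, t6.2]

theorem cut (M μ r X : ℝ) (hM : 1 ≤ M) (hμ : 0 < μ) (hμ1 : μ ≤ 1) (hr : 0 < r)
    (hMr : M * r ≤ 1 / 2) : ∃ C1 c η0 : ℝ, 0 ≤ C1 ∧ 0 < c ∧ 0 < η0 ∧
    ∀ (η : ℝ) (D : PD) (χ cs ct : ℝ), 0 < η → η ≤ η0 → PDOK M r η D → 1 / 2 ≤ D.qq η →
      D.W μ η / (64 * M) ≤ D.yy μ η → D.qy μ η ^ 2 ≤ D.W μ η / (256 * M) → 0 ≤ χ → χ ≤ 1 →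
      |cs| ≤ X → |ct| ≤ X → (D.d < r / 2 → χ = 1 ∧ cs = 0 ∧ ct = 0) → ∀ q y : ℝ,
        c * χ ^ 2 * (q ^ 2 + D.W μ η * y ^ 2) ≤ D.Aqq η χ cs ct C1 * q ^ 2
          + D.Aqy μ η χ cs ct * (q * y) + D.Ayy μ η χ cs ct C1 * y ^ 2 := by
  have hM0 : 0 < M := by linarith
  obtain ⟨E, hE⟩ : ∃ E : ℝ, E = 20 * M * |X| := ⟨_, rfl⟩
  have hE0 : 0 ≤ E := by rw [hE]; positivity
  obtain ⟨F, hF⟩ : ∃ F : ℝ, F = 4 * E / (μ * r ^ 2) := ⟨_, rfl⟩
  have hF0 : 0 ≤ F := by rw [hF]; positivity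
  have hFE : F * (μ * r ^ 2 / 4) = E := by rw [hF]; field_simp
  obtain ⟨C1, hC1⟩ : ∃ C1 : ℝ, C1 = 8 * M / r ^ 2 * (F + E + 1) := ⟨_, rfl⟩
  have hC0 : 0 < C1 := by rw [hC1]; positivity
  have hCr : C1 * (r ^ 2 / 4) = 2 * M * (F + E + 1) := by rw [hC1]; field_simp; ring
  have hr2 : r ≤ 1 / 2 := (le_mul_of_one_le_left hr.le hM).trans hMr
  have hc1 : 1 / (128 * M) ≤ 1 / 4 := by
    apply one_div_le_one_div_of_le <;> linarith
  have hM1 : 1 / M ≤ 1 := by rw [div_le_one hM0]; exact hM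
  have hFM : F + E + 1 ≤ M * (F + E + 1) := le_mul_of_one_le_left (by positivity) hM
  refine ⟨C1, 1 / (128 * M), min (1 / M) (min (μ / (3072 * M ^ 2 * C1)) (μ * r ^ 2 / 24)),
    hC0.le, by positivity, by positivity, ?_⟩
  intro η D χ cs ct hη hη0 hD hqq hyy hqy h0 h1 hcs hct hin q y
  have e1 : η ≤ 1 / M := hη0.trans (min_le_left _ _)
  have e2 : η ≤ μ / (3072 * M ^ 2 * C1) :=
    hη0.trans ((min_le_right _ _).trans (min_le_left _ _))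
  have e3 : η ≤ μ * r ^ 2 / 24 := hη0.trans ((min_le_right _ _).trans (min_le_right _ _))
  have hη1 : η ≤ 1 := e1.trans hM1
  have e4 : η ^ 32 ≤ η := pow_le_of_le_one hη.le hη1 (by norm_num)
  have e5 : 0 < η ^ 32 := by positivity
  have hMη : M * η ^ 32 ≤ 1 := by
    have := mul_le_mul_of_nonneg_left (e4.trans e1) hM0.le
    rwa [mul_one_div_cancel hM0.ne'] at this
  have R := rbas hD hM hMr hη hη1 hMη hμ hμ1
  have hW0 : 0 < D.W μ η := lt_of_lt_of_le e5 R.W2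
  obtain ⟨V, hV⟩ : ∃ V : ℝ, V = D.W μ η / (256 * M) := ⟨_, rfl⟩
  have hV0 : 0 < V := by rw [hV]; positivity
  have hVW : D.W μ η = 256 * M * V := by rw [hV]; field_simp
  have hyy' : 4 * V ≤ D.yy μ η := by
    refine le_trans (le_of_eq ?_) hyy
    rw [hV]; field_simp; ring
  have hmain := cut_main hqq hyy' (hV ▸ hqy) q y
  have hm0 : 0 < D.m := lt_of_lt_of_le (by positivity) hD.m_lo
  by_cases hd : D.d < r / 2
  · obtain ⟨rfl, rfl, rfl⟩ := hin hd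
    have key : -V ≤ C1 * (D.s ^ 2 + D.t ^ 2) * D.k μ η :=
      cut_in hM0 hμ hμ1 hC0 hV0 hVW hm0 e4 e2 R.w2 R.W4 R.W3 R.k1
    have k2 := mul_le_mul_of_nonneg_right key (sq_nonneg y)
    have k3 : 0 ≤ C1 * (D.s ^ 2 + D.t ^ 2) * q ^ 2 := by positivity
    have k4 := mul_le_mul_of_nonneg_right hc1 (sq_nonneg q)
    have k5 : 1 / (128 * M) * D.W μ η = 2 * V := by rw [hVW]; field_simp; ring
    have k6 : 1 / (128 * M) * (1 : ℝ) ^ 2 * (q ^ 2 + D.W μ η * y ^ 2)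
        = 1 / (128 * M) * q ^ 2 + 2 * V * y ^ 2 := by rw [← k5]; ring
    have k7 : D.Aqq η 1 0 0 C1 * q ^ 2 + D.Aqy μ η 1 0 0 * (q * y) + D.Ayy μ η 1 0 0 C1 * y ^ 2
        = (D.qq η * q ^ 2 + D.qy μ η * (q * y) + D.yy μ η * y ^ 2)
          + C1 * (D.s ^ 2 + D.t ^ 2) * q ^ 2 + C1 * (D.s ^ 2 + D.t ^ 2) * D.k μ η * y ^ 2 := by
      unfold PD.Aqq PD.Aqy PD.Ayy
      ring
    rw [k6, k7]
    linarith
  · have hd' : r / 2 ≤ D.d := not_lt.1 hd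
    have d2 : r ^ 2 / 4 ≤ D.d ^ 2 := by
      have := pow_le_pow_left₀ (by positivity) hd' 2
      linarith
    have d3 : r ^ 2 / 4 ≤ D.s ^ 2 + D.t ^ 2 := d2.trans (cut_sq D)
    have d4 : μ * r ^ 2 / 4 ≤ D.W μ η := by
      have := mul_le_mul_of_nonneg_left d2 hμ.le
      have := R.W1
      linarith
    have d5 : D.W μ η / 2 ≤ D.w μ η := by have := R.w2; linarith
    have d6 : D.W μ η / (2 * M) ≤ D.k μ η := by
      have := mul_le_mul hD.m_lo d5 (by positivity) hm0.le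
      refine le_trans (le_of_eq ?_) this
      field_simp
    have hB : |D.B η| ≤ 3 / 2 := by
      have c1 := R.Bp
      have c2 := R.pd
      have c3 := mul_le_mul_of_nonneg_left R.dr hM0.le
      linarith
    have hτ : |D.τ η| ≤ 1 / 2 := R.τt.trans (R.td.trans (R.dr.trans hr2))
    have hk : |D.k μ η| ≤ 4 * M := by
      have c1 := R.k1
      have c2 := mul_le_mul_of_nonneg_left R.W6 hM0.le
      linarith
    have hQ := cut_err hM (hcs.trans (le_abs_self X)) (hct.trans (le_abs_self X)) hB hτ hk q y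
    rw [← hE] at hQ
    have hP : 0 ≤ D.qq η * q ^ 2 + D.qy μ η * (q * y) + D.yy μ η * y ^ 2 :=
      le_trans (by positivity) hmain
    have hCS : 2 * M * (F + E + 1) ≤ C1 * (D.s ^ 2 + D.t ^ 2) := by
      rw [← hCr]; exact mul_le_mul_of_nonneg_left d3 hC0.le
    refine cut_out (C1 := C1) (S := D.s ^ 2 + D.t ^ 2) (k := D.k μ η) (F := F) h0 h1 hP
      hQ hE0 ?_ ?_ ?_ ?_
    · rw [← hFE]
      exact mul_le_mul_of_nonneg_left d4 hF0
    · linarith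
    · have c1 := mul_le_mul hCS d6 (by positivity) (by positivity)
      have c2 : 2 * M * (F + E + 1) * (D.W μ η / (2 * M)) = (F + E + 1) * D.W μ η := by
        field_simp
      have c3 : (F + 1 / (128 * M)) * D.W μ η ≤ (F + E + 1) * D.W μ η :=
        mul_le_mul_of_nonneg_right (by linarith) hW0.le
      exact c3.trans (c2 ▸ c1)
    · unfold PD.Aqq PD.Aqy PD.Ayy
      ring

end
end Vale.Agent.P229
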