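import Vale.Agent.P229.QBr

/-! The principal part of the differentiated Darboux equation. -/

open scoped ContDiff
open MeasureTheory Metric

namespace Vale.Agent.P229
noncomputable section

theorem codazzi1 (φ z : Sm) :
    ds (hC φ z) - dt (hB φ z) = -(wv φ * ds z) + ds φ * (hA φ z + hC φ z) := by
  simp only [hA, hB, hC, wv, map_add, map_sub, ds_mul, dt_mul, dt_ds]; ring
theorem codazzi2 (φ z : Sm) :
    dt (hA φ z) - ds (hB φ z) = -(wv φ * dt z) + dt φ * (hA φ z + hC φ z) := by
  simp only [hA, hB, hC, wv, map_add, map_sub, ds_mul, dt_mul, dt_ds]; ring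

theorem coef_w (Λ μ η : ℝ) (φ z : Sm) (j : ℕ) : (coef Λ μ η φ z j).w μ η = wv φ := by
  simp [Coef.w, coef]

/-- on an open set where the Darboux equation holds and `iot` inverts `hA`, the operator `L` is the
linearised operator plus the commutator terms -/
theorem principal (Λ μ η : ℝ) (φ z u : Sm) (j : ℕ) {U : Set Pt} (hU : IsOpen U) (hD : Darb φ z U)
    (hi : ∀ x ∈ U, (hA φ z).1 x * (iot Λ φ z).1 x = 1) : ∀ x ∈ U,
    (hA φ z * (coef Λ μ η φ z j).L μ η (j + 1) u).1 x =
    (hA φ z * hC φ u + hC φ z * hA φ u - 2 * (hB φ z * hB φ u)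
      + 2 * (wv φ * (ds z * ds u + dt z * dt u))
      + cst j * (ds (hA φ z) * iot Λ φ z * (2 * (hB φ z * dt u) - hC φ z * ds u)
        + ds (hC φ z) * ds u - 2 * (ds (hB φ z) * dt u))).1 x := by
  intro x hx
  have hi' : ∀ y ∈ U, (hA φ z * iot Λ φ z).1 y = (1 : Sm).1 y := hi
  have e1 := ds_congr hU hi' x hx
  have e2 := dt_congr hU hi' x hx
  have e3 := ds_congr hU hD x hx
  have e4 := congrArg (fun f : Sm => f.1 x) (codazzi1 φ z)
  have e5 := congrArg (fun f : Sm => f.1 x) (codazzi2 φ z)
  have e6 := hD x hx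
  have e7 := hi x hx
  have hu : ∀ v : Sm, hA φ v = ds (ds v) - ds φ * ds v + dt φ * dt v ∧
      hB φ v = ds (dt v) - dt φ * ds v - ds φ * dt v ∧
      hC φ v = dt (dt v) + ds φ * ds v - dt φ * dt v := fun v => ⟨rfl, rfl, rfl⟩
  simp only [Coef.L, Lgen, Coef.g2, Coef.k, coef_w]
  rw [(hu u).1, (hu u).2.1, (hu u).2.2]
  simp only [coef, sig, T, ds_mul, dt_mul, ds_sq, map_add, map_sub, map_neg, dt_ds, ds_one, dt_one,
    ev_add, ev_sub, ev_mul, ev_neg, ev_pow, ev_cst, ev_zero, ev_one, ev_two, ev_three]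
    at e1 e2 e3 e4 e5 e6 ⊢
  generalize (hA φ z).1 x = a at *
  generalize (hB φ z).1 x = b at *
  generalize (hC φ z).1 x = c at *
  generalize (iot Λ φ z).1 x = i at *
  generalize (ds (hA φ z)).1 x = as at *
  generalize (dt (hA φ z)).1 x = at' at *
  generalize (ds (hB φ z)).1 x = bs at *
  generalize (dt (hB φ z)).1 x = bt at *
  generalize (ds (hC φ z)).1 x = cs at *
  generalize (ds (iot Λ φ z)).1 x = is at *
  generalize (dt (iot Λ φ z)).1 x = it at *
  generalize (wv φ).1 x = w at *
  generalize (ds (wv φ)).1 x = ws at *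
  generalize (E1 φ z).1 x = E at *
  generalize (ds (E1 φ z)).1 x = Es at *
  have ha : a ≠ 0 := by rintro rfl; simp at e7
  have hi2 : i = 1 / a := by field_simp; linarith
  have his : is = -as / a ^ 2 := by subst hi2; field_simp; field_simp at e1; linarith
  have hit : it = -at' / a ^ 2 := by subst hi2; field_simp; field_simp at e2; linarith
  have hc : c = (w * E + b ^ 2) / a := by field_simp; linarith
  have hcs : cs = (w * Es + E * ws + 2 * b * bs - c * as) / a := by field_simp; linarith
  have hbt : bt = cs + w * (ds z).1 x - (ds φ).1 x * (a + c) := by linarith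
  have hat : at' = bs - w * (dt z).1 x + (dt φ).1 x * (a + c) := by linarith
  subst hbt hat hit his hcs hc hi2
  field_simp
  ring

end
end Vale.Agent.P229
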