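import Vale.Agent.P229.Cls
import Vale.Agent.P229.DPt

open scoped ContDiff
open MeasureTheory Metric

namespace Vale.Agent.P229
noncomputable section

variable {I : Type} {c : Ctx I} {φ z : I → Sm} {Λ M r1 : ℝ}

theorem dcls (hc : c.OK) (hM : 1 ≤ M) (hr : c.r < r1) (hD : ∀ i, Darb (φ i) (z i) (ball (0 : Pt) r1))
    (hA' : ∀ i, AuxOK M r1 Λ (φ i) (z i))
    (hP : Cls c 1 fun i => ds (z i)) (hQ : Cls c 1 fun i => dt (z i))
    (h1 : Cls c 0 fun i => ds (φ i)) (h2 : Cls c 0 fun i => dt (φ i))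
    (h3 : Cls c 1 fun i => wv (φ i)) (h4 : Cls c 0 fun i => ex (2 * φ i)) :
    Cls c 2 (fun i => hA (φ i) (z i)) ∧ Cls c 2 (fun i => hB (φ i) (z i)) ∧
    Cls c 2 (fun i => hC (φ i) (z i)) ∧ Cls c 1 (fun i => E1 (φ i) (z i)) ∧
    Cls c 2 (fun i => dt (dt (z i))) := by
  have hs : closedBall (0 : Pt) c.r ⊆ ball 0 r1 := closedBall_subset_ball hr
  have p1 : Cls c 2 fun i => ds (φ i) * ds (z i) := Cls.mul hc h1 hP (by omega) (by omega) (by omega)
  have p2 : Cls c 2 fun i => dt (φ i) * dt (z i) := Cls.mul hc h2 hQ (by omega) (by omega) (by omega)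
  have p3 : Cls c 2 fun i => dt (φ i) * ds (z i) := Cls.mul hc h2 hP (by omega) (by omega) (by omega)
  have p4 : Cls c 2 fun i => ds (φ i) * dt (z i) := Cls.mul hc h1 hQ (by omega) (by omega) (by omega)
  have ca : Cls c 2 fun i => hA (φ i) (z i) := Cls.add hc (Cls.sub hc hP.ds p1) p2
  have cb : Cls c 2 fun i => hB (φ i) (z i) := Cls.sub hc (Cls.sub hc hQ.ds p3) p4
  have cE : Cls c 1 fun i => E1 (φ i) (z i) := by
    have := Cls.sub hc (Cls.sub hc (Cls.mono hc zero_le_one h4)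
      (Cls.mul hc hP hP le_rfl le_rfl (by omega))) (Cls.mul hc hQ hQ le_rfl le_rfl (by omega))
    simpa only [E1, sq] using this
  have hM0 : 0 < 1 / M := by positivity
  have cc : Cls c 2 fun i => hC (φ i) (z i) :=
    cls_div hc (h := fun i => hB (φ i) (z i) * hB (φ i) (z i) + wv (φ i) * E1 (φ i) (z i))
      isOpen_ball hs (fun i x hx => by
        have := hD i x hx
        simp only [ev_add, ev_sub, ev_mul, ev_pow] at this ⊢
        linarith) hM0 (fun i x hx => (hA' i).lo x (hs hx)) ca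
      (Cls.add hc (Cls.mul hc cb cb le_rfl le_rfl (by omega))
        (Cls.mul hc h3 cE (by omega) (by omega) (by omega)))
  refine ⟨ca, cb, cc, cE, ?_⟩
  have := Cls.add hc (Cls.sub hc cc p1) p2
  have e : ∀ i, dt (dt (z i)) = hC (φ i) (z i) - ds (φ i) * ds (z i) + dt (φ i) * dt (z i) :=
    fun i => by rw [hC]; ring
  simpa only [e] using this

theorem deq_ra (φ z : Sm) (j : ℕ) : dsn j (hA φ z) - hA φ (dsn j z)
    = (dsn j (dt φ * dt z) - dt φ * dsn j (dt z)) - (dsn j (ds φ * ds z) - ds φ * dsn j (ds z)) := by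
  simp only [hA, map_add, map_sub, dsn_ds, dsn_dt]; ring

theorem deq_rb (φ z : Sm) (j : ℕ) : dsn j (hB φ z) - hB φ (dsn j z)
    = -(dsn j (dt φ * ds z) - dt φ * dsn j (ds z)) - (dsn j (ds φ * dt z) - ds φ * dsn j (dt z)) := by
  simp only [hB, map_sub, dsn_ds, dsn_dt]; ring

theorem deq_rc (φ z : Sm) (j : ℕ) : dsn j (hC φ z) - hC φ (dsn j z)
    = (dsn j (ds φ * ds z) - ds φ * dsn j (ds z)) - (dsn j (dt φ * dt z) - dt φ * dsn j (dt z)) := by
  simp only [hC, map_add, map_sub, dsn_ds, dsn_dt]; ring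

theorem deq_re (φ z : Sm) (j : ℕ) :
    dsn j (E1 φ z) + 2 * (ds z * ds (dsn j z) + dt z * dt (dsn j z))
    = dsn j (ex (2 * φ)) - (dsn j (ds z * ds z) - ds z * dsn j (ds z) - ds z * dsn j (ds z))
      - (dsn j (dt z * dt z) - dt z * dsn j (dt z) - dt z * dsn j (dt z)) := by
  simp only [E1, sq, map_sub, dsn_ds, dsn_dt]; ring

theorem deq_la (φ z : Sm) (i : ℕ) : dsn i (hA φ z) - ds (dsn (i + 1) z)
    = dsn i (dt φ * dt z - ds φ * ds z) := by
  simp only [hA, map_add, map_sub, dsn_ds, dsn_succ]; ring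

theorem deq_lb (φ z : Sm) (i : ℕ) : dsn i (hB φ z) - dt (dsn (i + 1) z)
    = dsn i (-(dt φ * ds z) - ds φ * dt z) := by
  simp only [hB, map_sub, map_neg, dsn_ds, dsn_dt, dsn_succ, dt_ds]; ring

theorem deq_alg {a b c w E ι a' b' c' J L hAu hBu hCu P Q us ut Dw Da Db Dc DE da db dc Dac Dbb DwE
    dac dbb dwE : ℝ} (hi : a * ι = 1) (ej : Dac - Dbb = DwE) (ei : dac - dbb = dwE)
    (hp : a * L = a * hCu + c * hAu - 2 * (b * hBu) + 2 * (w * (P * us + Q * ut))
      + J * (a' * ι * (2 * (b * ut) - c * us) + c' * us - 2 * (b' * ut))) :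
    L - E * ι * Dw = -(ι * (a * (Dc - hCu) + c * (Da - hAu) - 2 * (b * (Db - hBu))
      + J * (a' * (ι * (2 * (b * (db - ut)) - c * (da - us)
          + (dwE - (dac - a * dc - c * da) + (dbb - b * db - b * db))))
        + c' * (da - us) - 2 * (b' * (db - ut)))
      + (Dac - a * Dc - c * Da - J * (a' * dc + c' * da))
      - (Dbb - b * Db - b * Db - J * (b' * db + b' * db))
      - w * (DE + 2 * (P * us + Q * ut)) - (DwE - w * DE - E * Dw))) := by
  linear_combination ι * hp + (ι * J * a' * dc - L) * hi - ι ^ 2 * J * a' * ei + ι * ej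

theorem deq_diff {φ z : Sm} {U : Set Pt} (hU : IsOpen U) (hD : Darb φ z U) (j : ℕ) : ∀ x ∈ U,
    (dsn j (hA φ z * hC φ z)).1 x - (dsn j (hB φ z * hB φ z)).1 x = (dsn j (wv φ * E1 φ z)).1 x := by
  intro x hx
  have := dsn_congr j hU hD x hx
  rwa [sq, map_sub, ev_sub] at this

theorem deq (hc : c.OK) (hM : 1 ≤ M) (hr : c.r < r1) (hD : ∀ i, Darb (φ i) (z i) (ball (0 : Pt) r1))
    (hA' : ∀ i, AuxOK M r1 Λ (φ i) (z i))
    (hP : Cls c 1 fun i => ds (z i)) (hQ : Cls c 1 fun i => dt (z i))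
    (h1 : Cls c 0 fun i => ds (φ i)) (h2 : Cls c 0 fun i => dt (φ i))
    (h3 : Cls c 1 fun i => wv (φ i)) (h4 : Cls c 0 fun i => ex (2 * φ i))
    (μ : ℝ) {j : ℕ} (hj : 3 ≤ j) : Good c j fun i => rem Λ μ (c.η i) (φ i) (z i) j := by
  obtain ⟨ca, cb, cc, cE, -⟩ := dcls hc hM hr hD hA' hP hQ h1 h2 h3 h4
  obtain ⟨l, rfl⟩ : ∃ l, j = l + 1 := ⟨j - 1, by omega⟩
  have hs : closedBall (0 : Pt) c.r ⊆ ball 0 r1 := closedBall_subset_ball hr
  have bι : Bnd c fun i => iot Λ (φ i) (z i) := ⟨M, fun i x hx => (hA' i).ι0 x (hs hx)⟩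
  have ba : Bnd c fun i => hA (φ i) (z i) := ⟨M, fun i x hx => (hA' i).a0 x (hs hx)⟩
  have bb : Bnd c fun i => hB (φ i) (z i) := ⟨M, fun i x hx => (hA' i).b0 x (hs hx)⟩
  have bc : Bnd c fun i => hC (φ i) (z i) := ⟨M, fun i x hx => (hA' i).c0 x (hs hx)⟩
  have ba' : Bnd c fun i => ds (hA (φ i) (z i)) := ⟨M, fun i x hx => (hA' i).a1 x (hs hx)⟩
  have bb' : Bnd c fun i => ds (hB (φ i) (z i)) := ⟨M, fun i x hx => (hA' i).b1 x (hs hx)⟩
  have bc' : Bnd c fun i => ds (hC (φ i) (z i)) := ⟨M, fun i x hx => (hA' i).c1 x (hs hx)⟩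
  have bw' : Bnd c fun i => wv (φ i) := ⟨M, fun i x hx => (hA' i).w0 x (hs hx)⟩
  have b2 : Bnd c fun _ : I => (2 : Sm) := bnd_const _
  have bJ : Bnd c fun _ : I => cst ((l + 1 : ℕ) : ℝ) := bnd_const _
  have ra : Good c (l + 1) fun i =>
      dsn (l + 1) (hA (φ i) (z i)) - hA (φ i) (dsn (l + 1) (z i)) := by
    simp only [deq_ra]
    exact Good.sub hc (rem0 hc _ h2 hQ) (rem0 hc _ h1 hP)
  have rb : Good c (l + 1) fun i =>
      dsn (l + 1) (hB (φ i) (z i)) - hB (φ i) (dsn (l + 1) (z i)) := by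
    simp only [deq_rb]
    exact Good.sub hc (Good.neg hc (rem0 hc _ h2 hP)) (rem0 hc _ h1 hQ)
  have rc : Good c (l + 1) fun i =>
      dsn (l + 1) (hC (φ i) (z i)) - hC (φ i) (dsn (l + 1) (z i)) := by
    simp only [deq_rc]
    exact Good.sub hc (rem0 hc _ h1 hP) (rem0 hc _ h2 hQ)
  have re : Good c (l + 1) fun i => dsn (l + 1) (E1 (φ i) (z i))
      + 2 * (ds (z i) * ds (dsn (l + 1) (z i)) + dt (z i) * dt (dsn (l + 1) (z i))) := by
    simp only [deq_re]
    exact Good.sub hc (Good.sub hc (h4 (l + 1)) (rem1 hc (by omega) (by omega) rfl hP hP))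
      (rem1 hc (by omega) (by omega) rfl hQ hQ)
  have la : Good c (l + 1) fun i => dsn l (hA (φ i) (z i)) - ds (dsn (l + 1) (z i)) := by
    simp only [deq_la]
    exact Cls.sub hc (Cls.mul hc h2 hQ (by omega) le_rfl (by omega))
      (Cls.mul hc h1 hP (by omega) le_rfl (by omega)) l
  have lb : Good c (l + 1) fun i => dsn l (hB (φ i) (z i)) - dt (dsn (l + 1) (z i)) := by
    simp only [deq_lb]
    exact Cls.sub hc (Cls.neg hc (Cls.mul hc h2 hP (by omega) le_rfl (by omega)))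
      (Cls.mul hc h1 hQ (by omega) le_rfl (by omega)) l
  have lc := Good.add hc (Good.sub hc (Cls.mul hc h3 cE le_rfl le_rfl (by omega) l)
    (rem1 hc (j := l) (by omega) (by omega) rfl ca cc))
    (rem1 hc (j := l) (by omega) (by omega) rfl cb cb)
  have t1 := Good.sub hc (Good.add hc (Good.bnd_mul hc ba rc) (Good.bnd_mul hc bc ra))
    (Good.bnd_mul hc b2 (Good.bnd_mul hc bb rb))
  have t2 := Good.bnd_mul hc bJ (Good.sub hc (Good.add hc (Good.bnd_mul hc ba' (Good.bnd_mul hc bι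
    (Good.add hc (Good.sub hc (Good.bnd_mul hc b2 (Good.bnd_mul hc bb lb)) (Good.bnd_mul hc bc la))
      lc))) (Good.bnd_mul hc bc' la)) (Good.bnd_mul hc b2 (Good.bnd_mul hc bb' lb)))
  have t3 := Good.neg hc (Good.bnd_mul hc bι (Good.sub hc (Good.sub hc (Good.sub hc
    (Good.add hc (Good.add hc t1 t2) (rem2 hc (j := l) (by omega) ca cc))
    (rem2 hc (j := l) (by omega) cb cb)) (Good.bnd_mul hc bw' re))
    (rem1 hc (j := l + 1) (by omega) (by omega) rfl h3 cE)))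
  refine good_congr hc (fun i x hx => ?_) t3
  have hp := principal Λ μ (c.η i) (φ i) (z i) (dsn (l + 1) (z i)) (l + 1) isOpen_ball (hD i)
    (hA' i).inv x (hs hx)
  have e : (coef Λ μ (c.η i) (φ i) (z i) (l + 1)).mh = E1 (φ i) (z i) * iot Λ (φ i) (z i) := rfl
  simp only [rem, e, ev_add, ev_sub, ev_mul, ev_neg, ev_cst, ev_two] at hp ⊢
  exact deq_alg ((hA' i).inv x (hs hx)) (deq_diff isOpen_ball (hD i) (l + 1) x (hs hx))
    (deq_diff isOpen_ball (hD i) l x (hs hx)) hp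

end
end Vale.Agent.P229
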