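import Vale.Agent.P229.QForm

open scoped ContDiff
open MeasureTheory Metric

namespace Vale.Agent.P229
noncomputable section

/-- Gram determinant identity -/
theorem darb_gram (X1 X2 X3 Y1 Y2 Y3 u1 u2 u3 v1 v2 v3 E : ℝ)
    (huu : u1 ^ 2 + u2 ^ 2 + u3 ^ 2 = E) (hvv : v1 ^ 2 + v2 ^ 2 + v3 ^ 2 = E)
    (huv : u1 * v1 + u2 * v2 + u3 * v3 = 0) :
    (X1 * (u2 * v3 - u3 * v2) + X2 * (u3 * v1 - u1 * v3) + X3 * (u1 * v2 - u2 * v1)) *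
      (Y1 * (u2 * v3 - u3 * v2) + Y2 * (u3 * v1 - u1 * v3) + Y3 * (u1 * v2 - u2 * v1)) =
    (X1 * Y1 + X2 * Y2 + X3 * Y3) * E ^ 2
      - E * ((X1 * u1 + X2 * u2 + X3 * u3) * (Y1 * u1 + Y2 * u2 + Y3 * u3))
      - E * ((X1 * v1 + X2 * v2 + X3 * v3) * (Y1 * v1 + Y2 * v2 + Y3 * v3)) := by
  have h : (X1 * (u2 * v3 - u3 * v2) + X2 * (u3 * v1 - u1 * v3) + X3 * (u1 * v2 - u2 * v1)) *
      (Y1 * (u2 * v3 - u3 * v2) + Y2 * (u3 * v1 - u1 * v3) + Y3 * (u1 * v2 - u2 * v1)) =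
      (X1 * Y1 + X2 * Y2 + X3 * Y3) * ((u1 ^ 2 + u2 ^ 2 + u3 ^ 2) * (v1 ^ 2 + v2 ^ 2 + v3 ^ 2)
        - (u1 * v1 + u2 * v2 + u3 * v3) ^ 2)
      - (v1 ^ 2 + v2 ^ 2 + v3 ^ 2) *
        ((X1 * u1 + X2 * u2 + X3 * u3) * (Y1 * u1 + Y2 * u2 + Y3 * u3))
      - (u1 ^ 2 + u2 ^ 2 + u3 ^ 2) *
        ((X1 * v1 + X2 * v2 + X3 * v3) * (Y1 * v1 + Y2 * v2 + Y3 * v3))
      + (u1 * v1 + u2 * v2 + u3 * v3) *
        ((X1 * u1 + X2 * u2 + X3 * u3) * (Y1 * v1 + Y2 * v2 + Y3 * v3)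
          + (X1 * v1 + X2 * v2 + X3 * v3) * (Y1 * u1 + Y2 * u2 + Y3 * u3)) := by ring
  rw [h, huu, hvv, huv]; ring

theorem darb_alg (A1 A2 A3 B1 B2 B3 C1 C2 C3 e1 e2 e3 u1 u2 u3 v1 v2 v3 E w : ℝ) (hE : 0 < E)
    (huu : u1 ^ 2 + u2 ^ 2 + u3 ^ 2 = E) (hvv : v1 ^ 2 + v2 ^ 2 + v3 ^ 2 = E)
    (huv : u1 * v1 + u2 * v2 + u3 * v3 = 0)
    (hAu : A1 * u1 + A2 * u2 + A3 * u3 = 0) (hAv : A1 * v1 + A2 * v2 + A3 * v3 = 0)
    (hBu : B1 * u1 + B2 * u2 + B3 * u3 = 0) (hBv : B1 * v1 + B2 * v2 + B3 * v3 = 0)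
    (hCu : C1 * u1 + C2 * u2 + C3 * u3 = 0) (hCv : C1 * v1 + C2 * v2 + C3 * v3 = 0)
    (hG : A1 * C1 + A2 * C2 + A3 * C3 - (B1 * B1 + B2 * B2 + B3 * B3) = w * E)
    (he : e1 ^ 2 + e2 ^ 2 + e3 ^ 2 = 1) :
    (e1 * A1 + e2 * A2 + e3 * A3) * (e1 * C1 + e2 * C2 + e3 * C3)
      - (e1 * B1 + e2 * B2 + e3 * B3) ^ 2 =
      w * (E - (e1 * u1 + e2 * u2 + e3 * u3) ^ 2 - (e1 * v1 + e2 * v2 + e3 * v3) ^ 2) := by
  have g := fun X1 X2 X3 Y1 Y2 Y3 => darb_gram X1 X2 X3 Y1 Y2 Y3 u1 u2 u3 v1 v2 v3 E huu hvv huv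
  have gAe := g A1 A2 A3 e1 e2 e3
  have gBe := g B1 B2 B3 e1 e2 e3
  have gCe := g C1 C2 C3 e1 e2 e3
  have gAC := g A1 A2 A3 C1 C2 C3
  have gBB := g B1 B2 B3 B1 B2 B3
  have gee := g e1 e2 e3 e1 e2 e3
  rw [hAu, hAv] at gAe gAC
  rw [hBu, hBv] at gBe gBB
  rw [hCu, hCv] at gCe
  have he' : e1 * e1 + e2 * e2 + e3 * e3 = 1 := by linarith
  rw [he'] at gee
  generalize A1 * (u2 * v3 - u3 * v2) + A2 * (u3 * v1 - u1 * v3) + A3 * (u1 * v2 - u2 * v1) = a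
    at *
  generalize B1 * (u2 * v3 - u3 * v2) + B2 * (u3 * v1 - u1 * v3) + B3 * (u1 * v2 - u2 * v1) = b
    at *
  generalize C1 * (u2 * v3 - u3 * v2) + C2 * (u3 * v1 - u1 * v3) + C3 * (u1 * v2 - u2 * v1) = c
    at *
  generalize e1 * (u2 * v3 - u3 * v2) + e2 * (u3 * v1 - u1 * v3) + e3 * (u1 * v2 - u2 * v1) = n
    at *
  generalize e1 * u1 + e2 * u2 + e3 * u3 = p at *
  generalize e1 * v1 + e2 * v2 + e3 * v3 = q at *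
  have h1 : e1 * A1 + e2 * A2 + e3 * A3 = A1 * e1 + A2 * e2 + A3 * e3 := by ring
  have h2 : e1 * B1 + e2 * B2 + e3 * B3 = B1 * e1 + B2 * e2 + B3 * e3 := by ring
  have h3 : e1 * C1 + e2 * C2 + e3 * C3 = C1 * e1 + C2 * e2 + C3 * e3 := by ring
  rw [h1, h2, h3]
  generalize A1 * e1 + A2 * e2 + A3 * e3 = α at *
  generalize B1 * e1 + B2 * e2 + B3 * e3 = β at *
  generalize C1 * e1 + C2 * e2 + C3 * e3 = γ at *
  generalize A1 * C1 + A2 * C2 + A3 * C3 = s at *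
  generalize B1 * B1 + B2 * B2 + B3 * B3 = t at *
  have hE4 : E ^ 4 ≠ 0 := by positivity
  apply mul_left_cancel₀ hE4
  have k1 : α * E ^ 2 = a * n := by linarith
  have k2 : β * E ^ 2 = b * n := by linarith
  have k3 : γ * E ^ 2 = c * n := by linarith
  have k4 : a * c - b * b = w * E ^ 3 := by
    have : a * c - b * b = (s - t) * E ^ 2 := by linarith
    rw [this, hG]; ring
  have k5 : n * n = E * (E - p ^ 2 - q ^ 2) := by linarith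
  calc E ^ 4 * (α * γ - β ^ 2) = (α * E ^ 2) * (γ * E ^ 2) - (β * E ^ 2) ^ 2 := by ring
    _ = (n * n) * (a * c - b * b) := by rw [k1, k2, k3]; ring
    _ = _ := by rw [k4, k5]; ring

theorem darb_hA_hgt (φ x y z : Sm) (e : ℝ × ℝ × ℝ) :
    hA φ (hgt e x y z) = cst e.1 * hA φ x + cst e.2.1 * hA φ y + cst e.2.2 * hA φ z := by
  simp only [hA, hgt, map_add, ds_mul, dt_mul, ds_cst, dt_cst, mul_zero, add_zero]; ring
theorem darb_hB_hgt (φ x y z : Sm) (e : ℝ × ℝ × ℝ) :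
    hB φ (hgt e x y z) = cst e.1 * hB φ x + cst e.2.1 * hB φ y + cst e.2.2 * hB φ z := by
  simp only [hB, hgt, map_add, ds_mul, dt_mul, ds_cst, dt_cst, mul_zero, add_zero]; ring
theorem darb_hC_hgt (φ x y z : Sm) (e : ℝ × ℝ × ℝ) :
    hC φ (hgt e x y z) = cst e.1 * hC φ x + cst e.2.1 * hC φ y + cst e.2.2 * hC φ z := by
  simp only [hC, hgt, map_add, ds_mul, dt_mul, ds_cst, dt_cst, mul_zero, add_zero]; ring
theorem darb_ds_hgt (x y z : Sm) (e : ℝ × ℝ × ℝ) :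
    ds (hgt e x y z) = cst e.1 * ds x + cst e.2.1 * ds y + cst e.2.2 * ds z := by
  simp only [hgt, map_add, ds_mul, ds_cst, mul_zero, add_zero]
theorem darb_dt_hgt (x y z : Sm) (e : ℝ × ℝ × ℝ) :
    dt (hgt e x y z) = cst e.1 * dt x + cst e.2.1 * dt y + cst e.2.2 * dt z := by
  simp only [hgt, map_add, dt_mul, dt_cst, mul_zero, add_zero]

/-- orthogonality relations and the Gauss equation -/
theorem darb_rel {φ x y z : Sm} {U : Set Pt} (hU : IsOpen U) (h : Iso φ x y z U) {q : Pt}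
    (hq : q ∈ U) :
    ((hA φ x).1 q * (ds x).1 q + (hA φ y).1 q * (ds y).1 q + (hA φ z).1 q * (ds z).1 q = 0 ∧
     (hA φ x).1 q * (dt x).1 q + (hA φ y).1 q * (dt y).1 q + (hA φ z).1 q * (dt z).1 q = 0) ∧
    ((hB φ x).1 q * (ds x).1 q + (hB φ y).1 q * (ds y).1 q + (hB φ z).1 q * (ds z).1 q = 0 ∧
     (hB φ x).1 q * (dt x).1 q + (hB φ y).1 q * (dt y).1 q + (hB φ z).1 q * (dt z).1 q = 0) ∧
    ((hC φ x).1 q * (ds x).1 q + (hC φ y).1 q * (ds y).1 q + (hC φ z).1 q * (ds z).1 q = 0 ∧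
     (hC φ x).1 q * (dt x).1 q + (hC φ y).1 q * (dt y).1 q + (hC φ z).1 q * (dt z).1 q = 0) ∧
    (hA φ x).1 q * (hC φ x).1 q + (hA φ y).1 q * (hC φ y).1 q + (hA φ z).1 q * (hC φ z).1 q
      - ((hB φ x).1 q * (hB φ x).1 q + (hB φ y).1 q * (hB φ y).1 q + (hB φ z).1 q * (hB φ z).1 q)
      = (wv φ).1 q * (ex (2 * φ)).1 q := by
  have a0 := h.ss q hq
  have b0 := h.st q hq
  have c0 := h.tt q hq
  have hst : ∀ p ∈ U, (ds x * dt x + ds y * dt y + ds z * dt z).1 p = (0 : Sm).1 p := h.st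
  have a1 := ds_congr hU h.ss q hq
  have a2 := dt_congr hU h.ss q hq
  have b1 := ds_congr hU hst q hq
  have b2 := dt_congr hU hst q hq
  have c1 := ds_congr hU h.tt q hq
  have c2 := dt_congr hU h.tt q hq
  have a3 := dt_congr hU (dt_congr hU h.ss) q hq
  have b3 := ds_congr hU (dt_congr hU hst) q hq
  have c3 := ds_congr hU (ds_congr hU h.tt) q hq
  simp only [map_add, map_zero, ds_sq, dt_sq, ds_mul, dt_mul, ds_ex, dt_ex, ds_two, dt_two, dt_ds,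
    ev_add, ev_mul, ev_pow, ev_two, ev_zero, mul_zero, add_zero] at a0 b0 c0 a1 a2 b1 b2 c1 c2 a3 b3 c3
  simp only [hA, hB, hC, wv, ev_add, ev_sub, ev_mul, ev_neg]
  generalize (ex (2 * φ)).1 q = E at *
  refine ⟨⟨?_, ?_⟩, ⟨?_, ?_⟩, ⟨?_, ?_⟩, ?_⟩
  · linear_combination (1 / 2) * a1 - (ds φ).1 q * a0 + (dt φ).1 q * b0
  · linear_combination b1 - (1 / 2) * a2 - (ds φ).1 q * b0 + (dt φ).1 q * c0
  · linear_combination (1 / 2) * a2 - (dt φ).1 q * a0 - (ds φ).1 q * b0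
  · linear_combination (1 / 2) * c1 - (dt φ).1 q * b0 - (ds φ).1 q * c0
  · linear_combination b2 - (1 / 2) * c1 + (ds φ).1 q * a0 - (dt φ).1 q * b0
  · linear_combination (1 / 2) * c2 + (ds φ).1 q * b0 - (dt φ).1 q * c0
  · linear_combination b3 - (1 / 2) * a3 - (1 / 2) * c3
      + (ds φ).1 q * ((1 / 2) * a1) - (dt φ).1 q * (b1 - (1 / 2) * a2)
      - (ds φ).1 q * (b2 - (1 / 2) * c1) + (dt φ).1 q * ((1 / 2) * c2)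
      + (dt φ).1 q * a2 + (ds φ).1 q * c1
      - (ds φ).1 q ^ 2 * a0 - (dt φ).1 q ^ 2 * c0 + 2 * (ds φ).1 q * (dt φ).1 q * b0
      - (dt φ).1 q ^ 2 * a0 - (ds φ).1 q ^ 2 * c0 - 2 * (ds φ).1 q * (dt φ).1 q * b0

theorem darb_of_iso {φ x y z : Sm} {U : Set Pt} (hU : IsOpen U) (h : Iso φ x y z U)
    {e : ℝ × ℝ × ℝ} (he : IsUnit3 e) : Darb φ (hgt e x y z) U := by
  intro q hq
  obtain ⟨⟨h1, h2⟩, ⟨h3, h4⟩, ⟨h5, h6⟩, h7⟩ := darb_rel hU h hq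
  have a0 := h.ss q hq
  have b0 := h.st q hq
  have c0 := h.tt q hq
  simp only [ev_add, ev_mul, ev_pow] at a0 b0 c0
  have hE : 0 < (ex (2 * φ)).1 q := Real.exp_pos _
  simp only [E1, darb_hA_hgt, darb_hB_hgt, darb_hC_hgt, darb_ds_hgt, darb_dt_hgt, ev_add, ev_sub,
    ev_mul, ev_pow, ev_cst]
  exact darb_alg _ _ _ _ _ _ _ _ _ _ _ _ _ _ _ _ _ _ _ _ hE a0 c0 b0 h1 h2 h3 h4 h5 h6 h7 he

theorem darb_normal (A1 A2 A3 u1 u2 u3 v1 v2 v3 E : ℝ) (hE : 0 < E)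
    (huu : u1 ^ 2 + u2 ^ 2 + u3 ^ 2 = E) (hvv : v1 ^ 2 + v2 ^ 2 + v3 ^ 2 = E)
    (huv : u1 * v1 + u2 * v2 + u3 * v3 = 0)
    (hAu : A1 * u1 + A2 * u2 + A3 * u3 = 0) (hAv : A1 * v1 + A2 * v2 + A3 * v3 = 0) :
    ∃ e : ℝ × ℝ × ℝ, IsUnit3 e ∧ e.1 * u1 + e.2.1 * u2 + e.2.2 * u3 = 0 ∧
      e.1 * v1 + e.2.1 * v2 + e.2.2 * v3 = 0 ∧
      ∀ e' : ℝ × ℝ × ℝ, IsUnit3 e' → |e'.1 * A1 + e'.2.1 * A2 + e'.2.2 * A3| ≤
        e.1 * A1 + e.2.1 * A2 + e.2.2 * A3 := by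
  have gAA := darb_gram A1 A2 A3 A1 A2 A3 u1 u2 u3 v1 v2 v3 E huu hvv huv
  rw [hAu, hAv] at gAA
  have hn : (u2 * v3 - u3 * v2) ^ 2 + (u3 * v1 - u1 * v3) ^ 2 + (u1 * v2 - u2 * v1) ^ 2 = E ^ 2 := by
    have : (u2 * v3 - u3 * v2) ^ 2 + (u3 * v1 - u1 * v3) ^ 2 + (u1 * v2 - u2 * v1) ^ 2 =
      (u1 ^ 2 + u2 ^ 2 + u3 ^ 2) * (v1 ^ 2 + v2 ^ 2 + v3 ^ 2) - (u1 * v1 + u2 * v2 + u3 * v3) ^ 2 := by
      ring
    rw [this, huu, hvv, huv]; ring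
  have key : ∀ σ : ℝ, σ ^ 2 = 1 →
      0 ≤ σ * (A1 * (u2 * v3 - u3 * v2) + A2 * (u3 * v1 - u1 * v3) + A3 * (u1 * v2 - u2 * v1)) →
      ∃ e : ℝ × ℝ × ℝ, IsUnit3 e ∧ e.1 * u1 + e.2.1 * u2 + e.2.2 * u3 = 0 ∧
      e.1 * v1 + e.2.1 * v2 + e.2.2 * v3 = 0 ∧
      ∀ e' : ℝ × ℝ × ℝ, IsUnit3 e' → |e'.1 * A1 + e'.2.1 * A2 + e'.2.2 * A3| ≤
        e.1 * A1 + e.2.1 * A2 + e.2.2 * A3 := by
    intro σ hσ hpos
    refine ⟨(σ / E * (u2 * v3 - u3 * v2), σ / E * (u3 * v1 - u1 * v3), σ / E * (u1 * v2 - u2 * v1)),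
      ?_, by ring, by ring, fun e' he' => ?_⟩
    · unfold IsUnit3
      have : (σ / E * (u2 * v3 - u3 * v2)) ^ 2 + (σ / E * (u3 * v1 - u1 * v3)) ^ 2
          + (σ / E * (u1 * v2 - u2 * v1)) ^ 2 = σ ^ 2 / E ^ 2 *
          ((u2 * v3 - u3 * v2) ^ 2 + (u3 * v1 - u1 * v3) ^ 2 + (u1 * v2 - u2 * v1) ^ 2) := by ring
      rw [this, hn, hσ]; field_simp
    · unfold IsUnit3 at he'
      have e1 : σ / E * (u2 * v3 - u3 * v2) * A1 + σ / E * (u3 * v1 - u1 * v3) * A2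
          + σ / E * (u1 * v2 - u2 * v1) * A3 =
          σ * (A1 * (u2 * v3 - u3 * v2) + A2 * (u3 * v1 - u1 * v3) + A3 * (u1 * v2 - u2 * v1)) / E := by
        ring
      show _ ≤ σ / E * (u2 * v3 - u3 * v2) * A1 + σ / E * (u3 * v1 - u1 * v3) * A2
          + σ / E * (u1 * v2 - u2 * v1) * A3
      rw [e1]
      generalize A1 * (u2 * v3 - u3 * v2) + A2 * (u3 * v1 - u1 * v3) + A3 * (u1 * v2 - u2 * v1) = a
        at *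
      apply abs_le_of_sq_le_sq _ (div_nonneg hpos hE.le)
      have e2 : (σ * a / E) ^ 2 = A1 * A1 + A2 * A2 + A3 * A3 := by
        rw [div_pow, mul_pow, hσ, div_eq_iff (by positivity)]; linarith
      rw [e2]
      have : (A1 * A1 + A2 * A2 + A3 * A3) * (e'.1 ^ 2 + e'.2.1 ^ 2 + e'.2.2 ^ 2)
        - (e'.1 * A1 + e'.2.1 * A2 + e'.2.2 * A3) ^ 2 = (A1 * e'.2.1 - A2 * e'.1) ^ 2
          + (A1 * e'.2.2 - A3 * e'.1) ^ 2 + (A2 * e'.2.2 - A3 * e'.2.1) ^ 2 := by ring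
      rw [he'] at this
      nlinarith [sq_nonneg (A1 * e'.2.1 - A2 * e'.1), sq_nonneg (A1 * e'.2.2 - A3 * e'.1),
        sq_nonneg (A2 * e'.2.2 - A3 * e'.2.1)]
  rcases le_total 0 (A1 * (u2 * v3 - u3 * v2) + A2 * (u3 * v1 - u1 * v3) + A3 * (u1 * v2 - u2 * v1))
    with h | h
  · exact key 1 (by norm_num) (by linarith)
  · exact key (-1) (by norm_num) (by linarith)

theorem exists_normal {φ x y z : Sm} {U : Set Pt} (hU : IsOpen U) (h : Iso φ x y z U) {q : Pt}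
    (hq : q ∈ U) : ∃ e : ℝ × ℝ × ℝ, IsUnit3 e ∧ (ds (hgt e x y z)).1 q = 0 ∧
      (dt (hgt e x y z)).1 q = 0 ∧
      ∀ e' : ℝ × ℝ × ℝ, IsUnit3 e' → |(hA φ (hgt e' x y z)).1 q| ≤ (hA φ (hgt e x y z)).1 q := by
  obtain ⟨⟨h1, h2⟩, -⟩ := darb_rel hU h hq
  have a0 := h.ss q hq
  have b0 := h.st q hq
  have c0 := h.tt q hq
  simp only [ev_add, ev_mul, ev_pow] at a0 b0 c0
  have hE : 0 < (ex (2 * φ)).1 q := Real.exp_pos _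
  simp only [darb_hA_hgt, darb_ds_hgt, darb_dt_hgt, ev_add, ev_mul, ev_cst]
  exact darb_normal _ _ _ _ _ _ _ _ _ _ hE a0 c0 b0 h1 h2

end
end Vale.Agent.P229
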