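import Vale.Agent.P229.Basic

/-! Definitions for the counterexample to local smooth isometric realization. -/

open scoped ContDiff
open MeasureTheory Metric

namespace Vale.Agent.P229
noncomputable section

/-! ### The linear theory -/

/-- the vector field `∂_t + σ ∂_s` -/
def T (σ f : Sm) : Sm := dt f + σ * ds f

/-- coefficients of the linear operator -/
structure Coef where
  σ : Sm
  m : Sm
  g1 : Sm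
  g3 : Sm
  mh : Sm
  wb : Sm

/-- bounds for the coefficients on the box of radius `r` -/
structure CoefOK (M r η : ℝ) (K : Coef) : Prop where
  m_lo : ∀ x ∈ closedBall (0 : Pt) r, 1 / M ≤ K.m.1 x
  m0 : ∀ x ∈ closedBall (0 : Pt) r, |K.m.1 x| ≤ M
  ms : ∀ x ∈ closedBall (0 : Pt) r, |(ds K.m).1 x| ≤ M
  mt : ∀ x ∈ closedBall (0 : Pt) r, |(dt K.m).1 x| ≤ M
  mh_lo : ∀ x ∈ closedBall (0 : Pt) r, 1 / M ≤ K.mh.1 x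
  mh0 : ∀ x ∈ closedBall (0 : Pt) r, |K.mh.1 x| ≤ M
  mhs : ∀ x ∈ closedBall (0 : Pt) r, |(ds K.mh).1 x| ≤ M
  mht : ∀ x ∈ closedBall (0 : Pt) r, |(dt K.mh).1 x| ≤ M
  σ0 : ∀ x ∈ closedBall (0 : Pt) r, |K.σ.1 x| ≤ M
  σs : ∀ x ∈ closedBall (0 : Pt) r, |(ds K.σ).1 x| ≤ M
  σt : ∀ x ∈ closedBall (0 : Pt) r, |(dt K.σ).1 x| ≤ M
  σss : ∀ x ∈ closedBall (0 : Pt) r, |(ds (ds K.σ)).1 x| ≤ M
  σst : ∀ x ∈ closedBall (0 : Pt) r, |(ds (dt K.σ)).1 x| ≤ M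
  σtt : ∀ x ∈ closedBall (0 : Pt) r, |(dt (dt K.σ)).1 x| ≤ M
  g10 : ∀ x ∈ closedBall (0 : Pt) r, |K.g1.1 x| ≤ M
  g1s : ∀ x ∈ closedBall (0 : Pt) r, |(ds K.g1).1 x| ≤ M
  g1t : ∀ x ∈ closedBall (0 : Pt) r, |(dt K.g1).1 x| ≤ M
  g30 : ∀ x ∈ closedBall (0 : Pt) r, |K.g3.1 x| ≤ M
  wb0 : ∀ x ∈ closedBall (0 : Pt) r, |K.wb.1 x| ≤ M * η ^ 64
  wbs : ∀ x ∈ closedBall (0 : Pt) r, |(ds K.wb).1 x| ≤ M * η ^ 64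
  wbt : ∀ x ∈ closedBall (0 : Pt) r, |(dt K.wb).1 x| ≤ M * η ^ 64

theorem CoefOK.mono {M r r' η : ℝ} {K : Coef} (h : CoefOK M r η K) (hr : r' ≤ r) :
    CoefOK M r' η K := by
  have s : closedBall (0 : Pt) r' ⊆ closedBall 0 r := closedBall_subset_closedBall hr
  exact ⟨fun x hx => h.m_lo x (s hx), fun x hx => h.m0 x (s hx), fun x hx => h.ms x (s hx),
    fun x hx => h.mt x (s hx), fun x hx => h.mh_lo x (s hx), fun x hx => h.mh0 x (s hx),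
    fun x hx => h.mhs x (s hx), fun x hx => h.mht x (s hx), fun x hx => h.σ0 x (s hx),
    fun x hx => h.σs x (s hx), fun x hx => h.σt x (s hx), fun x hx => h.σss x (s hx),
    fun x hx => h.σst x (s hx), fun x hx => h.σtt x (s hx), fun x hx => h.g10 x (s hx),
    fun x hx => h.g1s x (s hx), fun x hx => h.g1t x (s hx), fun x hx => h.g30 x (s hx),
    fun x hx => h.wb0 x (s hx), fun x hx => h.wbs x (s hx), fun x hx => h.wbt x (s hx)⟩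

/-- model curvature `t² + μ s² - ε`, `ε = η³²` -/
def wq (μ η : ℝ) : Sm := cT ^ 2 + cst μ * cS ^ 2 - cst (η ^ 32)
/-- positive weight `t² + μ s² + ε` -/
def Wt (μ η : ℝ) (x : Pt) : ℝ := x.2 ^ 2 + μ * x.1 ^ 2 + η ^ 32
def Coef.w (K : Coef) (μ η : ℝ) : Sm := wq μ η + K.wb
def Coef.k (K : Coef) (μ η : ℝ) : Sm := K.m * K.w μ η
def Coef.g2 (K : Coef) (μ η ν : ℝ) : Sm := cst ν * ds (K.k μ η) + K.g3 * K.w μ η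
/-- general operator `T² + k ∂_s² + g₁ T + g₂ ∂_s` -/
def Lgen (σ k g1 g2 u : Sm) : Sm := T σ (T σ u) + k * ds (ds u) + g1 * T σ u + g2 * ds u
def Coef.L (K : Coef) (μ η ν : ℝ) (u : Sm) : Sm := Lgen K.σ (K.k μ η) K.g1 (K.g2 μ η ν) u
/-- quadratic polynomial that is constant along `T` up to second order -/
def pp (σ : Sm) : Sm := cS - cst (σ.1 0) * cT - cst ((ds σ).1 0) * (cS * cT)
  - cst (((dt σ).1 0 - σ.1 0 * (ds σ).1 0) / 2) * cT ^ 2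
/-- steep weight `1 + p² / ℓ²`, `ℓ = η²⁸` -/
def bw (σ : Sm) (η : ℝ) : Sm := 1 + cst (1 / η ^ 56) * pp σ ^ 2
/-- energy density -/
def en (σ : Sm) (μ η : ℝ) (u : Sm) (x : Pt) : ℝ :=
  (bw σ η).1 x * ((T σ u).1 x ^ 2 + Wt μ η x * (ds u).1 x ^ 2)

/-- the energy estimate on the box of radius `r` -/
def ENat (M μ r η1 : ℝ) : Prop :=
  ∃ C : ℝ, ∀ η : ℝ, 0 < η → η ≤ η1 → ∀ (K : Coef) (ν : ℝ) (u S R : Sm), CoefOK M r η K →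
    1 ≤ ν → ν ≤ M → (∀ x ∈ closedBall (0 : Pt) r, (K.L μ η ν u).1 x = S.1 x + R.1 x) →
    (∀ x ∈ closedBall (0 : Pt) r, η ^ 32 < ‖x‖ → S.1 x = 0) →
    ∫ x in closedBall (0 : Pt) (r / 2), en K.σ μ η u x ≤
      C * (η ^ 30 * (∫ x in closedBall (0 : Pt) r, S.1 x ^ 2)
        + (∫ x in closedBall (0 : Pt) r, (bw K.σ η).1 x * R.1 x ^ 2)
        + (1 / η) ^ 62 * ∫ x in closedBall (0 : Pt) r, (bw K.σ η).1 x * Wt μ η x * u.1 x ^ 2)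

/-! quadratic form produced by the multiplier `mb ∂_s + ma T + mc` (doubled) -/
def Qqq (σ g1 mb ma mc : Sm) : Sm := ds mb - (ds σ * ma + T σ ma) - 2 * mc + 2 * (g1 * ma)
def Qqy (σ k g1 g2 mb ma : Sm) : Sm := 2 * (g1 * mb - T σ mb - ds (ma * k) + g2 * ma)
def Qyy (σ k g2 mb ma mc : Sm) : Sm :=
  2 * (g2 * mb) - ds (mb * k) + T σ (ma * k) - ds σ * (ma * k) - 2 * (mc * k)
def Lq (σ g1 mc : Sm) : Sm := 2 * (g1 * mc - ds σ * mc - T σ mc)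
def Ly (k g2 mc : Sm) : Sm := 2 * (g2 * mc - ds (mc * k))

/-- profile `t₀² / (t₀² + t²)`, `t₀ = η¹⁵` -/
def rho (η : ℝ) (hη : 0 < η) : Sm :=
  mkS (fun x => η ^ 30 / (η ^ 30 + x.2 ^ 2))
    (contDiff_const.div (by fun_prop) fun x => by positivity)
/-- the factor `e^{ϑ t}`, `ϑ = g₁(0)` -/
def th (K : Coef) : Sm := ex (cst (K.g1.1 0) * cT)
def mB (K : Coef) (η : ℝ) (χ : Sm) : Sm :=
  χ ^ 4 * th K * (pp K.σ + cst (1 / (3 * η ^ 56)) * pp K.σ ^ 3)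
def mA (K : Coef) (η : ℝ) (hη : 0 < η) (χ : Sm) : Sm :=
  cst (1 / 4) * (χ ^ 4 * th K * bw K.σ η * (cT * rho η hη))
def mC (K : Coef) (η : ℝ) (hη : 0 < η) (χ : Sm) (C1 : ℝ) : Sm :=
  th K * bw K.σ η * ((cst (-5 / 8) + cst (1 / 8) * rho η hη + cst (1 / 4) * rho η hη ^ 2) * χ ^ 4
    - cst C1 * (χ ^ 2 * (cS ^ 2 + cT ^ 2)))

/-- values of the coefficients at one point -/
structure PD where
  s : ℝ
  t : ℝ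
  p : ℝ
  ps : ℝ
  e : ℝ
  Te : ℝ
  m : ℝ
  ms : ℝ
  mt : ℝ
  m0 : ℝ
  σ : ℝ
  σs : ℝ
  σ0 : ℝ
  g1d : ℝ
  ϑ : ℝ
  g3 : ℝ
  wb : ℝ
  wbs : ℝ
  wbt : ℝ
  ν : ℝ

def mkPD (K : Coef) (ν : ℝ) (x : Pt) : PD where
  s := x.1
  t := x.2
  p := (pp K.σ).1 x
  ps := (ds (pp K.σ)).1 x
  e := (T K.σ (pp K.σ)).1 x
  Te := (T K.σ (T K.σ (pp K.σ))).1 x
  m := K.m.1 x
  ms := (ds K.m).1 x
  mt := (dt K.m).1 x
  m0 := K.m.1 0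
  σ := K.σ.1 x
  σs := (ds K.σ).1 x
  σ0 := K.σ.1 0
  g1d := K.g1.1 x - K.g1.1 0
  ϑ := K.g1.1 0
  g3 := K.g3.1 x
  wb := K.wb.1 x
  wbs := (ds K.wb).1 x
  wbt := (dt K.wb).1 x
  ν := ν

namespace PD
variable (D : PD) (μ η : ℝ)
def d : ℝ := max |D.s| |D.t|
def W : ℝ := D.t ^ 2 + μ * D.s ^ 2 + η ^ 32
def w : ℝ := D.t ^ 2 + μ * D.s ^ 2 - η ^ 32 + D.wb
def k : ℝ := D.m * D.w μ η
def ks : ℝ := D.ms * D.w μ η + D.m * (2 * μ * D.s + D.wbs)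
def kt : ℝ := D.mt * D.w μ η + D.m * (2 * D.t + D.wbt)
def b1 : ℝ := 1 + D.p ^ 2 / η ^ 56
def B : ℝ := (D.p + D.p ^ 3 / (3 * η ^ 56)) / D.b1 η
def Γ : ℝ := 2 * D.p / η ^ 56 / D.b1 η
def ρ : ℝ := η ^ 30 / (η ^ 30 + D.t ^ 2)
def τ : ℝ := D.t * D.ρ η
def τ' : ℝ := D.ρ η * (2 * D.ρ η - 1)
def c0 : ℝ := -5 / 8 + D.ρ η / 8 + D.ρ η ^ 2 / 4
def c0' : ℝ := (1 / 8 + D.ρ η / 2) * (-2 * D.t * D.ρ η ^ 2 / η ^ 30)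
def qq : ℝ := D.ps / 2 - D.τ' η / 8 - D.c0 η
  + D.τ η / 4 * (D.g1d + D.ϑ / 2 - D.σs / 2 - D.Γ η * D.e / 2)
def qy : ℝ := D.B η * D.g1d - D.e - D.τ η / 4 * (D.Γ η * D.ps * D.k μ η)
  + D.τ η / 4 * ((D.ν - 1) * D.ks μ η + D.g3 * D.w μ η)
def yy : ℝ := -(D.ps * D.k μ η) / 2 + (D.ν - 1 / 2) * D.B η * D.ks μ η + D.g3 * D.w μ η * D.B η
  + D.τ' η * D.k μ η / 8 + D.τ η / 8 * ((D.ϑ + D.Γ η * D.e - D.σs) * D.k μ η)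
  + D.τ η / 8 * (D.kt μ η + D.σ * D.ks μ η) - D.c0 η * D.k μ η
variable (c cs ct C1 : ℝ)
def Aqq : ℝ := c ^ 4 * D.qq η + c ^ 3 * (2 * cs * D.B η - ct * D.τ η / 2)
  + C1 * c ^ 2 * (D.s ^ 2 + D.t ^ 2)
def Aqy : ℝ := c ^ 4 * D.qy μ η - 4 * c ^ 3 * ct * D.B η - c ^ 3 * D.τ η * cs * D.k μ η
def Ayy : ℝ := c ^ 4 * D.yy μ η + c ^ 3 * (-2 * cs * D.B η * D.k μ η + ct * D.τ η * D.k μ η / 2)
  + C1 * c ^ 2 * (D.s ^ 2 + D.t ^ 2) * D.k μ η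
def cc : ℝ := D.c0 η * c ^ 4 - C1 * c ^ 2 * (D.s ^ 2 + D.t ^ 2)
def Alq : ℝ := (D.g1d - D.σs - D.Γ η * D.e) * D.cc η c C1
  - (D.c0' η * c ^ 4 + 4 * D.c0 η * c ^ 3 * ct
    - C1 * (2 * c * ct * (D.s ^ 2 + D.t ^ 2) + c ^ 2 * (2 * D.t + 2 * D.σ * D.s)))
def Aly : ℝ := ((D.ν - 1) * D.ks μ η + D.g3 * D.w μ η) * D.cc η c C1
  - (D.Γ η * D.ps * D.cc η c C1 + 4 * D.c0 η * c ^ 3 * cs
    - C1 * (2 * c * cs * (D.s ^ 2 + D.t ^ 2) + 2 * c ^ 2 * D.s)) * D.k μ η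
/-! quasimode quantities -/
def a0 : ℝ := 1 + μ * D.σ0 ^ 2
def υ : ℝ := μ * D.σ0 / D.a0 μ
def lam : ℝ := Real.sqrt (D.a0 μ / D.m0) / η ^ 32
def tt : ℝ := D.t + D.υ μ * D.p
def ga : ℝ := D.a0 μ * D.υ μ * D.tt μ / η ^ 32 + D.p / η ^ 40
def G : ℝ := D.a0 μ * D.tt μ ^ 2 / (2 * η ^ 32) + D.p ^ 2 / (2 * η ^ 40)
def TG : ℝ := D.a0 μ * D.tt μ / η ^ 32 + D.e * D.ga μ η
def Gs : ℝ := D.ps * D.ga μ η
def TTG : ℝ := D.a0 μ * (1 + D.υ μ * D.e) / η ^ 32 + D.Te * D.ga μ η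
  + D.e * (D.a0 μ * D.υ μ * (1 + D.υ μ * D.e) / η ^ 32 + D.e / η ^ 40)
def Gss : ℝ := D.ps ^ 2 * (D.a0 μ * D.υ μ ^ 2 / η ^ 32 + 1 / η ^ 40)
def X : ℝ := D.TG μ η ^ 2 - (D.lam μ η * D.e) ^ 2 - D.TTG μ η - D.σs * D.TG μ η
  + D.k μ η * (D.Gs μ η ^ 2 - (D.lam μ η * D.ps) ^ 2) - D.k μ η * D.Gss μ η - D.ks μ η * D.Gs μ η
def Y : ℝ := -2 * D.TG μ η * (D.lam μ η * D.e) + D.lam μ η * D.Te + D.σs * (D.lam μ η * D.e)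
  - 2 * D.k μ η * D.Gs μ η * (D.lam μ η * D.ps) + D.ks μ η * (D.lam μ η * D.ps)
def Hh : ℝ := 1 + D.tt μ ^ 2 / η ^ 32 + D.p ^ 2 / η ^ 40
/-- the size allowed for quasimode errors -/
def Z : ℝ := (1 / η) ^ 16 * D.Hh μ η ^ 4 * (1 + |D.p| / η ^ 28)
end PD

/-- hypotheses on the point data -/
structure PDOK (M r η : ℝ) (D : PD) : Prop where
  hs : |D.s| ≤ r
  ht : |D.t| ≤ r
  m_lo : 1 / M ≤ D.m
  m_hi : D.m ≤ M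
  m0_lo : 1 / M ≤ D.m0
  m0_hi : D.m0 ≤ M
  hms : |D.ms| ≤ M
  hmt : |D.mt| ≤ M
  hσ : |D.σ| ≤ M
  hσs : |D.σs| ≤ M
  hσ0 : |D.σ0| ≤ M
  hϑ : |D.ϑ| ≤ M
  hg3 : |D.g3| ≤ M
  he : |D.e| ≤ M * D.d ^ 2
  hTe : |D.Te| ≤ M * D.d
  hp : |D.p - (D.s - D.σ0 * D.t)| ≤ M * D.d ^ 2
  hps : |D.ps - 1| ≤ M * D.d
  hg1d : |D.g1d| ≤ M * D.d
  hmd : |D.m - D.m0| ≤ M * D.d
  hwb : |D.wb| ≤ M * η ^ 64
  hwbs : |D.wbs| ≤ M * η ^ 64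
  hwbt : |D.wbt| ≤ M * η ^ 64
  ν_lo : 1 ≤ D.ν
  ν_hi : D.ν ≤ M

/-- elementary consequences of `PDOK` -/
structure RB (M μ r η : ℝ) (D : PD) : Prop where
  d0 : 0 ≤ D.d
  dr : D.d ≤ r
  sd : |D.s| ≤ D.d
  td : |D.t| ≤ D.d
  ρ0 : 0 < D.ρ η
  ρ1 : D.ρ η ≤ 1
  ρt : D.ρ η * D.t ^ 2 ≤ η ^ 30
  τt : |D.τ η| ≤ |D.t|
  τt2 : |D.τ η| * |D.t| ≤ η ^ 30
  b1 : 1 ≤ D.b1 η
  Bp : |D.B η| ≤ |D.p|
  pB : D.p ^ 2 / 3 ≤ D.p * D.B η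
  Γ1 : |D.Γ η| ≤ 1 / η ^ 28
  Γ2 : |D.p| * |D.Γ η| ≤ 2
  pd : |D.p| ≤ 3 * M * D.d
  dp : D.d ≤ 2 * |D.p| + 3 * M * |D.t|
  τΓ : |D.τ η| * |D.Γ η| * D.d ≤ 4 * D.d + 3 * M * η ^ 2
  W1 : μ * D.d ^ 2 ≤ D.W μ η
  W2 : η ^ 32 ≤ D.W μ η
  W3 : D.t ^ 2 ≤ D.W μ η
  W4 : μ * D.s ^ 2 ≤ D.W μ η
  W5 : D.W μ η ≤ 2 * D.d ^ 2 + η ^ 32
  W6 : D.W μ η ≤ 2
  w1 : |D.w μ η| ≤ 2 * D.W μ η
  w2 : D.W μ η - 3 * η ^ 32 ≤ D.w μ η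
  k1 : |D.k μ η| ≤ 2 * M * D.W μ η
  ks1 : |D.ks μ η - 2 * μ * D.s * D.m| ≤ 3 * M ^ 2 * D.W μ η
  kt1 : |D.kt μ η - 2 * D.t * D.m| ≤ 3 * M ^ 2 * D.W μ η
  ks2 : D.ks μ η ^ 2 ≤ 64 * M ^ 4 * D.W μ η
  c01 : |D.c0 η| ≤ 1
  c02 : D.c0' η ^ 2 ≤ 4 * (D.W μ η / η ^ 60)

/-- exponent of the Gaussian -/
def Gq (K : Coef) (μ η : ℝ) : Sm :=
  cst ((mkPD K 1 0).a0 μ / (2 * η ^ 32)) * (cT + cst ((mkPD K 1 0).υ μ) * pp K.σ) ^ 2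
    + cst (1 / (2 * η ^ 40)) * pp K.σ ^ 2
/-- the quasimode -/
def vq (K : Coef) (μ η : ℝ) (χ : Sm) : Sm :=
  χ * (ex (-Gq K μ η) * co (cst ((mkPD K 1 0).lam μ η) * pp K.σ))
/-- principal part of the adjoint operator -/
def Qop (σ k v : Sm) : Sm := T σ (T σ v) + ds σ * T σ v + ds (k * ds v)
/-- Gaussian majorant -/
def gs (σ : Sm) (η : ℝ) (x : Pt) : ℝ :=
  Real.exp (-(x.2 ^ 2 / (4 * η ^ 32) + (pp σ).1 x ^ 2 / (4 * η ^ 40)))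

/-- a cut-off adapted to the box of radius `r` -/
structure IsCut (r : ℝ) (χ : Sm) : Prop where
  cpt : HasCompactSupport χ.1
  mem : ∀ x, 0 ≤ χ.1 x ∧ χ.1 x ≤ 1
  one : ∀ x ∈ closedBall (0 : Pt) (r / 2), χ.1 x = 1
  zero : ∀ x, x ∉ ball (0 : Pt) r → χ.1 x = 0

theorem exists_isCut {r : ℝ} (hr : 0 < r) : ∃ χ, IsCut r χ := by
  obtain ⟨χ, h1, h2, h3, h4⟩ := exists_cut hr
  exact ⟨χ, h1, h2, h3, h4⟩

/-! ### The Darboux equation for a conformal metric `e^{2φ}(ds² + dt²)` -/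

def hA (φ z : Sm) : Sm := ds (ds z) - ds φ * ds z + dt φ * dt z
def hB (φ z : Sm) : Sm := ds (dt z) - dt φ * ds z - ds φ * dt z
def hC (φ z : Sm) : Sm := dt (dt z) + ds φ * ds z - dt φ * dt z
def wv (φ : Sm) : Sm := -(ds (ds φ) + dt (dt φ))
def E1 (φ z : Sm) : Sm := ex (2 * φ) - ds z ^ 2 - dt z ^ 2
/-- the Darboux equation on `U` -/
def Darb (φ z : Sm) (U : Set Pt) : Prop :=
  ∀ x ∈ U, (hA φ z * hC φ z - hB φ z ^ 2).1 x = (wv φ * E1 φ z).1 x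

/-- all derivatives up to order `k` are bounded by `Λ` on `U` -/
def Bd (U : Set Pt) (Λ : ℝ) : ℕ → Sm → Prop
  | 0, f => ∀ x ∈ U, |f.1 x| ≤ Λ
  | k + 1, f => (∀ x ∈ U, |f.1 x| ≤ Λ) ∧ Bd U Λ k (ds f) ∧ Bd U Λ k (dt f)

/-- a normalised solution of the Darboux equation -/
structure Sol (Λ r0 : ℝ) (φ z : Sm) : Prop where
  bd : Bd (ball (0 : Pt) r0) Λ 8 z
  ds0 : (ds z).1 0 = 0
  dt0 : (dt z).1 0 = 0
  lo : 1 / Λ ≤ (hA φ z).1 0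
  darb : Darb φ z (ball (0 : Pt) r0)

/-- a fixed bump function -/
def B0 : Sm := Classical.choose (exists_isCut one_pos)
theorem B0_cut : IsCut 1 B0 := Classical.choose_spec (exists_isCut one_pos)
/-- the bump `δ τ² B₀(x / τ)` -/
def bmp (δ τ : ℝ) : Sm :=
  mkS (fun x => δ * τ ^ 2 * B0.1 (τ⁻¹ • x))
    (contDiff_const.mul ((Sm.cd B0).comp (contDiff_id.const_smul τ⁻¹)))
/-- the rescaled function `a g(x / τ)` -/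
def scl (a τ : ℝ) (g : Sm) : Sm :=
  mkS (fun x => a * g.1 (τ⁻¹ • x))
    (contDiff_const.mul ((Sm.cd g).comp (contDiff_id.const_smul τ⁻¹)))
theorem bmp_eq (δ τ : ℝ) : bmp δ τ = scl (δ * τ ^ 2) τ B0 := rfl
/-- the island: `-Δ om0 = t² + μ s² - ε` -/
def om0 (μ ε : ℝ) : Sm := cT - cst (1 / 12) * cT ^ 4
  - cst (1 / 2) * ((cst μ * cS ^ 2 - cst ε) * cT ^ 2) + cst (μ / 12) * cT ^ 4
/-- the local model of the conformal factor -/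
def om (μ η : ℝ) (N : ℕ) (cB : ℝ) : Sm := om0 μ (η ^ 32) + bmp (η ^ (32 * N)) (cB * η ^ 32)

/-- a smooth function equal to `1 / x` for `x ≥ κ` -/
def sinv (κ : ℝ) : ℝ → ℝ := if h : 0 < κ then Classical.choose (exists_sinv h) else fun _ => 0
theorem sinv_cd (κ : ℝ) : ContDiff ℝ ∞ (sinv κ) := by
  unfold sinv; split_ifs with h
  exacts [(Classical.choose_spec (exists_sinv h)).1, contDiff_const]
theorem sinv_eq {κ : ℝ} (h : 0 < κ) {x : ℝ} (hx : κ ≤ x) : sinv κ x = 1 / x := by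
  unfold sinv; rw [dif_pos h]; exact (Classical.choose_spec (exists_sinv h)).2 x hx
/-- inverse of `hA` near the origin -/
def iot (Λ : ℝ) (φ z : Sm) : Sm := cmp (sinv (1 / (2 * Λ))) (sinv_cd _) (hA φ z)
def sig (Λ : ℝ) (φ z : Sm) : Sm := -(hB φ z * iot Λ φ z)
/-- coefficients of the `j` times differentiated Darboux equation -/
def coef (Λ μ η : ℝ) (φ z : Sm) (j : ℕ) : Coef where
  σ := sig Λ φ z
  m := E1 φ z * iot Λ φ z ^ 2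
  g1 := iot Λ φ z * ((hC φ z - hA φ z) * dt φ + 2 * (hB φ z * ds φ) + 2 * (wv φ * dt z))
    + cst (2 * j) * ds (sig Λ φ z)
  g3 := E1 φ z * iot Λ φ z ^ 2 * (ds (hA φ z) * iot Λ φ z - 2 * ds φ)
    + 3 * (iot Λ φ z * (ds z - sig Λ φ z * dt z))
  mh := E1 φ z * iot Λ φ z
  wb := wv φ - wq μ η
/-- remainder of the `j` times differentiated Darboux equation -/
def rem (Λ μ η : ℝ) (φ z : Sm) (j : ℕ) : Sm :=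
  (coef Λ μ η φ z j).L μ η (j + 1) (dsn j z) - (coef Λ μ η φ z j).mh * dsn j (wv φ)

/-- auxiliary bounds near the origin -/
structure AuxOK (M r1 Λ : ℝ) (φ z : Sm) : Prop where
  inv : ∀ x ∈ ball (0 : Pt) r1, (hA φ z).1 x * (iot Λ φ z).1 x = 1
  lo : ∀ x ∈ ball (0 : Pt) r1, 1 / M ≤ (hA φ z).1 x
  ι0 : ∀ x ∈ ball (0 : Pt) r1, |(iot Λ φ z).1 x| ≤ M
  a0 : ∀ x ∈ ball (0 : Pt) r1, |(hA φ z).1 x| ≤ M
  b0 : ∀ x ∈ ball (0 : Pt) r1, |(hB φ z).1 x| ≤ M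
  c0 : ∀ x ∈ ball (0 : Pt) r1, |(hC φ z).1 x| ≤ M
  a1 : ∀ x ∈ ball (0 : Pt) r1, |(ds (hA φ z)).1 x| ≤ M
  b1 : ∀ x ∈ ball (0 : Pt) r1, |(ds (hB φ z)).1 x| ≤ M
  c1 : ∀ x ∈ ball (0 : Pt) r1, |(ds (hC φ z)).1 x| ≤ M
  w0 : ∀ x ∈ ball (0 : Pt) r1, |(wv φ).1 x| ≤ M

/-! ### Graded classes of families of functions -/

/-- exponent of `1/η` allowed for the weighted `L²` norm of a quantity of order `n` -/
def ey (N n : ℕ) : ℕ := max (31 * ((n - 8) + 2)) (32 * n + 1 - 32 * (N + 2))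
/-- exponent of `1/η` allowed for the sup norm of a quantity of order `n` -/
def ez (N n : ℕ) : ℕ := if n ≤ 8 then 0 else ey N (n + 2)

/-- context: small parameters, weights, top order `J`, radius `r` -/
structure Ctx (I : Type) where
  η : I → ℝ
  β : I → Pt → ℝ
  N : ℕ
  J : ℕ
  r : ℝ

structure Ctx.OK {I : Type} (c : Ctx I) : Prop where
  pos : ∀ i, 0 < c.η i
  le1 : ∀ i, c.η i ≤ 1
  cont : ∀ i, Continuous (c.β i)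
  one : ∀ i x, 1 ≤ c.β i x
  big : ∃ C, ∀ i, ∀ x ∈ closedBall (0 : Pt) c.r, c.β i x ≤ C * (1 / c.η i) ^ 56
  small : ∃ C, ∀ i x, ‖x‖ ≤ c.η i ^ 32 → c.β i x ≤ C
  hr : 0 < c.r
  hr1 : c.r ≤ 1
  hN : 20 ≤ c.N

variable {I : Type}

def L2 (c : Ctx I) (n : ℕ) (f : I → Sm) : Prop :=
  ∃ C : ℝ, ∀ i, ∫ x in closedBall (0 : Pt) c.r, c.β i x * (f i).1 x ^ 2 ≤
    C * ((1 / c.η i) ^ ey c.N n) ^ 2
def Sup (c : Ctx I) (n : ℕ) (f : I → Sm) : Prop :=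
  ∃ C : ℝ, ∀ i, ∀ x ∈ closedBall (0 : Pt) c.r, |(f i).1 x| ≤ C * (1 / c.η i) ^ ez c.N n
/-- uniformly bounded family -/
def Bnd (c : Ctx I) (f : I → Sm) : Prop :=
  ∃ C : ℝ, ∀ i, ∀ x ∈ closedBall (0 : Pt) c.r, |(f i).1 x| ≤ C
def Good (c : Ctx I) (n : ℕ) (f : I → Sm) : Prop :=
  (n ≤ c.J → L2 c n f) ∧ ((n ≤ 8 ∨ n + 3 ≤ c.J) → Sup c n f)
/-- a family of order `a` -/
def Cls (c : Ctx I) (a : ℕ) (f : I → Sm) : Prop := ∀ l, Good c (l + a) fun i => dsn l (f i)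

/-- families with uniformly bounded derivatives up to order `k` on `U` -/
def CB (U : Set Pt) (k : ℕ) (f : I → Sm) : Prop := ∃ C : ℝ, ∀ i, Bd U C k (f i)

/-- a family of solutions for the local model, with the bounds on the coefficients -/
structure Fam (I : Type) (Λ r0 : ℝ) (N : ℕ) (cB μ M r1 : ℝ) where
  η : I → ℝ
  z : I → Sm
  pos : ∀ i, 0 < η i
  le : ∀ i, η i ≤ cB
  sol : ∀ i, Sol Λ r0 (om μ (η i) N cB) (z i)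
  co : ∀ i j, j ≤ 32 * N → CoefOK M r1 (η i) (coef Λ μ (η i) (om μ (η i) N cB) (z i) j)
  aux : ∀ i, AuxOK M r1 Λ (om μ (η i) N cB) (z i)

variable {Λ r0 : ℝ} {N : ℕ} {cB μ M r1 : ℝ}

def Fam.φ (F : Fam I Λ r0 N cB μ M r1) (i : I) : Sm := om μ (F.η i) N cB
def Fam.σ (F : Fam I Λ r0 N cB μ M r1) (i : I) : Sm := sig Λ (F.φ i) (F.z i)
def Fam.ctx (F : Fam I Λ r0 N cB μ M r1) (J : ℕ) (r : ℝ) : Ctx I :=
  ⟨F.η, fun i => (bw (F.σ i) (F.η i)).1, N, J, r⟩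
/-- the induction invariant -/
def Fam.Inv (F : Fam I Λ r0 N cB μ M r1) (J : ℕ) (r : ℝ) : Prop :=
  Cls (F.ctx J r) 1 (fun i => ds (F.z i)) ∧ Cls (F.ctx J r) 1 (fun i => dt (F.z i)) ∧
  ∃ C : ℝ, ∀ i, ∫ x in closedBall (0 : Pt) r,
    (bw (F.σ i) (F.η i)).1 x * Wt μ (F.η i) x * (dsn J (F.z i)).1 x ^ 2 ≤
      C * (F.η i ^ 32 * ((1 / F.η i) ^ ey N J) ^ 2)
/-- standing assumptions on the parameters -/
structure Par (Λ r0 : ℝ) (N : ℕ) (cB μ M r1 : ℝ) : Prop where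
  hΛ : 1 ≤ Λ
  hN : 20 ≤ N
  cB0 : 0 < cB
  cB1 : cB ≤ 1
  μ0 : 0 < μ
  μ1 : μ ≤ 1
  hM : 1 ≤ M
  hMN : (32 * N + 1 : ℝ) ≤ M
  r10 : 0 < r1
  r11 : r1 < r0
  r01 : r0 ≤ 1

/-- no normalised solution for the local model -/
def NoSol (Λ r0 : ℝ) (N : ℕ) : Prop :=
  ∃ cB : ℝ, 0 < cB ∧ cB ≤ 1 ∧ ∃ μ0 : ℝ, 0 < μ0 ∧ ∀ μ : ℝ, 0 < μ → μ ≤ μ0 →
    ∃ η0 : ℝ, 0 < η0 ∧ ∀ η : ℝ, 0 < η → η ≤ η0 → ∀ z : Sm, ¬ Sol Λ r0 (om μ η N cB) z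

/-! ### The global metric -/

/-- translation by `a` in the first coordinate -/
def sh (a : ℝ) (f : Sm) : Sm :=
  mkS (fun x => f.1 (x + (a, 0))) ((Sm.cd f).comp (contDiff_id.add contDiff_const))
@[simp] theorem ev_sh (a : ℝ) (f : Sm) (x : Pt) : (sh a f).1 x = f.1 (x + (a, 0)) := rfl

/-- the triple `x, y, z` is an isometric immersion of `e^{2φ}(ds² + dt²)` on `U` -/
structure Iso (φ x y z : Sm) (U : Set Pt) : Prop where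
  ss : ∀ q ∈ U, (ds x ^ 2 + ds y ^ 2 + ds z ^ 2).1 q = (ex (2 * φ)).1 q
  st : ∀ q ∈ U, (ds x * dt x + ds y * dt y + ds z * dt z).1 q = 0
  tt : ∀ q ∈ U, (dt x ^ 2 + dt y ^ 2 + dt z ^ 2).1 q = (ex (2 * φ)).1 q

/-- the height function in the direction `e` -/
def hgt (e : ℝ × ℝ × ℝ) (x y z : Sm) : Sm := cst e.1 * x + cst e.2.1 * y + cst e.2.2 * z
/-- unit vectors of Euclidean three-space -/
def IsUnit3 (e : ℝ × ℝ × ℝ) : Prop := e.1 ^ 2 + e.2.1 ^ 2 + e.2.2 ^ 2 = 1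

/-- properties of the global conformal factor -/
structure GoodOm (φ : Sm) : Prop where
  left : ∀ x : Pt, x.1 ≤ 0 → φ.1 x = (cT - cst (1 / 12) * cT ^ 4).1 x
  low : ∀ j : ℕ, -(1 / 8 : ℝ) ^ j ≤ (wv φ).1 ((1 / 2 : ℝ) ^ j, 0)
  no : ∀ j : ℕ, ∀ z : Sm, ¬ Sol ((8 : ℝ) ^ j) ((1 / 2 : ℝ) ^ j / 8) (sh ((1 / 2 : ℝ) ^ j) φ) z

end
end Vale.Agent.P229
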