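import Vale.Agent.P229.RBas

open scoped ContDiff
open MeasureTheory Metric

namespace Vale.Agent.P229
noncomputable section

theorem low_mul {x y a b : ℝ} (hx : |x| ≤ a) (hy : |y| ≤ b) : |x * y| ≤ a * b := by
  rw [abs_mul]
  exact mul_le_mul hx hy (abs_nonneg _) ((abs_nonneg _).trans hx)
theorem low_add {x y a b : ℝ} (hx : |x| ≤ a) (hy : |y| ≤ b) : |x + y| ≤ a + b :=
  (abs_add_le _ _).trans (add_le_add hx hy)
theorem low_sub {x y a b : ℝ} (hx : |x| ≤ a) (hy : |y| ≤ b) : |x - y| ≤ a + b :=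
  (abs_sub _ _).trans (add_le_add hx hy)
theorem low_pow {χ : ℝ} (h0 : 0 ≤ χ) (h1 : χ ≤ 1) (n : ℕ) : |χ ^ (n + 1)| ≤ χ := by
  rw [abs_of_nonneg (pow_nonneg h0 _), pow_succ]
  exact mul_le_of_le_one_left h0 (pow_le_one₀ h0 h1)
theorem low_sq {x C χ ζ : ℝ} (h : |x| ≤ C * χ * ζ) : x ^ 2 ≤ C ^ 2 * χ ^ 2 * ζ ^ 2 := by
  rw [← mul_pow, ← mul_pow, ← sq_abs x]
  exact pow_le_pow_left₀ (abs_nonneg _) h 2

theorem low_eta {η : ℝ} (hη : 0 < η) (hη1 : η ≤ 1) {a n : ℕ} (h : a ≤ n) :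
    1 / η ^ a ≤ (1 / η) ^ n := by
  rw [← one_div_pow]
  exact pow_le_pow_right₀ (one_le_one_div hη hη1) h

theorem low_W {η W : ℝ} (hη : 0 < η) (hW : η ^ 32 ≤ W) : 1 / η ^ 30 ≤ (1 / η) ^ 62 * W := by
  have : 1 / η ^ 30 = (1 / η) ^ 62 * η ^ 32 := by field_simp
  rw [this]
  gcongr

theorem low_cc {M μ r η χ C1 : ℝ} {D : PD} (hC1 : 0 ≤ C1) (hb : RB M μ r η D) (hr : r ≤ 1 / 2)
    (h0 : 0 ≤ χ) (h1 : χ ≤ 1) : |D.s ^ 2 + D.t ^ 2| ≤ 1 ∧ |D.cc η χ C1| ≤ (1 + C1) * χ := by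
  have hs := hb.sd.trans (hb.dr.trans hr)
  have ht := hb.td.trans (hb.dr.trans hr)
  have h2 : |D.s ^ 2 + D.t ^ 2| ≤ 1 := by
    rw [abs_of_nonneg (by positivity), ← sq_abs D.s, ← sq_abs D.t]
    nlinarith [abs_nonneg D.s, abs_nonneg D.t]
  refine ⟨h2, (low_sub (low_mul hb.c01 (low_pow h0 h1 3))
    (low_mul (low_mul (abs_of_nonneg hC1).le (low_pow h0 h1 1)) h2)).trans (le_of_eq ?_)⟩
  ring

theorem low_q {M μ r η χ ct X C1 : ℝ} {D : PD} (hM : 1 ≤ M) (hμ : 0 < μ) (hμ1 : μ ≤ 1)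
    (hC1 : 0 ≤ C1) (hη : 0 < η) (hη1 : η ≤ 1) (hD : PDOK M r η D) (hb : RB M μ r η D)
    (hr : r ≤ 1 / 2) (h0 : 0 ≤ χ) (h1 : χ ≤ 1) (hct : |ct| ≤ X) :
    D.Alq η χ ct C1 ^ 2 ≤ ((2 * M + M / μ) * (1 + C1) + 2 + 4 * X + C1 * (2 * X + 2 + 2 * M)) ^ 2
      * χ ^ 2 * ((1 / η) ^ 62 * D.W μ η) := by
  obtain ⟨hst, hcc⟩ := low_cc (χ := χ) hC1 hb hr h0 h1
  have hW : 0 ≤ D.W μ η := (by positivity : (0 : ℝ) ≤ η ^ 32).trans hb.W2
  have hZ : 1 ≤ (1 / η) ^ 62 * D.W μ η :=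
    (one_le_one_div (by positivity) (pow_le_one₀ hη.le hη1)).trans (low_W hη hb.W2)
  obtain ⟨ζ, hζ1, hζ⟩ : ∃ ζ : ℝ, 1 ≤ ζ ∧ ζ ^ 2 = (1 / η) ^ 62 * D.W μ η :=
    ⟨√_, Real.one_le_sqrt.2 hZ, Real.sq_sqrt (by linarith)⟩
  have hd : D.d ≤ 1 := by linarith [hb.dr]
  have hM0 : 0 ≤ M := by linarith
  have a1 : |D.g1d| ≤ M * ζ := hD.hg1d.trans (by gcongr; linarith)
  have a2 : |D.σs| ≤ M * ζ := hD.hσs.trans (le_mul_of_one_le_right hM0 hζ1)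
  have a3 : |D.Γ η * D.e| ≤ M / μ * ζ := by
    refine (low_mul hb.Γ1 hD.he).trans ?_
    have b1 : D.d ^ 2 ≤ D.d := by nlinarith [hb.d0]
    have b2 : μ * (1 / η ^ 28 * D.d) ≤ ζ := by
      refine le_trans (le_abs_self _) (abs_le_of_sq_le_sq ?_ (by linarith))
      have b3 : (μ * (1 / η ^ 28 * D.d)) ^ 2 = μ * (1 / η ^ 56 * (μ * D.d ^ 2)) := by
        field_simp
      have b4 : 1 / η ^ 56 * (μ * D.d ^ 2) ≤ (1 / η) ^ 62 * D.W μ η :=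
        mul_le_mul (low_eta hη hη1 (by norm_num)) hb.W1 (by positivity) (by positivity)
      rw [b3, hζ]
      exact (mul_le_of_le_one_left (by positivity) hμ1).trans b4
    calc 1 / η ^ 28 * (M * D.d ^ 2) ≤ 1 / η ^ 28 * (M * D.d) := by gcongr
      _ = M / μ * (μ * (1 / η ^ 28 * D.d)) := by field_simp
      _ ≤ M / μ * ζ := by gcongr
  have a4 : |D.c0' η| ≤ 2 * ζ := by
    refine abs_le_of_sq_le_sq (hb.c02.trans ?_) (by linarith)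
    rw [mul_pow, hζ, div_eq_mul_one_div, mul_comm (D.W μ η)]
    have := low_eta hη hη1 (show 60 ≤ 62 by norm_num)
    nlinarith [mul_le_mul_of_nonneg_right this hW]
  have a5 : |D.c0 η| ≤ ζ := hb.c01.trans hζ1
  have a6 : |D.s| ≤ ζ := hb.sd.trans (hd.trans hζ1)
  have a7 : |D.t| ≤ ζ := hb.td.trans (hd.trans hζ1)
  have two : |(2 : ℝ)| ≤ 2 := abs_two.le
  have four : |(4 : ℝ)| ≤ 4 := by norm_num
  rw [← hζ]
  refine low_sq ((low_sub (low_mul (low_sub (low_sub a1 a2) a3) hcc)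
    (low_sub (low_add (low_mul a4 (low_pow h0 h1 3))
      (low_mul (low_mul (low_mul four a5) (low_pow h0 h1 2)) hct))
      (low_mul (abs_of_nonneg hC1).le
        (low_add (low_mul (low_mul (low_mul two (abs_of_nonneg h0).le) hct) (hst.trans hζ1))
          (low_mul (low_pow h0 h1 1)
            (low_add (low_mul two a7) (low_mul (low_mul two hD.hσ) a6))))))).trans (le_of_eq ?_))
  ring

theorem low_y {M μ r η χ cs X C1 : ℝ} {D : PD} (hM : 1 ≤ M) (hMr : M * r ≤ 1 / 2)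
    (hC1 : 0 ≤ C1) (hη : 0 < η) (hη1 : η ≤ 1) (hD : PDOK M r η D) (hb : RB M μ r η D)
    (hr : r ≤ 1 / 2) (h0 : 0 ≤ χ) (h1 : χ ≤ 1) (hcs : |cs| ≤ X) :
    D.Aly μ η χ cs C1 ^ 2 ≤ ((8 * M ^ 3 + 6 * M) * (1 + C1) + 2 * M * (4 * X + C1 * (2 * X + 2))) ^ 2
      * χ ^ 2 * ((1 / η) ^ 62 * D.W μ η ^ 2) := by
  obtain ⟨hst, hcc⟩ := low_cc (χ := χ) hC1 hb hr h0 h1
  have hW : 0 ≤ D.W μ η := (by positivity : (0 : ℝ) ≤ η ^ 32).trans hb.W2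
  have hZ : 1 ≤ (1 / η) ^ 62 * D.W μ η :=
    (one_le_one_div (by positivity) (pow_le_one₀ hη.le hη1)).trans (low_W hη hb.W2)
  have e : (1 / η) ^ 62 * D.W μ η ^ 2 = ((1 / η) ^ 31 * D.W μ η) ^ 2 := by ring
  have hd : D.d ≤ 1 := by linarith [hb.dr]
  have hM0 : 0 ≤ M := by linarith
  have hH : 1 ≤ (1 / η) ^ 31 := one_le_pow₀ (one_le_one_div hη hη1)
  have a1 : |D.ks μ η| ≤ 8 * M ^ 2 * ((1 / η) ^ 31 * D.W μ η) := by
    refine abs_le_of_sq_le_sq (hb.ks2.trans ?_) (by positivity)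
    have : D.W μ η ≤ (1 / η) ^ 62 * D.W μ η * D.W μ η := le_mul_of_one_le_left hW hZ
    calc 64 * M ^ 4 * D.W μ η ≤ 64 * M ^ 4 * ((1 / η) ^ 62 * D.W μ η * D.W μ η) := by gcongr
      _ = _ := by ring
  have a2 : |D.ν - 1| ≤ M := by
    rw [abs_of_nonneg (by linarith [hD.ν_lo])]
    linarith [hD.ν_hi]
  have a3 : |D.w μ η| ≤ 2 * ((1 / η) ^ 31 * D.W μ η) :=
    hb.w1.trans (by gcongr; exact le_mul_of_one_le_left hW hH)
  have a4 : |D.Γ η| ≤ (1 / η) ^ 31 := hb.Γ1.trans (low_eta hη hη1 (by norm_num))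
  have a5 : |D.ps| ≤ 2 := by
    have b1 := low_add hD.hps (abs_one (α := ℝ)).le
    rw [sub_add_cancel] at b1
    have b2 : M * D.d ≤ M * r := by gcongr; exact hb.dr
    linarith
  have a6 : |D.c0 η| ≤ (1 / η) ^ 31 := hb.c01.trans hH
  have a7 : |D.s| ≤ (1 / η) ^ 31 := hb.sd.trans (hd.trans hH)
  have two : |(2 : ℝ)| ≤ 2 := abs_two.le
  have four : |(4 : ℝ)| ≤ 4 := by norm_num
  rw [e]
  refine low_sq ((low_sub (low_mul (low_add (low_mul a2 a1) (low_mul hD.hg3 a3)) hcc)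
    (low_mul (low_sub (low_add (low_mul (low_mul a4 a5) hcc)
      (low_mul (low_mul (low_mul four a6) (low_pow h0 h1 2)) hcs))
      (low_mul (abs_of_nonneg hC1).le
        (low_add (low_mul (low_mul (low_mul two (abs_of_nonneg h0).le) hcs) (hst.trans hH))
          (low_mul (low_mul two (low_pow h0 h1 1)) a7)))) hb.k1)).trans (le_of_eq ?_))
  ring

theorem low_amgm {x y m P e ε : ℝ} (hm : |m| ≤ P * e) (hP : 0 ≤ P) (hε : 0 < ε) :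
    2 * (x * (m * y)) ≤ P * (ε * y ^ 2 + e ^ 2 / ε * x ^ 2) := by
  have h1 : x * (m * y) ≤ |x| * (P * e * |y|) :=
    (le_abs_self _).trans (low_mul le_rfl (low_mul hm le_rfl))
  have h2 : 2 * (|x| * (e * |y|)) ≤ ε * y ^ 2 + e ^ 2 / ε * x ^ 2 := by
    have h3 : 0 ≤ (ε * |y| - e * |x|) ^ 2 / ε := by positivity
    have h4 : (ε * |y| - e * |x|) ^ 2 / ε
        = ε * |y| ^ 2 + e ^ 2 / ε * |x| ^ 2 - 2 * (|x| * (e * |y|)) := by
      field_simp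
      ring
    rw [h4, sq_abs, sq_abs] at h3
    linarith
  nlinarith [mul_le_mul_of_nonneg_left h2 hP]

theorem low_term {x y m P P' e ε k : ℝ} (hm : |m| ≤ P * e) (hP : 0 ≤ P) (hε : 0 < ε)
    (hPP : P ≤ P') (hk : e ^ 2 ≤ k * ε) :
    2 * (x * (m * y)) ≤ ε * (P * y ^ 2) + P' * k * x ^ 2 := by
  have h1 : e ^ 2 / ε ≤ k := (div_le_iff₀ hε).2 hk
  have h2 : P * (e ^ 2 / ε) * x ^ 2 ≤ P' * k * x ^ 2 := by
    have : 0 ≤ P' := hP.trans hPP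
    gcongr
  have h3 := low_amgm (x := x) (y := y) hm hP hε
  linarith

theorem low_src {A c μ k k' e H P β d W S R mb ma mc q y u : ℝ} (hA : 0 ≤ A) (hc : 0 < c)
    (hk : k * c = 2 * A ^ 2) (hk' : k' * μ = k) (hk0' : 0 ≤ k') (he : 0 < e)
    (hW : 0 < W) (hH : 0 ≤ H) (hZ : 1 ≤ H * W) (hZ' : 1 / e ≤ H * W) (hβ : 1 ≤ β) (hP : 0 ≤ P)
    (hP1 : P ≤ β) (hd : 0 ≤ d) (hd1 : d ≤ 1) (hW1 : μ * d ^ 2 ≤ W)
    (hb : |mb| ≤ P * (A * d)) (ha : |ma| ≤ P * (A * d)) (hm : |mc| ≤ A * β)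
    (hS : S ≠ 0 → d ≤ e ∧ d ≤ W ∧ β ≤ A) :
    2 * ((S + R) * (mb * y + ma * q + mc * u)) ≤ c * (P * (q ^ 2 + W * y ^ 2))
      + ((2 * A * k + A ^ 2) * (e * S ^ 2) + (k' + k + A) * (β * R ^ 2)
        + (A ^ 2 + A) * (H * (β * W * u ^ 2))) := by
  have hβ0 : 0 ≤ β := by linarith
  have kc : ∀ z, k * (c / 2 * z) = A ^ 2 * z := fun z => by linear_combination z / 2 * hk
  have t4 := low_term (x := R) (y := y) (k := k') hb hP (show 0 < c / 2 * W by positivity) hP1 (by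
    have h1 : k' * (c / 2 * (μ * d ^ 2)) ≤ k' * (c / 2 * W) := by gcongr
    have h2 : k' * (c / 2 * (μ * d ^ 2)) = (A * d) ^ 2 := by
      linear_combination c / 2 * d ^ 2 * hk' + d ^ 2 / 2 * hk
    linarith)
  have t5 := low_term (x := R) (y := q) (k := k) ha hP (show 0 < c / 2 * 1 by positivity) hP1 (by
    rw [kc, mul_pow]
    gcongr
    exact pow_le_one₀ hd hd1)
  have t6 := low_term (x := R) (y := u) (P := A * β) (e := 1) (k := 1) (by rwa [mul_one])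
    (by positivity) one_pos le_rfl (by norm_num)
  have t7 : A * β * u ^ 2 ≤ A * β * (H * W * u ^ 2) := by
    gcongr
    exact le_mul_of_one_le_left (sq_nonneg u) hZ
  have tS : 2 * (S * (mb * y)) + 2 * (S * (ma * q)) + 2 * (S * (mc * u))
      ≤ c / 2 * W * (P * y ^ 2) + c / 2 * (P * q ^ 2)
        + (2 * A * k + A ^ 2) * (e * S ^ 2) + A ^ 2 * (H * (β * W * u ^ 2)) := by
    by_cases h : S = 0
    · simp only [h, zero_mul, mul_zero, add_zero, ne_eq, OfNat.ofNat_ne_zero, not_false_eq_true,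
        zero_pow]
      positivity
    obtain ⟨s1, s2, s3⟩ := hS h
    have t1 := low_term (x := S) (y := y) (k := k * e) hb hP (show 0 < c / 2 * W by positivity)
      (hP1.trans s3) (by
        rw [mul_right_comm, kc, mul_pow, mul_assoc, sq d]
        gcongr)
    have t2 := low_term (x := S) (y := q) (k := k * e) ha hP (show 0 < c / 2 * 1 by positivity)
      (hP1.trans s3) (by
        rw [mul_right_comm, kc, mul_pow, mul_assoc, sq d]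
        gcongr)
    have t3 := low_term (x := S) (y := u) (P := A ^ 2) (e := 1) (k := e)
      (hm.trans (by rw [sq, mul_one]; gcongr)) (by positivity) (show 0 < 1 / e by positivity) le_rfl
      (le_of_eq (by field_simp))
    have t8 : 1 / e * (A ^ 2 * u ^ 2) ≤ H * W * β * (A ^ 2 * u ^ 2) := by
      gcongr
      exact hZ'.trans (le_mul_of_one_le_right (by positivity) hβ)
    linarith
  linarith

theorem low (M μ r X C1 : ℝ) (hM : 1 ≤ M) (hμ : 0 < μ) (hμ1 : μ ≤ 1) (hMr : M * r ≤ 1 / 2)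
    (hC1 : 0 ≤ C1) : ∃ C : ℝ, 0 ≤ C ∧ ∀ (η : ℝ) (D : PD) (χ cs ct : ℝ), 0 < η → η ≤ 1 →
      M * η ^ 32 ≤ 1 → PDOK M r η D → 0 ≤ χ → χ ≤ 1 → |cs| ≤ X → |ct| ≤ X →
      D.Alq η χ ct C1 ^ 2 ≤ C * χ ^ 2 * ((1 / η) ^ 62 * D.W μ η) ∧
      D.Aly μ η χ cs C1 ^ 2 ≤ C * χ ^ 2 * ((1 / η) ^ 62 * D.W μ η ^ 2) ∧
      |D.cc η χ C1| ≤ C := by
  refine ⟨((2 * M + M / μ) * (1 + C1) + 2 + 4 * X + C1 * (2 * X + 2 + 2 * M)) ^ 2
    + ((8 * M ^ 3 + 6 * M) * (1 + C1) + 2 * M * (4 * X + C1 * (2 * X + 2))) ^ 2 + (1 + C1),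
    by positivity, fun η D χ cs ct hη hη1 hMη hD h0 h1 hcs hct => ?_⟩
  have hb := rbas hD hM hMr hη hη1 hMη hμ hμ1
  have hr0 : 0 ≤ r := hb.d0.trans hb.dr
  have hr : r ≤ 1 / 2 := by nlinarith
  have hW : 0 ≤ D.W μ η := (by positivity : (0 : ℝ) ≤ η ^ 32).trans hb.W2
  refine ⟨(low_q hM hμ hμ1 hC1 hη hη1 hD hb hr h0 h1 hct).trans ?_,
    (low_y hM hMr hC1 hη hη1 hD hb hr h0 h1 hcs).trans ?_,
    (low_cc hC1 hb hr h0 h1).2.trans ?_⟩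
  · gcongr
    exact (le_add_of_nonneg_right (sq_nonneg _)).trans (le_add_of_nonneg_right (by linarith))
  · gcongr
    exact (le_add_of_nonneg_left (sq_nonneg _)).trans (le_add_of_nonneg_right (by linarith))
  · exact (mul_le_of_le_one_right (by linarith) h1).trans (le_add_of_nonneg_left (by positivity))

/-- the source terms -/
theorem src (A c μ : ℝ) (hA : 0 ≤ A) (hc : 0 < c) (hμ : 0 < μ) : ∃ C : ℝ, 0 ≤ C ∧
    ∀ η χ β d W S R mb ma mc q y u : ℝ, 0 < η → η ≤ 1 → 0 ≤ χ → χ ≤ 1 → 1 ≤ β → 0 ≤ d → d ≤ 1 →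
      μ * d ^ 2 ≤ W → η ^ 32 ≤ W → |mb| ≤ A * χ ^ 2 * β * d → |ma| ≤ A * χ ^ 2 * β * d →
      |mc| ≤ A * β → (S ≠ 0 → d ≤ η ^ 32 ∧ β ≤ A) →
      2 * ((S + R) * (mb * y + ma * q + mc * u)) ≤ c * χ ^ 2 * (β * (q ^ 2 + W * y ^ 2))
        + C * (η ^ 30 * S ^ 2 + β * R ^ 2 + (1 / η) ^ 62 * (β * W * u ^ 2)) := by
  obtain ⟨k, hk0, hk⟩ : ∃ k : ℝ, 0 ≤ k ∧ k * c = 2 * A ^ 2 :=
    ⟨2 * A ^ 2 / c, by positivity, by field_simp⟩
  obtain ⟨k', hk0', hk'⟩ : ∃ k' : ℝ, 0 ≤ k' ∧ k' * μ = k := ⟨k / μ, by positivity, by field_simp⟩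
  have c1 : 0 ≤ 2 * A * k + A ^ 2 := by positivity
  have c2 : 0 ≤ k' + k + A := by positivity
  have c3 : 0 ≤ A ^ 2 + A := by positivity
  refine ⟨(2 * A * k + A ^ 2) + (k' + k + A) + (A ^ 2 + A), by positivity,
    fun η χ β d W S R mb ma mc q y u hη hη1 h0 h1 hβ hd hd1 hW1 hW2 hb ha hm hS => ?_⟩
  have hW : 0 < W := (by positivity : (0 : ℝ) < η ^ 32).trans_le hW2
  have hβ0 : 0 ≤ β := by linarith
  have hZ := low_W hη hW2
  have h30 : η ^ 32 ≤ η ^ 30 := pow_le_pow_of_le_one hη.le hη1 (by norm_num)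
  have h := low_src (P := χ ^ 2 * β) (S := S) (R := R) (q := q) (y := y) (u := u) hA hc hk hk'
    hk0' (show 0 < η ^ 30 by positivity) hW (by positivity)
    ((one_le_one_div (by positivity) (pow_le_one₀ hη.le hη1)).trans hZ) hZ hβ (by positivity)
    (mul_le_of_le_one_left hβ0 (pow_le_one₀ h0 h1)) hd hd1 hW1 (hb.trans (le_of_eq (by ring)))
    (ha.trans (le_of_eq (by ring))) hm
    fun h => ⟨(hS h).1.trans h30, (hS h).1.trans hW2, (hS h).2⟩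
  refine h.trans (add_le_add (le_of_eq (by ring)) ?_)
  have p1 : 0 ≤ η ^ 30 * S ^ 2 := by positivity
  have p2 : 0 ≤ β * R ^ 2 := by positivity
  have p3 : 0 ≤ (1 / η) ^ 62 * (β * W * u ^ 2) := by positivity
  generalize η ^ 30 * S ^ 2 = T1 at p1 ⊢
  generalize β * R ^ 2 = T2 at p2 ⊢
  generalize (1 / η) ^ 62 * (β * W * u ^ 2) = T3 at p3 ⊢
  generalize 2 * A * k + A ^ 2 = k1 at c1 ⊢
  generalize k' + k + A = k2 at c2 ⊢
  generalize A ^ 2 + A = k3 at c3 ⊢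
  linarith [mul_nonneg c1 p2, mul_nonneg c1 p3, mul_nonneg c2 p1, mul_nonneg c2 p3,
    mul_nonneg c3 p1, mul_nonneg c3 p2]

end
end Vale.Agent.P229
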