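import Vale.Agent.P229.RBas

open scoped ContDiff
open MeasureTheory Metric

namespace Vale.Agent.P229
noncomputable section

theorem rqx_sq {a b : ℝ} (h : |a| ≤ b) : a ^ 2 ≤ b ^ 2 := by
  rw [← sq_abs a]
  exact pow_le_pow_left₀ (abs_nonneg a) h 2

theorem rqx_mul {a b A B : ℝ} (h : |a| ≤ A) (h' : |b| ≤ B) : |a * b| ≤ A * B := by
  rw [abs_mul]
  exact mul_le_mul h h' (abs_nonneg _) ((abs_nonneg _).trans h)

theorem rqq (M : ℝ) (hM : 1 ≤ M) : ∃ r1 : ℝ, 0 < r1 ∧ ∀ (r η : ℝ) (D : PD), r ≤ r1 → 0 < η →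
    η ≤ 1 → M * η ^ 32 ≤ 1 → PDOK M r η D → 1 / 2 ≤ D.qq η := by
  refine ⟨1 / 16 / M ^ 2, by positivity, fun r η D hr hη hη1 hMη h => ?_⟩
  have M0 : 0 ≤ M := zero_le_one.trans hM
  have r0 : 0 ≤ r := (abs_nonneg _).trans h.hs
  rw [le_div_iff₀' (by positivity)] at hr
  have hMM : M ≤ M ^ 2 := by nlinarith
  have hMr : M * r ≤ 1 / 16 := (mul_le_mul_of_nonneg_right hMM r0).trans hr
  have R := rbas (μ := 1) h hM (by linarith) hη hη1 hMη one_pos le_rfl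
  have d0 := R.d0
  have h2 : M ^ 2 * D.d ≤ 1 / 16 := (mul_le_mul_of_nonneg_left R.dr (by positivity)).trans hr
  have h1 : M * D.d ≤ 1 / 16 := (mul_le_mul_of_nonneg_left R.dr M0).trans hMr
  have h0 : D.d ≤ 1 / 16 := (le_mul_of_one_le_left d0 hM).trans h1
  have hτ : |D.τ η| ≤ D.d := R.τt.trans R.td
  have e1 : 1 / 8 ≤ -(D.τ' η / 8) - D.c0 η := by
    have := pow_le_one₀ (n := 2) R.ρ0.le R.ρ1
    unfold PD.τ' PD.c0
    nlinarith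
  have e2 := (abs_le.1 h.hps).1
  have e3 := (abs_le.1 (rqx_mul hτ h.hg1d)).1
  have e4 := (abs_le.1 (rqx_mul hτ h.hϑ)).1
  have e5 := (abs_le.1 (rqx_mul hτ h.hσs)).2
  have e6 : |D.τ η * (D.Γ η * D.e)| ≤ 7 * (M ^ 2 * D.d) := by
    have h3 : η ^ 2 ≤ 1 := pow_le_one₀ hη.le hη1
    have h4 : 4 * D.d + 3 * M * η ^ 2 ≤ 7 * M := by nlinarith
    calc |D.τ η * (D.Γ η * D.e)| = |D.τ η| * |D.Γ η| * |D.e| := by
          rw [abs_mul, abs_mul, mul_assoc]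
      _ ≤ |D.τ η| * |D.Γ η| * (M * D.d ^ 2) := by gcongr; exact h.he
      _ = |D.τ η| * |D.Γ η| * D.d * (M * D.d) := by ring
      _ ≤ 7 * M * (M * D.d) := mul_le_mul_of_nonneg_right (R.τΓ.trans h4) (by positivity)
      _ = _ := by ring
  have e7 := (abs_le.1 e6).2
  have e8 : D.d * (M * D.d) ≤ M * D.d := mul_le_of_le_one_left (by positivity) (by linarith)
  unfold PD.qq
  linarith

theorem rqx_five (a b c d e : ℝ) :
    (a - b - c + (d + e)) ^ 2 ≤ 5 * (a ^ 2 + b ^ 2 + c ^ 2 + d ^ 2 + e ^ 2) := by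
  nlinarith [sq_nonneg (a + b), sq_nonneg (a + c), sq_nonneg (a - d), sq_nonneg (a - e),
    sq_nonneg (b - c), sq_nonneg (b + d), sq_nonneg (b + e), sq_nonneg (c + d), sq_nonneg (c + e),
    sq_nonneg (d - e)]

theorem rqx_three {M μ r η : ℝ} {D : PD} (R : RB M μ r η D) (hη : 0 < η) (hη1 : η ≤ 1) :
    (D.τ η * D.Γ η) ^ 2 * D.W μ η ≤ 64 * D.d ^ 2 + 36 * M ^ 2 * η ^ 4 + η ^ 4 := by
  have h1 : (D.τ η * D.Γ η * D.d) ^ 2 ≤ (4 * D.d + 3 * M * η ^ 2) ^ 2 := by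
    refine rqx_sq ?_
    rw [abs_mul, abs_mul, abs_of_nonneg R.d0]
    exact R.τΓ
  have h2 : D.τ η ^ 2 ≤ η ^ 30 := by
    rw [← sq_abs, sq]
    exact (mul_le_mul_of_nonneg_left R.τt (abs_nonneg _)).trans R.τt2
  have h3 := rqx_sq R.Γ1
  have h4 : (D.τ η * D.Γ η) ^ 2 * η ^ 32 ≤ η ^ 4 := by
    calc (D.τ η * D.Γ η) ^ 2 * η ^ 32 = D.τ η ^ 2 * D.Γ η ^ 2 * η ^ 32 := by ring
      _ ≤ η ^ 30 * (1 / η ^ 28) ^ 2 * η ^ 32 := by gcongr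
      _ = η ^ 6 := by field_simp
      _ ≤ η ^ 4 := pow_le_pow_of_le_one hη.le hη1 (by norm_num)
  have h5 := mul_le_mul_of_nonneg_left R.W5 (sq_nonneg (D.τ η * D.Γ η))
  nlinarith [sq_nonneg (4 * D.d - 3 * M * η ^ 2)]

theorem rqy (M μ : ℝ) (hM : 1 ≤ M) (hμ : 0 < μ) (hμ1 : μ ≤ 1) :
    ∃ r1 η0 : ℝ, 0 < r1 ∧ 0 < η0 ∧ ∀ (r η : ℝ) (D : PD), r ≤ r1 → 0 < η → η ≤ η0 →
      PDOK M r η D → D.qy μ η ^ 2 ≤ D.W μ η / (256 * M) := by
  refine ⟨μ / 1000 / M ^ 4, 1 / 100 / M ^ 2, by positivity, by positivity,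
    fun r η D hr hη hη0 h => ?_⟩
  have M0 : 0 < M := zero_lt_one.trans_le hM
  have r0 : 0 ≤ r := (abs_nonneg _).trans h.hs
  rw [le_div_iff₀' (by positivity)] at hr hη0
  have hp : ∀ {i j : ℕ}, i ≤ j → M ^ i ≤ M ^ j := fun hij => pow_le_pow_right₀ hM hij
  have hM1 : ∀ j : ℕ, 1 ≤ j → M ≤ M ^ j := fun j hj => by simpa using hp hj
  have hMr : M * r ≤ 1 / 2 := by
    have := mul_le_mul_of_nonneg_right (hM1 4 (by norm_num)) r0
    linarith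
  have hMη : M * η ≤ 1 := by
    have := mul_le_mul_of_nonneg_right (hM1 2 (by norm_num)) hη.le
    linarith
  have hη1 : η ≤ 1 := (le_mul_of_one_le_left hη.le hM).trans hMη
  have R := rbas h hM hMr hη hη1
    ((mul_le_mul_of_nonneg_left (pow_le_of_le_one hη.le hη1 (by norm_num)) M0.le).trans hMη) hμ hμ1
  have d0 := R.d0
  have W0 : 0 ≤ D.W μ η := (pow_nonneg hη.le _).trans R.W2
  have f0 : M ^ 8 * D.d ^ 2 ≤ μ / 10 ^ 6 := by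
    have h1 : M ^ 4 * D.d ≤ μ / 1000 := (mul_le_mul_of_nonneg_left R.dr (by positivity)).trans hr
    have h2 := pow_le_pow_left₀ (by positivity) h1 2
    nlinarith
  have f1 : M ^ 8 * D.d ^ 4 ≤ D.W μ η / 10 ^ 6 := by
    have := mul_le_mul_of_nonneg_right f0 (sq_nonneg D.d)
    linarith [R.W1]
  have f2 : M ^ 8 * D.d ^ 2 ≤ 1 / 10 ^ 6 := by linarith
  have f3 : M ^ 8 * η ^ 4 ≤ 1 / 10 ^ 8 := by
    have h2 := pow_le_pow_left₀ (by positivity) hη0 4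
    linarith
  have g1 : ∀ j, j ≤ 8 → M ^ j * D.d ^ 4 ≤ D.W μ η / 10 ^ 6 := fun j hj =>
    (mul_le_mul_of_nonneg_right (hp hj) (by positivity)).trans f1
  have g2 : ∀ j, j ≤ 8 → M ^ j * D.d ^ 2 * D.W μ η ≤ D.W μ η / 10 ^ 6 := fun j hj => by
    have := mul_le_mul_of_nonneg_right
      ((mul_le_mul_of_nonneg_right (hp hj) (sq_nonneg D.d)).trans f2) W0
    linarith
  have g3 : ∀ j, j ≤ 8 → M ^ j * η ^ 4 * D.W μ η ≤ D.W μ η / 10 ^ 8 := fun j hj => by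
    have := mul_le_mul_of_nonneg_right
      ((mul_le_mul_of_nonneg_right (hp hj) (pow_nonneg hη.le 4)).trans f3) W0
    linarith
  have hτ : |D.τ η| ≤ D.d := R.τt.trans R.td
  have a1 := mul_le_mul_of_nonneg_left (rqx_sq (rqx_mul (R.Bp.trans R.pd) h.hg1d)) M0.le
  have a2 := mul_le_mul_of_nonneg_left (rqx_sq h.he) M0.le
  have a3 : M * (D.τ η / 4 * (D.Γ η * D.ps * D.k μ η)) ^ 2 ≤
      M ^ 3 * D.W μ η * (64 * D.d ^ 2 + 36 * M ^ 2 * η ^ 4 + η ^ 4) := by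
    have h1 : |D.ps| ≤ 2 := by
      have h2 := abs_le.1 h.hps
      have h3 := mul_le_mul_of_nonneg_left R.dr M0.le
      rw [abs_le]
      constructor <;> linarith [h2.1, h2.2]
    have h2 := rqx_sq (rqx_mul h1 R.k1)
    calc M * (D.τ η / 4 * (D.Γ η * D.ps * D.k μ η)) ^ 2
        = M / 16 * (D.τ η * D.Γ η) ^ 2 * (D.ps * D.k μ η) ^ 2 := by ring
      _ ≤ M / 16 * (D.τ η * D.Γ η) ^ 2 * (2 * (2 * M * D.W μ η)) ^ 2 := by gcongr
      _ = M ^ 3 * D.W μ η * ((D.τ η * D.Γ η) ^ 2 * D.W μ η) := by ring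
      _ ≤ _ := mul_le_mul_of_nonneg_left (rqx_three R hη hη1) (by positivity)
  have a4 : M * (D.τ η / 4 * ((D.ν - 1) * D.ks μ η)) ^ 2 ≤ 4 * (M ^ 7 * D.d ^ 2 * D.W μ η) := by
    have h1 : |D.ν - 1| ≤ M := by
      rw [abs_le]
      constructor <;> linarith [h.ν_lo, h.ν_hi]
    have h2 := rqx_sq (rqx_mul hτ h1)
    calc M * (D.τ η / 4 * ((D.ν - 1) * D.ks μ η)) ^ 2
        = M / 16 * (D.τ η * (D.ν - 1)) ^ 2 * D.ks μ η ^ 2 := by ring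
      _ ≤ M / 16 * (D.d * M) ^ 2 * (64 * M ^ 4 * D.W μ η) := by gcongr; exact R.ks2
      _ = _ := by ring
  have a5 : M * (D.τ η / 4 * (D.g3 * D.w μ η)) ^ 2 ≤ M ^ 3 * D.d ^ 2 * D.W μ η := by
    have h2 := rqx_sq (rqx_mul hτ (rqx_mul h.hg3 R.w1))
    calc M * (D.τ η / 4 * (D.g3 * D.w μ η)) ^ 2
        = M / 16 * (D.τ η * (D.g3 * D.w μ η)) ^ 2 := by ring
      _ ≤ M / 16 * (D.d * (M * (2 * D.W μ η))) ^ 2 := by gcongr
      _ = M ^ 3 * D.d ^ 2 * D.W μ η * (D.W μ η / 4) := by ring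
      _ ≤ _ := mul_le_of_le_one_right (by positivity) (by linarith [R.W6])
  have key := mul_le_mul_of_nonneg_left (rqx_five (D.B η * D.g1d) D.e
    (D.τ η / 4 * (D.Γ η * D.ps * D.k μ η)) (D.τ η / 4 * ((D.ν - 1) * D.ks μ η))
    (D.τ η / 4 * (D.g3 * D.w μ η))) M0.le
  rw [le_div_iff₀ (by positivity), PD.qy, mul_add (D.τ η / 4)]
  linarith [g1 5 (by norm_num), g1 3 (by norm_num), g2 3 (by norm_num), g2 7 (by norm_num),
    g3 5 (by norm_num), g3 3 (by norm_num)]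

end
end Vale.Agent.P229
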