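import Vale.Agent.P229.RBas

open scoped ContDiff
open MeasureTheory Metric

namespace Vale.Agent.P229
noncomputable section

theorem ryy_m2 {a b A B : ℝ} (ha : |a| ≤ A) (hb : |b| ≤ B) : |a * b| ≤ A * B := by
  rw [abs_mul]
  exact mul_le_mul ha hb (abs_nonneg _) ((abs_nonneg _).trans ha)

theorem ryy_lo {a A : ℝ} (ha : |a| ≤ A) : -A ≤ a := (abs_le.1 ha).1

theorem ryy_hi {a A : ℝ} (ha : |a| ≤ A) : a ≤ A := (abs_le.1 ha).2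

/-- lower bound for `s B` -/
theorem ryy_sB {s p B ν M : ℝ} (hB : |B| ≤ |p|) (hpB : p ^ 2 / 3 ≤ p * B) (hν1 : 1 ≤ ν)
    (hν2 : ν ≤ M) : 3 * s ^ 2 / 16 - 6 * M * (s - p) ^ 2 ≤ (2 * ν - 1) * (s * B) := by
  have h1 : |(s - p) * B| ≤ |s - p| * |p| := ryy_m2 le_rfl hB
  have h2 : |s - p| * |p| ≤ p ^ 2 / 12 + 3 * (s - p) ^ 2 := by
    have := sq_nonneg (|p| / 6 - |s - p|)
    have e1 := sq_abs p
    have e2 := sq_abs (s - p)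
    nlinarith
  have h3 : p ^ 2 / 4 - 3 * (s - p) ^ 2 ≤ s * B := by
    have := ryy_lo h1
    have e : s * B = p * B + (s - p) * B := by ring
    rw [e]
    linarith
  have h4 : 3 * s ^ 2 / 4 - 3 * (s - p) ^ 2 ≤ p ^ 2 := by
    nlinarith [sq_nonneg (s / 2 - 2 * (s - p))]
  have h5 : (2 * ν - 1) * (p ^ 2 / 4 - 3 * (s - p) ^ 2) ≤ (2 * ν - 1) * (s * B) :=
    mul_le_mul_of_nonneg_left h3 (by linarith)
  have h6 : 0 ≤ (ν - 1) * p ^ 2 := mul_nonneg (by linarith) (sq_nonneg _)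
  have h7 : 0 ≤ (M - ν) * (s - p) ^ 2 := mul_nonneg (by linarith) (sq_nonneg _)
  nlinarith [sq_nonneg (s - p)]

/-- the constant term -/
theorem ryy_eps {η t : ℝ} (hη : 0 < η) (hη2 : η ^ 2 ≤ 1 / 15) :
    η ^ 32 / 32 ≤ (η ^ 30 / (η ^ 30 + t ^ 2) / 4 - 1 / 8) * η ^ 32 + t ^ 2 / 32 := by
  have h30 : 0 < η ^ 30 := by positivity
  have h32 : 0 < η ^ 32 := by positivity
  have hden : 0 < η ^ 30 + t ^ 2 := by positivity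
  have hρ0 : 0 ≤ η ^ 30 / (η ^ 30 + t ^ 2) := by positivity
  by_cases hc : 3 / 4 ≤ η ^ 30 / (η ^ 30 + t ^ 2)
  · nlinarith [sq_nonneg t]
  · push Not at hc
    rw [div_lt_iff₀ hden] at hc
    have e : η ^ 32 = η ^ 30 * η ^ 2 := by ring
    have h1 : η ^ 32 ≤ η ^ 30 * (1 / 15) := by
      rw [e]
      exact mul_le_mul_of_nonneg_left hη2 h30.le
    have h2 : 0 ≤ η ^ 30 / (η ^ 30 + t ^ 2) * η ^ 32 := by positivity
    nlinarith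

/-- the main part -/
theorem ryy_main {M μ r η : ℝ} {D : PD} (h : PDOK M r η D) (b : RB M μ r η D) (hM : 1 ≤ M)
    (hη : 0 < η) (hη2 : η ^ 2 ≤ 1 / 15) (hμ : 0 < μ) (hr : 12 * M ^ 3 * r ^ 2 ≤ 1 / 32)
    (hμ2 : μ * (13 * M ^ 3) ≤ 1 / 16) :
    D.W μ η / 32 ≤ D.t ^ 2 / 8 + (D.ρ η / 4 - 1 / 8) * η ^ 32
      + μ * ((1 / 8 - D.ρ η / 4) * D.s ^ 2 + (2 * D.ν - 1) * (D.s * D.B η)) := by
  have h1 := ryy_sB (s := D.s) b.Bp b.pB h.ν_lo h.ν_hi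
  have h2 := ryy_eps (t := D.t) hη hη2
  have hρ : D.ρ η = η ^ 30 / (η ^ 30 + D.t ^ 2) := rfl
  rw [← hρ] at h2
  have hd2 : D.d ^ 2 ≤ D.s ^ 2 + D.t ^ 2 := by
    have e1 := sq_abs D.s
    have e2 := sq_abs D.t
    unfold PD.d
    rcases le_total |D.s| |D.t| with hh | hh
    · rw [max_eq_right hh]
      nlinarith [sq_nonneg D.s]
    · rw [max_eq_left hh]
      nlinarith [sq_nonneg D.t]
  have hdr : D.d ^ 2 ≤ r ^ 2 := pow_le_pow_left₀ b.d0 b.dr 2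
  have hA : (D.σ0 * D.t) ^ 2 ≤ M ^ 2 * D.t ^ 2 := by
    rw [mul_pow]
    refine mul_le_mul_of_nonneg_right ?_ (sq_nonneg _)
    rw [← sq_abs D.σ0]
    exact pow_le_pow_left₀ (abs_nonneg _) h.hσ0 2
  have hB : (D.p - (D.s - D.σ0 * D.t)) ^ 2 ≤ M ^ 2 * (r ^ 2 * (D.s ^ 2 + D.t ^ 2)) := by
    rw [← sq_abs]
    refine (pow_le_pow_left₀ (abs_nonneg _) h.hp 2).trans ?_
    have e : (M * D.d ^ 2) ^ 2 = M ^ 2 * (D.d ^ 2 * D.d ^ 2) := by ring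
    rw [e]
    exact mul_le_mul_of_nonneg_left (mul_le_mul hdr hd2 (sq_nonneg _) (sq_nonneg _)) (sq_nonneg _)
  have hξ : (D.s - D.p) ^ 2 ≤ 2 * (M ^ 2 * D.t ^ 2) + 2 * (M ^ 2 * (r ^ 2 * (D.s ^ 2 + D.t ^ 2))) := by
    nlinarith [sq_nonneg (D.σ0 * D.t + (D.p - (D.s - D.σ0 * D.t)))]
  have hM0 : 0 < M := by linarith
  have hξ2 : 6 * M * (D.s - D.p) ^ 2 ≤ 12 * M ^ 3 * D.t ^ 2 + (D.s ^ 2 + D.t ^ 2) / 32 := by
    have a1 := mul_le_mul_of_nonneg_left hξ (by positivity : (0 : ℝ) ≤ 6 * M)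
    have a2 := mul_le_mul_of_nonneg_right hr (by positivity : (0 : ℝ) ≤ D.s ^ 2 + D.t ^ 2)
    nlinarith
  have hM3 : 1 ≤ M ^ 3 := one_le_pow₀ hM
  have h3 : D.s ^ 2 / 32 - 13 * M ^ 3 * D.t ^ 2
      ≤ (1 / 8 - D.ρ η / 4) * D.s ^ 2 + (2 * D.ν - 1) * (D.s * D.B η) := by
    have a1 : 0 ≤ (1 - D.ρ η) * D.s ^ 2 := mul_nonneg (by linarith [b.ρ1]) (sq_nonneg _)
    have a2 : 0 ≤ (M ^ 3 - 1) * D.t ^ 2 := mul_nonneg (by linarith) (sq_nonneg _)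
    nlinarith [sq_nonneg D.t]
  have h4 := mul_le_mul_of_nonneg_left h3 hμ.le
  have h5 := mul_le_mul_of_nonneg_right hμ2 (sq_nonneg D.t)
  unfold PD.W
  nlinarith

theorem ryy_id (D : PD) (μ η : ℝ) : D.yy μ η =
    D.m * (D.t ^ 2 / 8 + (D.ρ η / 4 - 1 / 8) * η ^ 32
      + μ * ((1 / 8 - D.ρ η / 4) * D.s ^ 2 + (2 * D.ν - 1) * (D.s * D.B η)))
    - ((D.ps - 1) * D.k μ η) / 2
    + (D.ν - 1 / 2) * D.B η * (D.ks μ η - 2 * μ * D.s * D.m)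
    + D.g3 * D.w μ η * D.B η
    + (D.τ η * (D.ϑ - D.σs) * D.k μ η) / 8
    + (D.τ η * D.Γ η * D.e * D.k μ η) / 8
    + (D.τ η * (D.kt μ η - 2 * D.t * D.m)) / 8
    + (D.τ η * D.σ * (D.ks μ η - 2 * μ * D.s * D.m)) / 8
    + (D.σ * D.m * (μ * (D.τ η * D.s))) / 4
    + (1 / 8 - D.ρ η / 4) * D.m * D.wb := by
  unfold PD.yy PD.τ' PD.c0 PD.τ PD.k PD.w
  ring

theorem ryy_mts {μ δ τ s t W : ℝ} (hμ : 0 < μ) (hδ : 0 < δ) (hμδ : μ ≤ δ ^ 2) (hτ : |τ| ≤ |t|)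
    (h3 : t ^ 2 ≤ W) (h4 : μ * s ^ 2 ≤ W) : |μ * (τ * s)| ≤ δ * W := by
  have a1 : |μ * (τ * s)| ≤ μ * (|t| * |s|) :=
    ryy_m2 (le_of_eq (abs_of_pos hμ)) (ryy_m2 hτ le_rfl)
  refine a1.trans ?_
  have e1 := sq_abs s
  have e2 := sq_abs t
  have a2 : δ * (μ * (|t| * |s|)) ≤ δ * (δ * W) := by
    have c1 := sq_nonneg (δ * |t| - μ * |s|)
    have c2 : μ * (μ * s ^ 2) ≤ δ ^ 2 * (μ * s ^ 2) :=
      mul_le_mul_of_nonneg_right hμδ (by positivity)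
    have c3 : δ ^ 2 * t ^ 2 ≤ δ ^ 2 * W := mul_le_mul_of_nonneg_left h3 (by positivity)
    have c4 : δ ^ 2 * (μ * s ^ 2) ≤ δ ^ 2 * W := mul_le_mul_of_nonneg_left h4 (by positivity)
    have c5 : (δ * |t| - μ * |s|) ^ 2
        = δ ^ 2 * |t| ^ 2 - 2 * (δ * (μ * (|t| * |s|))) + μ * (μ * |s| ^ 2) := by ring
    rw [c5, e1, e2] at c1
    linarith
  exact le_of_mul_le_mul_left a2 hδ

theorem ryy_core {M μ r η δ : ℝ} {D : PD} (h : PDOK M r η D) (b : RB M μ r η D) (hM : 1 ≤ M)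
    (hη : 0 < η) (hη2 : η ^ 2 ≤ 1 / 15) (hμ : 0 < μ) (hr : 12 * M ^ 3 * r ^ 2 ≤ 1 / 32)
    (hμ2 : μ * (13 * M ^ 3) ≤ 1 / 16) (hδ : 0 < δ) (hδ1 : δ ≤ 1) (hrδ : r ≤ δ) (hηδ : η ≤ δ)
    (hμδ : μ ≤ δ ^ 2) :
    D.W μ η / (32 * M) - 20 * (M ^ 4 * δ * D.W μ η) ≤ D.yy μ η := by
  have hM0 : 0 < M := by linarith
  have hmain := ryy_main h b hM hη hη2 hμ hr hμ2
  have hW0 : 0 ≤ D.W μ η := (sq_nonneg _).trans b.W3
  have hd0 := b.d0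
  have hdδ : D.d ≤ δ := b.dr.trans hrδ
  have hm0 : 0 < D.m := lt_of_lt_of_le (by positivity) h.m_lo
  have hmM : |D.m| ≤ M := by rw [abs_of_pos hm0]; exact h.m_hi
  have hη1 : η ≤ 1 := hηδ.trans hδ1
  have hmain2 : D.W μ η / (32 * M) ≤ D.m * (D.t ^ 2 / 8 + (D.ρ η / 4 - 1 / 8) * η ^ 32
      + μ * ((1 / 8 - D.ρ η / 4) * D.s ^ 2 + (2 * D.ν - 1) * (D.s * D.B η))) := by
    have e : D.W μ η / (32 * M) = 1 / M * (D.W μ η / 32) := by field_simp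
    rw [e]
    exact mul_le_mul h.m_lo hmain (by positivity) hm0.le
  have hδW : 0 ≤ δ * D.W μ η := by positivity
  have hdW : D.d * D.W μ η ≤ δ * D.W μ η := mul_le_mul_of_nonneg_right hdδ hW0
  have p2 : M ^ 2 ≤ M ^ 4 := pow_le_pow_right₀ hM (by norm_num)
  have p3 : M ^ 3 ≤ M ^ 4 := pow_le_pow_right₀ hM (by norm_num)
  have v2 : M ^ 2 * (δ * D.W μ η) ≤ M ^ 4 * (δ * D.W μ η) := mul_le_mul_of_nonneg_right p2 hδW
  have u2 : M ^ 2 * (D.d * D.W μ η) ≤ M ^ 4 * (δ * D.W μ η) :=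
    mul_le_mul p2 hdW (by positivity) (by positivity)
  have u3 : M ^ 3 * (D.d * D.W μ η) ≤ M ^ 4 * (δ * D.W μ η) :=
    mul_le_mul p3 hdW (by positivity) (by positivity)
  have u4 : M ^ 4 * (D.d * D.W μ η) ≤ M ^ 4 * (δ * D.W μ η) :=
    mul_le_mul_of_nonneg_left hdW (by positivity)
  have hBd : |D.B η| ≤ 3 * M * D.d := b.Bp.trans b.pd
  have hτd : |D.τ η| ≤ D.d := b.τt.trans b.td
  have hν : |D.ν - 1 / 2| ≤ M := by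
    rw [abs_le]
    constructor <;> linarith [h.ν_lo, h.ν_hi]
  have hϑ : |D.ϑ - D.σs| ≤ 2 * M := by
    have a1 := abs_le.1 h.hϑ
    have a2 := abs_le.1 h.hσs
    rw [abs_le]
    constructor <;> linarith [a1.1, a1.2, a2.1, a2.2]
  have E1 := ryy_hi (ryy_m2 h.hps b.k1)
  have E2 := ryy_lo (ryy_m2 (ryy_m2 hν hBd) b.ks1)
  have E3 := ryy_lo (ryy_m2 (ryy_m2 h.hg3 b.w1) hBd)
  have E4 := ryy_lo (ryy_m2 (ryy_m2 hτd hϑ) b.k1)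
  have hτΓe : |D.τ η * D.Γ η * D.e| ≤ 7 * M ^ 2 * D.d := by
    have a1 : |D.τ η * D.Γ η * D.e| ≤ |D.τ η| * |D.Γ η| * (M * D.d ^ 2) :=
      ryy_m2 (le_of_eq (abs_mul _ _)) h.he
    have a2 : 4 * D.d + 3 * M * η ^ 2 ≤ 7 * M := by
      have c1 : M * η ^ 2 ≤ M * 1 := mul_le_mul_of_nonneg_left (by linarith) hM0.le
      linarith
    have a3 := mul_le_mul_of_nonneg_right (b.τΓ.trans a2) (by positivity : 0 ≤ M * D.d)
    calc _ ≤ _ := a1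
      _ = |D.τ η| * |D.Γ η| * D.d * (M * D.d) := by ring
      _ ≤ 7 * M * (M * D.d) := a3
      _ = _ := by ring
  have E5 := ryy_lo (ryy_m2 hτΓe b.k1)
  have E6 := ryy_lo (ryy_m2 hτd b.kt1)
  have E7 := ryy_lo (ryy_m2 (ryy_m2 hτd h.hσ) b.ks1)
  have hμts : |μ * (D.τ η * D.s)| ≤ δ * D.W μ η := ryy_mts hμ hδ hμδ b.τt b.W3 b.W4
  have E8 := ryy_lo (ryy_m2 (ryy_m2 h.hσ hmM) hμts)
  have hρ : |1 / 8 - D.ρ η / 4| ≤ 1 / 8 := by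
    rw [abs_le]
    constructor <;> linarith [b.ρ0, b.ρ1]
  have hwb : |D.wb| ≤ M * (δ * D.W μ η) := by
    refine h.hwb.trans (mul_le_mul_of_nonneg_left ?_ hM0.le)
    have e : η ^ 64 = η ^ 32 * η ^ 32 := by ring
    rw [e]
    refine mul_le_mul ?_ b.W2 (by positivity) hδ.le
    exact (pow_le_of_le_one hη.le hη1 (by norm_num)).trans hηδ
  have E9 := ryy_lo (ryy_m2 (ryy_m2 hρ hmM) hwb)
  have hK : 0 ≤ M ^ 4 * (δ * D.W μ η) := by positivity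
  rw [ryy_id]
  linarith

theorem ryy (M : ℝ) (hM : 1 ≤ M) : ∃ μ0 r1 η0 : ℝ, 0 < μ0 ∧ 0 < r1 ∧ 0 < η0 ∧
    ∀ (μ r η : ℝ) (D : PD), 0 < μ → μ ≤ μ0 → r ≤ r1 → 0 < η → η ≤ η0 →
      PDOK M r η D → D.W μ η / (64 * M) ≤ D.yy μ η := by
  have hM0 : 0 < M := by linarith
  obtain ⟨δ, hδ, hδM⟩ : ∃ δ : ℝ, 0 < δ ∧ M ^ 5 * δ = 1 / 1280 :=
    ⟨1 / (1280 * M ^ 5), by positivity, by field_simp⟩
  have p0 : δ ≤ 1 / 1280 := by
    have := mul_le_mul_of_nonneg_right (one_le_pow₀ hM : 1 ≤ M ^ 5) hδ.le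
    linarith
  have p1 : M * δ ≤ 1 / 1280 := by
    have := mul_le_mul_of_nonneg_right (le_self_pow₀ hM (by norm_num) : M ≤ M ^ 5) hδ.le
    linarith
  have p3 : M ^ 3 * δ ≤ 1 / 1280 := by
    have := mul_le_mul_of_nonneg_right
      (pow_le_pow_right₀ hM (by norm_num) : M ^ 3 ≤ M ^ 5) hδ.le
    linarith
  have p4 : M ^ 3 * δ ^ 2 ≤ 1 / 1280 := by
    have : M ^ 3 * δ * δ ≤ 1 / 1280 * 1 :=
      mul_le_mul p3 (by linarith) hδ.le (by norm_num)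
    nlinarith
  refine ⟨δ ^ 2, δ, δ, by positivity, hδ, hδ, ?_⟩
  intro μ r η D hμ hμδ hrδ hη hηδ h
  have hr0 : 0 ≤ r := (abs_nonneg _).trans h.hs
  have hη1 : η ≤ 1 := by linarith
  have hMr : M * r ≤ 1 / 2 := by
    have := mul_le_mul_of_nonneg_left hrδ hM0.le
    linarith
  have hMη : M * η ^ 32 ≤ 1 := by
    have := mul_le_mul_of_nonneg_left
      ((pow_le_of_le_one hη.le hη1 (by norm_num) : η ^ 32 ≤ η).trans hηδ) hM0.le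
    linarith
  have hμ1 : μ ≤ 1 := by nlinarith
  have b := rbas h hM hMr hη hη1 hMη hμ hμ1
  have hη2 : η ^ 2 ≤ 1 / 15 := by nlinarith
  have hr : 12 * M ^ 3 * r ^ 2 ≤ 1 / 32 := by
    have := mul_le_mul_of_nonneg_left (pow_le_pow_left₀ hr0 hrδ 2) (by positivity : 0 ≤ M ^ 3)
    linarith
  have hμ2 : μ * (13 * M ^ 3) ≤ 1 / 16 := by
    have := mul_le_mul_of_nonneg_left hμδ (by positivity : 0 ≤ M ^ 3)
    linarith
  have hc := ryy_core h b hM hη hη2 hμ hr hμ2 hδ (by linarith) hrδ hηδ hμδ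
  have e : D.W μ η / (64 * M) = D.W μ η / (32 * M) - 20 * (M ^ 4 * δ * D.W μ η) := by
    have e1 : M ^ 4 * δ = 1 / (1280 * M) := by
      field_simp
      linarith
    rw [e1]
    field_simp
    ring
  rw [e]
  exact hc

end
end Vale.Agent.P229
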