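import Vale.Agent.P229.Tay
import Vale.Agent.P229.RQX
import Vale.Agent.P229.RYY
import Vale.Agent.P229.Cut
import Vale.Agent.P229.Low
import Vale.Agent.P229.Adj

open scoped ContDiff
open MeasureTheory Metric

namespace Vale.Agent.P229
noncomputable section

theorem en_amgm {u a q c P Q : ℝ} (hc : 0 < c) (hP : 0 ≤ P) (hQ : 0 ≤ Q) (h : a ^ 2 ≤ P * Q) :
    -(c / 2 * (P * q ^ 2) + Q * u ^ 2 / (2 * c)) ≤ u * (a * q) := by
  refine (abs_le.1 (abs_le_of_sq_le_sq ?_ (by positivity))).1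
  have h1 : (u * (a * q)) ^ 2 ≤ 4 * ((c / 2 * (P * q ^ 2)) * (Q * u ^ 2 / (2 * c))) := by
    have h2 := mul_le_mul_of_nonneg_left h (mul_nonneg (sq_nonneg u) (sq_nonneg q))
    calc (u * (a * q)) ^ 2 = u ^ 2 * q ^ 2 * a ^ 2 := by ring
      _ ≤ u ^ 2 * q ^ 2 * (P * Q) := h2
      _ = _ := by field_simp; ring
  nlinarith [sq_nonneg (c / 2 * (P * q ^ 2) - Q * u ^ 2 / (2 * c))]

theorem en_low {θ a A β c C χ H W q y u F l1 l2 : ℝ} (hc : 0 < c) (hC : 0 ≤ C) (ha : a ≤ θ)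
    (ha0 : 0 ≤ a) (hA : θ ≤ A) (hβ : 0 ≤ β) (hH : 0 ≤ H) (hW : 0 ≤ W)
    (hF : c * χ ^ 2 * (q ^ 2 + W * y ^ 2) ≤ F) (h1 : l1 ^ 2 ≤ C * χ ^ 2 * (H * W))
    (h2 : l2 ^ 2 ≤ C * χ ^ 2 * (H * W ^ 2)) :
    a * c * χ ^ 2 * (β * (q ^ 2 + W * y ^ 2)) - 2 * A * C / c * (H * (β * W * u ^ 2)) ≤
      2 * (θ * β) * (F + u * (l1 * q + l2 * y)) := by
  have e1 := en_amgm (u := u) (q := q) hc (sq_nonneg χ) (show 0 ≤ C * (H * W) by positivity)
    (h1.trans_eq (by ring))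
  have e2 := en_amgm (u := u) (q := y) hc (show 0 ≤ χ ^ 2 * W by positivity)
    (show 0 ≤ C * (H * W) by positivity) (h2.trans_eq (by ring))
  have e3 : c / 2 * (χ ^ 2 * (q ^ 2 + W * y ^ 2)) - C / c * (H * W * u ^ 2) ≤
      F + u * (l1 * q + l2 * y) := by
    have : C * (H * W) * u ^ 2 / (2 * c) = C / c * (H * W * u ^ 2) / 2 := by field_simp
    linarith
  have e4 := mul_le_mul_of_nonneg_left e3
    (show 0 ≤ 2 * (θ * β) from mul_nonneg zero_le_two (mul_nonneg (ha0.trans ha) hβ))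
  have e5 := mul_le_mul_of_nonneg_right ha
    (show 0 ≤ c * χ ^ 2 * (β * (q ^ 2 + W * y ^ 2)) by positivity)
  have e6 := mul_le_mul_of_nonneg_right hA
    (show 0 ≤ 2 * (C / c) * (H * (β * W * u ^ 2)) by positivity)
  have e7 : 2 * A * C / c = 2 * A * (C / c) := by ring
  rw [e7]
  linarith

theorem en_th {M r η : ℝ} {K : Coef} (hK : CoefOK M r η K) (hr : 0 < r) (hr1 : r ≤ 1) {x : Pt}
    (hx : x ∈ closedBall (0 : Pt) r) :
    Real.exp (-M) ≤ (th K).1 x ∧ (th K).1 x ≤ Real.exp M := by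
  have h1 := hK.g10 0 (mem_closedBall_self hr.le)
  have h2 : |x.2| ≤ 1 := (mem_box.1 hx).2.trans hr1
  have h3 : |K.g1.1 0 * x.2| ≤ M := by
    rw [abs_mul]
    exact (mul_le_of_le_one_right (abs_nonneg _) h2).trans h1
  simp only [th, ev_ex, ev_mul, ev_cst, ev_cT, Real.exp_le_exp]
  exact abs_le.1 h3

theorem en_mul {θ A0 A β χ d B k : ℝ} (h0 : 0 ≤ θ) (hθ : θ ≤ A0) (hβ : 0 ≤ β) (c0 : 0 ≤ χ)
    (c1 : χ ≤ 1) (hd : 0 ≤ d) (hB : |B| ≤ k * d) (hA : A0 * k ≤ A) :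
    |θ * β * (χ ^ 4 * B)| ≤ A * χ ^ 2 * β * d := by
  rw [abs_mul, abs_mul (χ ^ 4), abs_of_nonneg (mul_nonneg h0 hβ), abs_of_nonneg (pow_nonneg c0 4)]
  have h1 : χ ^ 4 ≤ χ ^ 2 := pow_le_pow_of_le_one c0 c1 (by norm_num)
  have h2 : 0 ≤ A0 := h0.trans hθ
  calc θ * β * (χ ^ 4 * |B|) ≤ A0 * β * (χ ^ 2 * (k * d)) := by gcongr
    _ = A0 * k * (χ ^ 2 * β * d) := by ring
    _ ≤ A * (χ ^ 2 * β * d) := by gcongr
    _ = _ := by ring

theorem en_b1 {p M d η : ℝ} (hM : 0 ≤ M) (hη : 0 < η) (hη1 : η ≤ 1) (hp : |p| ≤ 3 * M * d)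
    (hd : d ≤ η ^ 32) : 1 + p ^ 2 / η ^ 56 ≤ 1 + 9 * M ^ 2 := by
  have h1 : η ^ 32 ≤ η ^ 28 := pow_le_pow_of_le_one hη.le hη1 (by norm_num)
  have h2 : |p| ≤ 3 * M * η ^ 28 := hp.trans (by gcongr; exact hd.trans h1)
  have h3 := pow_le_pow_left₀ (abs_nonneg p) h2 2
  rw [sq_abs] at h3
  gcongr
  rw [div_le_iff₀ (by positivity)]
  exact h3.trans_eq (by ring)

/-- left integrand of the identity -/
def enL (K : Coef) (μ η ν C1 : ℝ) (hη : 0 < η) (χ u : Sm) : Sm :=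
  2 * (Lgen K.σ (K.k μ η) K.g1 (K.g2 μ η ν) u *
    (mB K η χ * ds u + mA K η hη χ * T K.σ u + mC K η hη χ C1 * u))

/-- right integrand of the identity -/
def enR (K : Coef) (μ η ν C1 : ℝ) (hη : 0 < η) (χ u : Sm) : Sm :=
  Qqq K.σ K.g1 (mB K η χ) (mA K η hη χ) (mC K η hη χ C1) * T K.σ u ^ 2
    + Qqy K.σ (K.k μ η) K.g1 (K.g2 μ η ν) (mB K η χ) (mA K η hη χ) * (T K.σ u * ds u)
    + Qyy K.σ (K.k μ η) (K.g2 μ η ν) (mB K η χ) (mA K η hη χ) (mC K η hη χ C1) * ds u ^ 2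
    + u * (Lq K.σ K.g1 (mC K η hη χ C1) * T K.σ u
      + Ly (K.k μ η) (K.g2 μ η ν) (mC K η hη χ C1) * ds u)

theorem en_ident (K : Coef) (μ η ν C1 : ℝ) (hη : 0 < η) {r : ℝ} {χ : Sm} (hχ : IsCut r χ)
    (u : Sm) : ∫ x in closedBall (0 : Pt) r, (enL K μ η ν C1 hη χ u).1 x =
      ∫ x in closedBall (0 : Pt) r, (enR K μ η ν C1 hη χ u).1 x := by
  have hz : ∀ x, x ∉ closedBall (0 : Pt) r → χ.1 x = 0 := fun x hx =>
    hχ.zero x fun h => hx (ball_subset_closedBall h)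
  have hB : ∀ x, x ∉ closedBall (0 : Pt) r → (mB K η χ).1 x = 0 := fun x hx => by
    rw [(qform K μ η ν C1 hη χ x).2.2.2.2.2.1, hz x hx]; simp
  have hA : ∀ x, x ∉ closedBall (0 : Pt) r → (mA K η hη χ).1 x = 0 := fun x hx => by
    rw [(qform K μ η ν C1 hη χ x).2.2.2.2.2.2.1, hz x hx]; simp
  have hC : ∀ x, x ∉ closedBall (0 : Pt) r → (mC K η hη χ C1).1 x = 0 := fun x hx => by
    rw [(qform K μ η ν C1 hη χ x).2.2.2.2.2.2.2.1, hz x hx]; simp [PD.cc]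
  rw [integral_box, integral_box]
  · exact ident _ _ _ _ _ _ _ u (HasCompactSupport.intro (isCompact_closedBall 0 r) hB)
      (HasCompactSupport.intro (isCompact_closedBall 0 r) hA)
      (HasCompactSupport.intro (isCompact_closedBall 0 r) hC)
  · intro x hx
    obtain ⟨h1, h2, h3, h4, h5, -⟩ := qform K μ η ν C1 hη χ x
    simp only [enR, ev_add, ev_mul, h1, h2, h3, h4, h5, hz x hx]
    simp [PD.Aqq, PD.Aqy, PD.Ayy, PD.Alq, PD.Aly, PD.cc]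
  · intro x hx
    simp only [enL, ev_add, ev_mul, hA x hx, hB x hx, hC x hx]
    simp

theorem en_cont (σ : Sm) (μ η : ℝ) (u : Sm) : Continuous (en σ μ η u) := by
  have h1 := Sm.cont (bw σ η)
  have h2 := Sm.cont (T σ u)
  have h3 := Sm.cont (ds u)
  unfold en Wt
  fun_prop

theorem en_nonneg (σ : Sm) {μ : ℝ} (hμ : 0 ≤ μ) (η : ℝ) (u : Sm) (x : Pt) : 0 ≤ en σ μ η u x := by
  have h1 : 0 ≤ (bw σ η).1 x := by
    simp only [bw, ev_add, ev_mul, ev_one, ev_cst, ev_pow]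
    positivity
  unfold en Wt
  positivity

theorem en_final {K : Coef} {μ η ν C1 r c C : ℝ} (hη : 0 < η) (hμ : 0 ≤ μ) (hr : 0 < r)
    (hc : 0 < c) {χ u S R : Sm} (hχ : IsCut r χ)
    (h : ∀ x ∈ closedBall (0 : Pt) r, c * (χ.1 x ^ 2 * en K.σ μ η u x) +
      (enL K μ η ν C1 hη χ u).1 x ≤ (enR K μ η ν C1 hη χ u).1 x + C * (η ^ 30 * S.1 x ^ 2
        + (bw K.σ η).1 x * R.1 x ^ 2 + (1 / η) ^ 62 * ((bw K.σ η).1 x * Wt μ η x * u.1 x ^ 2))) :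
    ∫ x in closedBall (0 : Pt) (r / 2), en K.σ μ η u x ≤
      C / c * (η ^ 30 * (∫ x in closedBall (0 : Pt) r, S.1 x ^ 2)
        + (∫ x in closedBall (0 : Pt) r, (bw K.σ η).1 x * R.1 x ^ 2)
        + (1 / η) ^ 62 * ∫ x in closedBall (0 : Pt) r, (bw K.σ η).1 x * Wt μ η x * u.1 x ^ 2) := by
  have c1 : Continuous fun x => χ.1 x ^ 2 * en K.σ μ η u x :=
    ((Sm.cont χ).pow 2).mul (en_cont _ _ _ _)
  have c2 : Continuous fun x => S.1 x ^ 2 := (Sm.cont S).pow 2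
  have c3 : Continuous fun x => (bw K.σ η).1 x * R.1 x ^ 2 :=
    (Sm.cont _).mul ((Sm.cont R).pow 2)
  have c4 : Continuous fun x => (bw K.σ η).1 x * Wt μ η x * u.1 x ^ 2 := by
    have h1 := Sm.cont (bw K.σ η)
    have h2 := Sm.cont u
    unfold Wt
    fun_prop
  have i1 := (intOn c1 r).const_mul c
  have i2 := (intOn c2 r).const_mul (η ^ 30)
  have i3 := intOn c3 r
  have i4 := (intOn c4 r).const_mul ((1 / η) ^ 62)
  have iL := intOn (Sm.cont (enL K μ η ν C1 hη χ u)) r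
  have iR := intOn (Sm.cont (enR K μ η ν C1 hη χ u)) r
  have i23 : Integrable (fun x => η ^ 30 * S.1 x ^ 2 + (bw K.σ η).1 x * R.1 x ^ 2)
      (volume.restrict (closedBall (0 : Pt) r)) := i2.add i3
  have i5 : Integrable (fun x => C * (η ^ 30 * S.1 x ^ 2 + (bw K.σ η).1 x * R.1 x ^ 2
      + (1 / η) ^ 62 * ((bw K.σ η).1 x * Wt μ η x * u.1 x ^ 2)))
      (volume.restrict (closedBall (0 : Pt) r)) := (i23.add i4).const_mul C
  have h1 := setIntegral_mono_on (i1.add iL) (iR.add i5) measurableSet_closedBall h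
  simp only [Pi.add_apply] at h1
  rw [integral_add i1 iL, integral_add iR i5, en_ident K μ η ν C1 hη hχ u, integral_const_mul,
    integral_const_mul, integral_add i23 i4, integral_add i2 i3, integral_const_mul,
    integral_const_mul] at h1
  have h2 : ∫ x in closedBall (0 : Pt) (r / 2), en K.σ μ η u x ≤
      ∫ x in closedBall (0 : Pt) r, χ.1 x ^ 2 * en K.σ μ η u x := by
    rw [setIntegral_congr_fun (g := fun x => χ.1 x ^ 2 * en K.σ μ η u x) measurableSet_closedBall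
      fun x hx => by simp [hχ.one x hx]]
    exact setIntegral_mono_set (intOn c1 r)
      (Filter.Eventually.of_forall fun x => mul_nonneg (sq_nonneg _) (en_nonneg _ hμ _ _ _))
      (closedBall_subset_closedBall (by linarith)).eventuallyLE
  rw [div_mul_eq_mul_div, le_div_iff₀' hc]
  nlinarith

theorem energy (M : ℝ) (hM : 1 ≤ M) : ∃ μ0 : ℝ, 0 < μ0 ∧ ∀ μ : ℝ, 0 < μ → μ ≤ μ0 →
    ∃ r1 : ℝ, 0 < r1 ∧ ∀ r : ℝ, 0 < r → r ≤ r1 → ∃ η0 : ℝ, 0 < η0 ∧ ENat M μ r η0 := by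
  obtain ⟨M', hMM, htay⟩ := tay M hM
  have hM' : 1 ≤ M' := hM.trans hMM
  obtain ⟨μa, ra, ηa, μa0, ra0, ηa0, hyy⟩ := ryy M' hM'
  obtain ⟨rb, rb0, hqq⟩ := rqq M' hM'
  refine ⟨min μa 1, by positivity, fun μ hμ hμ' => ?_⟩
  have hμ1 : μ ≤ 1 := hμ'.trans (min_le_right _ _)
  obtain ⟨rc, ηc, rc0, ηc0, hqy⟩ := rqy M' μ hM' hμ hμ1
  refine ⟨min (min ra rb) (min rc (1 / 2 / M')), by positivity, fun r hr hr' => ?_⟩
  simp only [le_min_iff] at hr'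
  obtain ⟨⟨hra, hrb⟩, hrc, hrd⟩ := hr'
  have hMr : M' * r ≤ 1 / 2 := by rwa [le_div_iff₀' (by positivity)] at hrd
  have hr1 : r ≤ 1 := by nlinarith
  obtain ⟨χ, hχ⟩ := exists_isCut hr
  obtain ⟨X1, hX1⟩ := exists_bound_compact (cs_ds hχ.cpt)
  obtain ⟨X2, hX2⟩ := exists_bound_compact (cs_dt hχ.cpt)
  have X10 : 0 ≤ X1 := (abs_nonneg _).trans (hX1 0)
  have X20 : 0 ≤ X2 := (abs_nonneg _).trans (hX2 0)
  obtain ⟨C1, c, ηd, C10, c0, ηd0, hcut⟩ := cut M' μ r (X2 + M * X1) hM' hμ hμ1 hr hMr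
  obtain ⟨C, C0, hlow⟩ := low M' μ r (X2 + M * X1) C1 hM' hμ hμ1 hMr C10
  have a0 := Real.exp_pos (-M)
  have A0 := Real.exp_pos M
  have M0 : 0 ≤ M' := zero_le_one.trans hM'
  have hA : ∀ k, k ≤ 3 * M' + C →
      Real.exp M * k ≤ Real.exp M * (3 * M' + C) + (1 + 9 * M' ^ 2) := fun k hk =>
    (mul_le_mul_of_nonneg_left hk A0.le).trans (le_add_of_nonneg_right (by positivity))
  have hA1 := hA (3 * M') (by linarith)
  have hA2 := hA 1 (by linarith)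
  have hA3 := hA C (by linarith)
  have hX : X1 ≤ X2 + M * X1 := by nlinarith
  obtain ⟨C', C'0, hsrc⟩ := src (Real.exp M * (3 * M' + C) + (1 + 9 * M' ^ 2))
    (Real.exp (-M) * c / 2) μ (by positivity) (by positivity) hμ
  refine ⟨min (min ηa ηc) (min ηd (1 / M')), by positivity,
    (C' + 2 * Real.exp M * C / c) / (Real.exp (-M) * c / 2),
    fun η hη hη' K ν u S R hK ν1 ν2 hL hS => ?_⟩
  simp only [le_min_iff] at hη'
  obtain ⟨⟨hηa, hηc⟩, hηd, hηe⟩ := hη'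
  have hMη : M' * η ≤ 1 := by rwa [le_div_iff₀' (by positivity)] at hηe
  have hη1 : η ≤ 1 := by nlinarith
  have hMη' : M' * η ^ 32 ≤ 1 :=
    (mul_le_mul_of_nonneg_left (pow_le_of_le_one hη.le hη1 (by norm_num)) (by positivity)).trans
      hMη
  refine en_final (ν := ν) (C1 := C1) hη hμ.le hr (by positivity) hχ fun x hx => ?_
  have hD := (htay r η K ν hr1 hη hK ν1 ν2 x hx).1
  have hR := rbas hD hM' hMr hη hη1 hMη' hμ hμ1
  obtain ⟨q1, q2, q3, q4, q5, q6, q7, q8, q9⟩ := qform K μ η ν C1 hη χ x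
  obtain ⟨t1, t2⟩ := en_th hK hr hr1 hx
  have t0 : 0 ≤ (th K).1 x := a0.le.trans t1
  obtain ⟨χ0, χ1⟩ := hχ.mem x
  have hcs : |(ds χ).1 x| ≤ X2 + M * X1 := (hX1 x).trans hX
  have hct : |(T K.σ χ).1 x| ≤ X2 + M * X1 := by
    rw [T, ev_add, ev_mul]
    refine (abs_add_le _ _).trans (add_le_add (hX2 x) ?_)
    rw [abs_mul]
    exact mul_le_mul (hK.σ0 x hx) (hX1 x) (abs_nonneg _) (by positivity)
  have hin : (mkPD K ν x).d < r / 2 → χ.1 x = 1 ∧ (ds χ).1 x = 0 ∧ (T K.σ χ).1 x = 0 := by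
    intro h
    have hb : x ∈ ball (0 : Pt) (r / 2) := mem_ball_zero_iff.2 h
    have h1 : ∀ y ∈ ball (0 : Pt) (r / 2), χ.1 y = (1 : Sm).1 y := fun y hy =>
      hχ.one y (ball_subset_closedBall hy)
    have h2 := ds_congr isOpen_ball h1 x hb
    have h3 := dt_congr isOpen_ball h1 x hb
    rw [ds_one] at h2
    rw [dt_one] at h3
    refine ⟨h1 x hb, h2, ?_⟩
    rw [T, ev_add, ev_mul, h2, h3]
    simp
  have hF := hcut η _ _ _ _ hη hηd hD (hqq r η _ hrb hη hη1 hMη' hD)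
    (hyy μ r η _ hμ (hμ'.trans (min_le_left _ _)) hra hη hηa hD) (hqy r η _ hrc hη hηc hD) χ0 χ1
    hcs hct hin ((T K.σ u).1 x) ((ds u).1 x)
  obtain ⟨l1, l2, l3⟩ := hlow η _ _ _ _ hη hη1 hMη' hD χ0 χ1 hcs hct
  have b1 : 1 ≤ (bw K.σ η).1 x := q9 ▸ hR.b1
  have b0 : 0 ≤ (bw K.σ η).1 x := zero_le_one.trans b1
  have W0 : 0 ≤ (mkPD K ν x).W μ η := (pow_nonneg hη.le _).trans hR.W2
  have e1 := en_low (u := u.1 x) c0 C0 t1 a0.le t2 b0 (by positivity) W0 hF l1 l2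
  have e2 := hsrc η (χ.1 x) ((bw K.σ η).1 x) (mkPD K ν x).d ((mkPD K ν x).W μ η) (S.1 x) (R.1 x)
    ((mB K η χ).1 x) ((mA K η hη χ).1 x) ((mC K η hη χ C1).1 x) ((T K.σ u).1 x) ((ds u).1 x)
    (u.1 x) hη hη1 χ0 χ1 b1 hR.d0 (hR.dr.trans hr1) hR.W1 hR.W2
    (by
      rw [q6]
      exact en_mul t0 t2 b0 χ0 χ1 hR.d0 (hR.Bp.trans hR.pd) hA1)
    (by
      rw [q7, mul_div_assoc]
      refine en_mul t0 t2 b0 χ0 χ1 hR.d0 ?_ hA2
      rw [abs_div, abs_of_pos (show (0 : ℝ) < 4 by norm_num)]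
      linarith [hR.τt, hR.td, hR.d0])
    (by
      rw [q8, abs_mul, abs_of_nonneg (mul_nonneg t0 b0)]
      calc (th K).1 x * (bw K.σ η).1 x * |(mkPD K ν x).cc η (χ.1 x) C1|
          ≤ Real.exp M * (bw K.σ η).1 x * C := by gcongr
        _ = Real.exp M * C * (bw K.σ η).1 x := by ring
        _ ≤ _ := mul_le_mul_of_nonneg_right hA3 b0)
    (fun h => by
      have h1 : (mkPD K ν x).d ≤ η ^ 32 := not_lt.1 fun h2 => h (hS x hx h2)
      refine ⟨h1, ?_⟩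
      rw [q9]
      exact (en_b1 M0 hη hη1 hR.pd h1).trans (le_add_of_nonneg_left (by positivity)))
  have e3 : 0 ≤ 2 * Real.exp M * C / c * (η ^ 30 * S.1 x ^ 2 + (bw K.σ η).1 x * R.1 x ^ 2) := by
    positivity
  have e4 : (Lgen K.σ (K.k μ η) K.g1 (K.g2 μ η ν) u).1 x = S.1 x + R.1 x := hL x hx
  have e5 : Wt μ η x = (mkPD K ν x).W μ η := rfl
  simp only [enL, enR, en, ev_add, ev_mul, ev_pow, ev_two, q1, q2, q3, q4, q5, e4, e5]
  linarith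

end
end Vale.Agent.P229
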