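import Vale.Agent.P229.DPt

open scoped ContDiff
open MeasureTheory Metric

namespace Vale.Agent.P229
noncomputable section

open Filter Topology

/-- vanishing on the open left half plane -/
def TrVan (f : Sm) : Prop := ∀ x : Pt, x.1 < 0 → f.1 x = 0

theorem tr_open : IsOpen {x : Pt | x.1 < 0} := isOpen_lt continuous_fst continuous_const

theorem TrVan.ds {f : Sm} (h : TrVan f) : TrVan (ds f) := fun x hx => by
  rw [ds_congr (g := 0) tr_open h x hx, map_zero]; rfl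
theorem TrVan.dt {f : Sm} (h : TrVan f) : TrVan (dt f) := fun x hx => by
  rw [dt_congr (g := 0) tr_open h x hx, map_zero]; rfl

theorem tr_half : Tendsto (fun j : ℕ => (1 / 2 : ℝ) ^ j) atTop (𝓝 0) :=
  tendsto_pow_atTop_nhds_zero_of_lt_one (by norm_num) (by norm_num)

theorem tr_pt : Tendsto (fun j : ℕ => (((1 / 2 : ℝ) ^ j, 0) : Pt)) atTop (𝓝 0) :=
  tr_half.prodMk_nhds tendsto_const_nhds

theorem tr_lim (f : Sm) : Tendsto (fun j : ℕ => f.1 ((1 / 2 : ℝ) ^ j, 0)) atTop (𝓝 (f.1 0)) :=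
  ((Sm.cont f).tendsto 0).comp tr_pt

theorem TrVan.zero {f : Sm} (h : TrVan f) : f.1 0 = 0 := by
  have h1 : Tendsto (fun j : ℕ => ((-(1 / 2 : ℝ) ^ j, 0) : Pt)) atTop (𝓝 0) := by
    have := tr_half.neg
    rw [neg_zero] at this
    exact this.prodMk_nhds tendsto_const_nhds
  have h2 := ((Sm.cont f).tendsto 0).comp h1
  have h3 : (f.1 ∘ fun j : ℕ => ((-(1 / 2 : ℝ) ^ j, 0) : Pt)) = fun _ => 0 := by
    funext j
    exact h _ (by simp)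
  rw [h3] at h2
  exact tendsto_nhds_unique h2 tendsto_const_nhds

theorem tr_slope (f : Sm) (h0 : f.1 0 = 0) :
    Tendsto (fun j : ℕ => ((1 / 2 : ℝ) ^ j)⁻¹ * f.1 ((1 / 2 : ℝ) ^ j, 0)) atTop (𝓝 ((ds f).1 0)) := by
  have hg : HasDerivAt (fun s : ℝ => ((s, 0) : Pt)) (1, 0) 0 :=
    (hasDerivAt_id (0 : ℝ)).prodMk (hasDerivAt_const _ _)
  have hf : HasFDerivAt f.1 (fderiv ℝ f.1 0) ((fun s : ℝ => ((s, 0) : Pt)) 0) :=
    (Sm.diff f 0).hasFDerivAt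
  have hd := HasFDerivAt.comp_hasDerivAt (f := fun s : ℝ => ((s, 0) : Pt)) (0 : ℝ) hf hg
  have h1 := hd.tendsto_slope_zero
  have h2 : Tendsto (fun j : ℕ => (1 / 2 : ℝ) ^ j) atTop (𝓝[≠] 0) :=
    tendsto_nhdsWithin_iff.2 ⟨tr_half, Eventually.of_forall fun j => by simp⟩
  have h3 := h1.comp h2
  refine h3.congr fun j => ?_
  have : f.1 ((0 : ℝ), (0 : ℝ)) = 0 := h0
  simp [this]

theorem tr_three : (3 : Sm) = cst 3 := Sm.ext' fun _ => rfl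

theorem tr_jets {φ : Sm} (hl : ∀ x : Pt, x.1 ≤ 0 → φ.1 x = (cT - cst (1 / 12) * cT ^ 4).1 x) :
    φ.1 0 = 0 ∧ (ds φ).1 0 = 0 ∧ (dt φ).1 0 = 1 ∧ (wv φ).1 0 = 0 ∧ (ds (wv φ)).1 0 = 0 ∧
      (dt (wv φ)).1 0 = 0 ∧ (ds (ds (wv φ))).1 0 = 0 ∧ (ds (dt (wv φ))).1 0 = 0 ∧
      (dt (dt (wv φ))).1 0 = 2 := by
  have h0 : TrVan (φ - (cT - cst (1 / 12) * cT ^ 4)) := fun x hx => by
    rw [ev_sub, hl x hx.le, sub_self]
  have hw : TrVan (wv φ - cT ^ 2) := fun x hx => by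
    have h1 := h0.ds.ds x hx
    have h2 := h0.dt.dt x hx
    have e4 : (4 : Sm) = cst 4 := Sm.ext' fun _ => rfl
    simp only [map_sub, map_add, map_zero, ds_mul, dt_mul, ds_four, dt_four, ds_cube, dt_cube, ds_cT,
      dt_cT, ds_cst, dt_cst, e4, ds_one, dt_one, mul_zero, add_zero, mul_one, sub_zero, zero_add,
      ev_sub, ev_mul, ev_pow, ev_cst, ev_cT, ev_zero, ev_three] at h1 h2
    simp only [wv, ev_sub, ev_neg, ev_add, ev_pow, ev_cT]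
    linarith
  have a0 := h0.zero
  have a1 := h0.ds.zero
  have a2 := h0.dt.zero
  have b0 := hw.zero
  have b1 := hw.ds.zero
  have b2 := hw.dt.zero
  have b3 := hw.ds.ds.zero
  have b4 := hw.dt.ds.zero
  have b5 := hw.dt.dt.zero
  simp only [map_sub, map_add, map_zero, ds_mul, dt_mul, ds_four, dt_four, ds_sq, dt_sq, ds_cT,
    dt_cT, ds_cst, dt_cst, ds_two, dt_two, mul_zero, add_zero, mul_one, sub_zero,
    ev_sub, ev_mul, ev_pow, ev_cst, ev_cT, ev_zero, ev_one, ev_two, ev_four, Prod.snd_zero]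
    at a0 a1 a2 b0 b1 b2 b3 b4 b5
  refine ⟨by linarith, a1, by linarith, by linarith, b1, by linarith, b3, b4, by linarith⟩

theorem tr_alg {α β γ κ : ℝ} (k1 : α * γ = β ^ 2) (k2 : α * κ = β * γ)
    (k3 : β * κ - γ ^ 2 = 1) : False := by
  have k4 : α = 0 := by linear_combination -α * k3 + β * k2 - γ * k1
  have k5 : β = 0 := by
    have : β ^ 2 = 0 := by rw [← k1, k4, zero_mul]
    exact pow_eq_zero_iff (two_ne_zero) |>.1 this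
  rw [k5] at k3
  nlinarith [sq_nonneg γ]

theorem tr_E {φ z : Sm} (hl : ∀ x : Pt, x.1 ≤ 0 → φ.1 x = (cT - cst (1 / 12) * cT ^ 4).1 x)
    (hs : (ds z).1 0 = 0) (ht : (dt z).1 0 = 0) : (E1 φ z).1 0 = 1 := by
  simp only [E1, ev_sub, ev_pow, ev_ex, ev_mul, (tr_jets hl).1, hs, ht]; simp

theorem tr_deg {φ z : Sm} {ρ : ℝ} (hρ : 0 < ρ)
    (hl : ∀ x : Pt, x.1 ≤ 0 → φ.1 x = (cT - cst (1 / 12) * cT ^ 4).1 x)
    (hD : Darb φ z (ball (0 : Pt) ρ)) (hs : (ds z).1 0 = 0) (ht : (dt z).1 0 = 0)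
    (ha : (hA φ z).1 0 = 0) :
    (hB φ z).1 0 = 0 ∧ (hC φ z).1 0 ≠ 0 ∧ (ds (hB φ z)).1 0 = -(hC φ z).1 0 := by
  have hE := tr_E hl hs ht
  obtain ⟨j1, j2, j3, j4, j5, j6, j7, j8, j9⟩ := tr_jets hl
  have hU : IsOpen (ball (0 : Pt) ρ) := isOpen_ball
  have h0 : (0 : Pt) ∈ ball (0 : Pt) ρ := mem_ball_self hρ
  have e0 := hD 0 h0
  have e2 := dt_congr hU hD 0 h0
  have e3 := ds_congr hU (ds_congr hU hD) 0 h0
  have e4 := ds_congr hU (dt_congr hU hD) 0 h0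
  have e5 := dt_congr hU (dt_congr hU hD) 0 h0
  have c1 := congrArg (fun f : Sm => f.1 0) (codazzi1 φ z)
  have c2 := congrArg (fun f : Sm => f.1 0) (codazzi2 φ z)
  simp only [map_sub, map_add, ds_mul, dt_mul, ds_sq, dt_sq, ds_two, dt_two, mul_zero, add_zero,
    ev_sub, ev_add, ev_mul, ev_neg, ev_pow, ev_two, j2, j3, j4, j5, j6, j7, j8, j9, hE, ha]
    at e0 e2 e3 e4 e5 c1 c2
  have hb : (hB φ z).1 0 = 0 := by
    have : (hB φ z).1 0 ^ 2 = 0 := by linarith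
    exact pow_eq_zero_iff (two_ne_zero) |>.1 this
  rw [hb] at e2 e3 e4 e5
  have hc : (hC φ z).1 0 ≠ 0 := by
    intro hc
    rw [hc] at e3 e4 e5 c1 c2
    have hβ : (ds (hB φ z)).1 0 = (dt (hA φ z)).1 0 := by linarith
    have hγ : (dt (hB φ z)).1 0 = (ds (hC φ z)).1 0 := by linarith
    rw [hβ] at e3 e4
    rw [hγ] at e4 e5
    exact tr_alg (α := (ds (hA φ z)).1 0) (β := (dt (hA φ z)).1 0) (γ := (ds (hC φ z)).1 0)
      (κ := (dt (hC φ z)).1 0) (by linarith) (by linarith) (by linarith)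
  have hat : (dt (hA φ z)).1 0 = 0 := by
    have : (hC φ z).1 0 * (dt (hA φ z)).1 0 = 0 := by linarith
    exact (mul_eq_zero.1 this).resolve_left hc
  exact ⟨hb, hc, by linarith⟩

theorem tr_real {a b c E w s c0 : ℝ} (hc : c0 ≠ 0) (hs0 : 0 < s) (d : a * c - b ^ 2 = w * E)
    (l : -s ^ 3 ≤ w) (s1 : c0 ^ 2 / 2 < (s⁻¹ * b) ^ 2) (s2 : 0 < E) (s3 : E < 2)
    (s4 : |c| < 2 * |c0|) (s5 : s < c0 ^ 2 / 8) : |c0| / 8 * s ^ 2 ≤ |a| := by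
  have hpos : 0 < |c0| := abs_pos.2 hc
  have r1 : c0 ^ 2 / 2 * s ^ 2 ≤ b ^ 2 := by
    have : (s⁻¹ * b) ^ 2 * s ^ 2 = b ^ 2 := by field_simp
    rw [← this]
    exact mul_le_mul_of_nonneg_right s1.le (by positivity)
  have r2 : -(2 * s ^ 3) ≤ w * E := by
    have h3 : 0 < s ^ 3 := by positivity
    nlinarith [mul_nonneg (show 0 ≤ w + s ^ 3 by linarith) s2.le]
  have r3 : 2 * s ^ 3 ≤ c0 ^ 2 / 4 * s ^ 2 := by
    have h2 : 0 < s ^ 2 := by positivity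
    nlinarith
  have r4 : c0 ^ 2 / 4 * s ^ 2 ≤ |a| * (2 * |c0|) := by
    calc c0 ^ 2 / 4 * s ^ 2 ≤ a * c := by linarith
      _ ≤ |a| * |c| := by rw [← abs_mul]; exact le_abs_self _
      _ ≤ _ := mul_le_mul_of_nonneg_left s4.le (abs_nonneg _)
  have r5 : c0 ^ 2 = |c0| * |c0| := by rw [← sq, sq_abs]
  rw [r5] at r4
  have r6 : (|c0| / 8 * s ^ 2) * (2 * |c0|) ≤ |a| * (2 * |c0|) := by linarith
  exact le_of_mul_le_mul_right r6 (by positivity)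

theorem trans {φ z : Sm} {ρ : ℝ} (hρ : 0 < ρ)
    (hl : ∀ x : Pt, x.1 ≤ 0 → φ.1 x = (cT - cst (1 / 12) * cT ^ 4).1 x)
    (hlow : ∀ j : ℕ, -(1 / 8 : ℝ) ^ j ≤ (wv φ).1 ((1 / 2 : ℝ) ^ j, 0))
    (hD : Darb φ z (ball (0 : Pt) ρ)) (hs : (ds z).1 0 = 0) (ht : (dt z).1 0 = 0) :
    ∃ (c : ℝ) (j0 : ℕ), 0 < c ∧ ∀ j, j0 ≤ j →
      c * (1 / 4 : ℝ) ^ j ≤ |(hA φ z).1 ((1 / 2 : ℝ) ^ j, 0)| := by
  have hE := tr_E hl hs ht
  by_cases ha : (hA φ z).1 0 = 0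
  swap
  · have hpos : 0 < |(hA φ z).1 0| := abs_pos.2 ha
    have h1 : ∀ᶠ j : ℕ in atTop, |(hA φ z).1 0| / 2 < |(hA φ z).1 ((1 / 2 : ℝ) ^ j, 0)| :=
      (tr_lim (hA φ z)).abs.eventually (lt_mem_nhds (by linarith))
    obtain ⟨j0, hj0⟩ := eventually_atTop.1 h1
    refine ⟨|(hA φ z).1 0| / 2, j0, by positivity, fun j hj => ?_⟩
    have h2 : (1 / 4 : ℝ) ^ j ≤ 1 := pow_le_one₀ (by norm_num) (by norm_num)
    have := hj0 j hj
    nlinarith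
  obtain ⟨hb, hc, hbs⟩ := tr_deg hρ hl hD hs ht ha
  obtain ⟨c0, hc0⟩ : ∃ c0, (hC φ z).1 0 = c0 := ⟨_, rfl⟩
  rw [hc0] at hc hbs
  have hpos : 0 < |c0| := abs_pos.2 hc
  have hsq : 0 < c0 ^ 2 := by positivity
  have t1 : ∀ᶠ j : ℕ in atTop,
      c0 ^ 2 / 2 < (((1 / 2 : ℝ) ^ j)⁻¹ * (hB φ z).1 ((1 / 2 : ℝ) ^ j, 0)) ^ 2 := by
    have := (tr_slope (hB φ z) hb).pow 2
    rw [hbs, neg_sq] at this
    exact this.eventually (lt_mem_nhds (by linarith))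
  have t2 : ∀ᶠ j : ℕ in atTop, 0 < (E1 φ z).1 ((1 / 2 : ℝ) ^ j, 0) :=
    (tr_lim (E1 φ z)).eventually (lt_mem_nhds (by rw [hE]; norm_num))
  have t3 : ∀ᶠ j : ℕ in atTop, (E1 φ z).1 ((1 / 2 : ℝ) ^ j, 0) < 2 :=
    (tr_lim (E1 φ z)).eventually (gt_mem_nhds (by rw [hE]; norm_num))
  have t4 : ∀ᶠ j : ℕ in atTop, |(hC φ z).1 ((1 / 2 : ℝ) ^ j, 0)| < 2 * |c0| :=
    (tr_lim (hC φ z)).abs.eventually (gt_mem_nhds (by rw [hc0]; linarith))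
  have t5 : ∀ᶠ j : ℕ in atTop, (1 / 2 : ℝ) ^ j < c0 ^ 2 / 8 :=
    tr_half.eventually (gt_mem_nhds (by positivity))
  have t6 : ∀ᶠ j : ℕ in atTop, (((1 / 2 : ℝ) ^ j, 0) : Pt) ∈ ball (0 : Pt) ρ :=
    tr_pt.eventually (isOpen_ball.mem_nhds (mem_ball_self hρ))
  obtain ⟨j0, hj0⟩ := eventually_atTop.1 (t1.and (t2.and (t3.and (t4.and (t5.and t6)))))
  refine ⟨|c0| / 8, j0, by positivity, fun j hj => ?_⟩
  obtain ⟨s1, s2, s3, s4, s5, s6⟩ := hj0 j hj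
  have d := hD _ s6
  have l := hlow j
  simp only [ev_sub, ev_mul, ev_pow] at d
  have q4 : (1 / 4 : ℝ) ^ j = ((1 / 2 : ℝ) ^ j) ^ 2 := by
    rw [← pow_mul, mul_comm, pow_mul]; norm_num
  have q8 : (1 / 8 : ℝ) ^ j = ((1 / 2 : ℝ) ^ j) ^ 3 := by
    rw [← pow_mul, mul_comm, pow_mul]; norm_num
  rw [q4]
  rw [q8] at l
  exact tr_real hc (by positivity) d l s1 s2 s3 s4 s5

end
end Vale.Agent.P229
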