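import Vale.Agent.P229.Darb
import Vale.Agent.P229.Trans
import Vale.Agent.P229.CBd

open scoped ContDiff
open MeasureTheory Metric

namespace Vale.Agent.P229
noncomputable section

theorem ni_dv (v : Pt) (a : ℝ) (f : Sm) : dv v (sh a f) = sh a (dv v f) := Sm.ext' fun x => by
  rw [ev_sh, dv_ev, dv_ev, ← fderiv_comp_add_right]
  rfl

theorem ni_ds (a : ℝ) (f : Sm) : ds (sh a f) = sh a (ds f) := ni_dv _ a f
theorem ni_dt (a : ℝ) (f : Sm) : dt (sh a f) = sh a (dt f) := ni_dv _ a f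

theorem ni_hA (a : ℝ) (φ z : Sm) (x : Pt) :
    (hA (sh a φ) (sh a z)).1 x = (hA φ z).1 (x + (a, 0)) := by
  simp only [hA, ni_ds, ni_dt]
  rfl

theorem ni_darb {a : ℝ} {φ z : Sm} {U V : Set Pt} (h : Darb φ z U)
    (hV : ∀ x ∈ V, x + (a, 0) ∈ U) : Darb (sh a φ) (sh a z) V := fun x hx => by
  have := h _ (hV x hx)
  simp only [hA, hB, hC, wv, E1, ni_ds, ni_dt, ev_mul, ev_sub, ev_add, ev_pow, ev_neg, ev_sh,
    ev_ex] at this ⊢
  exact this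

theorem ni_bd {a A : ℝ} {U V : Set Pt} (hV : ∀ x ∈ V, x + (a, 0) ∈ U) (k : ℕ) :
    ∀ {f : Sm}, Bd U A k f → Bd V A k (sh a f) := by
  induction k with
  | zero => exact fun h x hx => h _ (hV x hx)
  | succ k ih =>
    intro f h
    refine ⟨fun x hx => h.1 _ (hV x hx), ?_, ?_⟩
    · rw [ni_ds]; exact ih h.2.1
    · rw [ni_dt]; exact ih h.2.2

theorem ni_unif (x y z : Sm) (ρ : ℝ) : ∃ A : ℝ, ∀ e : ℝ × ℝ × ℝ, IsUnit3 e →
    Bd (ball (0 : Pt) ρ) A 8 (hgt e x y z) := by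
  have h1 : ∀ e : {e : ℝ × ℝ × ℝ // IsUnit3 e},
      |e.1.1| ≤ 1 ∧ |e.1.2.1| ≤ 1 ∧ |e.1.2.2| ≤ 1 := fun e => by
    have := e.2
    unfold IsUnit3 at this
    refine ⟨abs_le_one_iff_mul_self_le_one.2 ?_, abs_le_one_iff_mul_self_le_one.2 ?_,
      abs_le_one_iff_mul_self_le_one.2 ?_⟩ <;>
    nlinarith [sq_nonneg e.1.1, sq_nonneg e.1.2.1, sq_nonneg e.1.2.2]
  have hU : ball (0 : Pt) ρ ⊆ closedBall 0 ρ := ball_subset_closedBall
  obtain ⟨A, hA⟩ := (((cb_cst (k := 8) fun e => (h1 e).1).mul (cb_const hU x)).add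
    ((cb_cst fun e => (h1 e).2.1).mul (cb_const hU y))).add
    ((cb_cst fun e => (h1 e).2.2).mul (cb_const hU z))
  exact ⟨A, fun e he => hA ⟨e, he⟩⟩

theorem no_iso {φ : Sm} (h : GoodOm φ) {ρ : ℝ} (hρ : 0 < ρ) (x y z : Sm) :
    ¬ Iso φ x y z (ball (0 : Pt) ρ) := by
  intro hI
  obtain ⟨e0, u0, a1, a2, -⟩ := exists_normal isOpen_ball hI (mem_ball_self hρ)
  obtain ⟨c, j0, hc, hj⟩ := trans hρ h.left h.low (darb_of_iso isOpen_ball hI u0) a1 a2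
  obtain ⟨A, hA⟩ := ni_unif x y z ρ
  have t1 := tendsto_pow_atTop_nhds_zero_of_lt_one (r := (1 / 2 : ℝ)) (by norm_num) (by norm_num)
  have t2 := tendsto_pow_atTop_atTop_of_one_lt (r := (8 : ℝ)) (by norm_num)
  obtain ⟨j, ⟨b1, b2⟩, b3, b4⟩ := (((Filter.eventually_ge_atTop j0).and
    (t1.eventually_lt_const (half_pos hρ))).and ((t1.eventually_lt_const hc).and
    (t2.eventually_ge_atTop A))).exists
  have p0 : (0 : ℝ) < (1 / 2) ^ j := by positivity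
  have hV : ∀ q ∈ ball (0 : Pt) ((1 / 2 : ℝ) ^ j / 8), q + ((1 / 2 : ℝ) ^ j, 0) ∈ ball (0 : Pt) ρ :=
    fun q hq => by
      rw [mem_ball_zero_iff] at hq ⊢
      refine (norm_add_le _ _).trans_lt ?_
      rw [norm_pt ((1 / 2 : ℝ) ^ j, 0), abs_zero, abs_of_pos p0, max_eq_left p0.le]
      linarith
  have hq := hV 0 (mem_ball_self (by positivity))
  rw [zero_add] at hq
  obtain ⟨e, u, c1, c2, c3⟩ := exists_normal isOpen_ball hI hq
  refine h.no j (sh ((1 / 2 : ℝ) ^ j) (hgt e x y z)) ⟨ni_bd hV 8 ((hA e u).mono_const b4), ?_, ?_,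
    ?_, ni_darb (darb_of_iso isOpen_ball hI u) hV⟩
  · rw [ni_ds, ev_sh, zero_add, c1]
  · rw [ni_dt, ev_sh, zero_add, c2]
  · rw [ni_hA, zero_add]
    refine le_trans ?_ ((hj j b1).trans (c3 e0 u0))
    have e1 : (1 : ℝ) / 8 ^ j = (1 / 2) ^ j * (1 / 4) ^ j := by
      rw [← mul_pow, ← one_div_pow]; norm_num
    rw [e1]
    exact mul_le_mul_of_nonneg_right b3.le (by positivity)

end
end Vale.Agent.P229
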