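import Vale.Agent.P229.OmBd

open scoped ContDiff
open MeasureTheory Metric

namespace Vale.Agent.P229
noncomputable section

theorem omg_wv_congr {φ φ' : Sm} {U : Set Pt} (hU : IsOpen U) (h : ∀ x ∈ U, φ.1 x = φ'.1 x) :
    ∀ x ∈ U, (wv φ).1 x = (wv φ').1 x := fun x hx => by
  simp only [wv, ev_neg, ev_add]
  rw [ds_congr hU (ds_congr hU h) x hx, dt_congr hU (dt_congr hU h) x hx]

theorem sol_congr {Λ r0 : ℝ} {φ φ' z : Sm} (hr0 : 0 < r0)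
    (h : ∀ x ∈ ball (0 : Pt) r0, φ.1 x = φ'.1 x) (hs : Sol Λ r0 φ z) : Sol Λ r0 φ' z := by
  have h1 := ds_congr isOpen_ball h
  have h2 := dt_congr isOpen_ball h
  have h3 := omg_wv_congr isOpen_ball h
  have hA' : ∀ x ∈ ball (0 : Pt) r0, (hA φ z).1 x = (hA φ' z).1 x := fun x hx => by
    simp only [hA, ev_add, ev_sub, ev_mul, h1 x hx, h2 x hx]
  have hB' : ∀ x ∈ ball (0 : Pt) r0, (hB φ z).1 x = (hB φ' z).1 x := fun x hx => by
    simp only [hB, ev_sub, ev_mul, h1 x hx, h2 x hx]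
  have hC' : ∀ x ∈ ball (0 : Pt) r0, (hC φ z).1 x = (hC φ' z).1 x := fun x hx => by
    simp only [hC, ev_add, ev_sub, ev_mul, h1 x hx, h2 x hx]
  have hE : ∀ x ∈ ball (0 : Pt) r0, (E1 φ z).1 x = (E1 φ' z).1 x := fun x hx => by
    simp only [E1, ev_sub, ev_mul, ev_ex, h x hx]
  refine ⟨hs.bd, hs.ds0, hs.dt0, hA' 0 (mem_ball_self hr0) ▸ hs.lo, fun x hx => ?_⟩
  have := hs.darb x hx
  simp only [ev_sub, ev_mul, ev_pow] at this ⊢
  rw [← hA' x hx, ← hB' x hx, ← hC' x hx, ← h3 x hx, ← hE x hx]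
  exact this

theorem omg_dv_sh (v : Pt) (a : ℝ) (f : Sm) : dv v (sh a f) = sh a (dv v f) :=
  Sm.ext' fun x => by
    show fderiv ℝ (fun y => f.1 (y + (a, 0))) x v = fderiv ℝ f.1 (x + (a, 0)) v
    rw [fderiv_comp_add_right]

theorem omg_wv_sh (a : ℝ) (f : Sm) (x : Pt) : (wv (sh a f)).1 x = (wv f).1 (x + (a, 0)) := by
  simp only [wv, ds, dt, omg_dv_sh, ev_neg, ev_add, ev_sh]

/-- bounds for all derivatives up to order `k` -/
def OmgD (k : ℕ) (f : Sm) (C : ℝ) : Prop := ∀ i ≤ k, ∀ x, ‖iteratedFDeriv ℝ i f.1 x‖ ≤ C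

theorem omg_cd (f : Sm) (i : ℕ) : ContDiff ℝ i f.1 := (Sm.cd f).of_le (by exact_mod_cast le_top)

theorem omg_ex {f : Sm} (h : HasCompactSupport f.1) (k : ℕ) : ∃ C, 0 ≤ C ∧ OmgD k f C := by
  have h1 : ∀ i : ℕ, ∃ C, ∀ x, ‖iteratedFDeriv ℝ i f.1 x‖ ≤ C := fun i =>
    (h.iteratedFDeriv (𝕜 := ℝ) i).exists_bound_of_continuous
      ((omg_cd f i).continuous_iteratedFDeriv le_rfl)
  choose C hC using h1
  have h0 : ∀ i, 0 ≤ C i := fun i => (norm_nonneg _).trans (hC i 0)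
  refine ⟨∑ i ∈ Finset.range (k + 1), C i, Finset.sum_nonneg fun i _ => h0 i, fun i hi x => ?_⟩
  exact (hC i x).trans (Finset.single_le_sum (fun i _ => h0 i)
    (Finset.mem_range.2 (Nat.lt_succ_of_le hi)))

theorem OmgD.add {k : ℕ} {f g : Sm} {C D : ℝ} (hf : OmgD k f C) (hg : OmgD k g D) :
    OmgD k (f + g) (C + D) := fun i hi x => by
  show ‖iteratedFDeriv ℝ i (f.1 + g.1) x‖ ≤ _
  rw [iteratedFDeriv_add_apply (omg_cd f i).contDiffAt (omg_cd g i).contDiffAt]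
  exact (norm_add_le _ _).trans (add_le_add (hf i hi x) (hg i hi x))

theorem OmgD.smul {k : ℕ} {f : Sm} {C a : ℝ} (hf : OmgD k f C) (ha : 0 ≤ a) :
    OmgD k (a • f) (a * C) := fun i hi x => by
  show ‖iteratedFDeriv ℝ i (a • f.1) x‖ ≤ _
  rw [iteratedFDeriv_const_smul_apply (omg_cd f i).contDiffAt, norm_smul, Real.norm_of_nonneg ha]
  exact mul_le_mul_of_nonneg_left (hf i hi x) ha

theorem OmgD.sh {k : ℕ} {f : Sm} {C : ℝ} (hf : OmgD k f C) (a : ℝ) : OmgD k (sh a f) C :=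
  fun i hi x => by
    show ‖iteratedFDeriv ℝ i (fun y => f.1 (y + (a, 0))) x‖ ≤ _
    rw [iteratedFDeriv_comp_add_right]
    exact hf i hi _

theorem OmgD.mono {k : ℕ} {f : Sm} {C D : ℝ} (hf : OmgD k f C) (h : C ≤ D) : OmgD k f D :=
  fun i hi x => (hf i hi x).trans h

theorem OmgD.scl {k : ℕ} {f : Sm} {C a τ : ℝ} (hf : OmgD k f C) (ha : 0 ≤ a) (hτ : 0 < τ)
    (hτ1 : τ ≤ 1) : OmgD k (scl a τ f) (a * (τ⁻¹ ^ k * C)) := by
  have h1 : OmgD k (Vale.Agent.P229.scl 1 τ f) (τ⁻¹ ^ k * C) := fun i hi x => by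
    have e : (Vale.Agent.P229.scl 1 τ f).1 = fun y => f.1 (τ⁻¹ • y) := funext fun y => one_mul _
    rw [e, iteratedFDeriv_comp_const_smul _ (omg_cd f i), norm_smul,
      Real.norm_of_nonneg (by positivity)]
    exact mul_le_mul (pow_le_pow_right₀ (one_le_inv₀ hτ |>.2 hτ1) hi) (hf i hi _) (norm_nonneg _)
      (by positivity)
  have e : Vale.Agent.P229.scl a τ f = a • Vale.Agent.P229.scl 1 τ f :=
    Sm.ext' fun y => by
      show a * f.1 (τ⁻¹ • y) = a * (1 * f.1 (τ⁻¹ • y))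
      rw [one_mul]
  rw [e]
  exact h1.smul ha

/-- the base profile -/
def omgB : Sm := cT - cst (1 / 12) * cT ^ 4

theorem omg_bmp {k : ℕ} {C cB η : ℝ} (hC0 : 0 ≤ C) (hC : OmgD k B0 C) (hη : 0 < η) (h1 : η ≤ cB)
    (h2 : cB ≤ 1) : OmgD k (bmp (η ^ (32 * (2 * k + 20))) (cB * η ^ 32)) (η * C) := by
  have hη1 : η ≤ 1 := h1.trans h2
  have hcB : 0 < cB := hη.trans_le h1
  have h32 : η ^ 32 ≤ 1 := pow_le_one₀ hη.le hη1
  have hτ1 : cB * η ^ 32 ≤ 1 := mul_le_one₀ h2 (by positivity) h32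
  have hτ : η ^ 33 ≤ cB * η ^ 32 := by
    rw [pow_succ']; exact mul_le_mul_of_nonneg_right h1 (by positivity)
  rw [bmp_eq]
  refine (hC.scl (by positivity) (by positivity) hτ1).mono ?_
  rw [← mul_assoc]
  refine mul_le_mul_of_nonneg_right ?_ hC0
  have h3 : (cB * η ^ 32)⁻¹ ^ k ≤ (η ^ 33)⁻¹ ^ k :=
    pow_le_pow_left₀ (by positivity) (inv_anti₀ (by positivity) hτ) k
  have h4 : (cB * η ^ 32) ^ 2 ≤ 1 := pow_le_one₀ (by positivity) hτ1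
  calc η ^ (32 * (2 * k + 20)) * (cB * η ^ 32) ^ 2 * (cB * η ^ 32)⁻¹ ^ k
      ≤ η ^ (32 * (2 * k + 20)) * 1 * (η ^ 33)⁻¹ ^ k := by gcongr
    _ = η ^ (31 * k + 640) := by
        rw [show 32 * (2 * k + 20) = (31 * k + 640) + 33 * k by ring, pow_add η _ (33 * k),
          pow_mul η 33 k, inv_pow]
        field_simp
    _ ≤ η := pow_le_of_le_one hη.le hη1 (by omega)

theorem omg_piece (j : ℕ) {r : ℝ} (hr : 0 < r) {Λ r0 : ℝ} (h : NoSol Λ r0 (2 * j + 20)) :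
    ∃ ϖ ψ : Sm, OmgD j ψ ((1 / 2 : ℝ) ^ j) ∧ (∀ x, x ∉ ball (0 : Pt) r → ψ.1 x = 0) ∧
      (∀ x ∈ closedBall (0 : Pt) (r / 2), omgB.1 x + ψ.1 x = ϖ.1 x) ∧
      -(1 / 8 : ℝ) ^ j ≤ (wv ϖ).1 0 ∧ ∀ z, ¬ Sol Λ r0 ϖ z := by
  obtain ⟨cB, hcB, hcB1, μ0, hμ0, h⟩ := h
  obtain ⟨ζ, hζ⟩ := exists_isCut hr
  obtain ⟨A, hA⟩ := om_bd (2 * j + 20) (by omega)
  set f1 : Sm := cst (1 / 12) * cT ^ 4 - cst (1 / 2) * (cS ^ 2 * cT ^ 2) with hf1
  set f2 : Sm := cst (1 / 2) * cT ^ 2 with hf2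
  obtain ⟨C1, hC1, h1⟩ := omg_ex (f := ζ * f1) hζ.cpt.mul_right j
  obtain ⟨C2, hC2, h2⟩ := omg_ex (f := ζ * f2) hζ.cpt.mul_right j
  obtain ⟨C0, hC0, h0⟩ := omg_ex B0_cut.cpt j
  obtain ⟨μ, hμ, hμa, hμb, hμc⟩ : ∃ μ : ℝ, 0 < μ ∧ μ ≤ μ0 ∧ μ ≤ 1 ∧
      μ * C1 ≤ (1 / 2 : ℝ) ^ j / 2 := by
    refine ⟨min (min μ0 1) ((1 / 2 : ℝ) ^ j / 2 / (C1 + 1)), by positivity,
      (min_le_left _ _).trans (min_le_left _ _), (min_le_left _ _).trans (min_le_right _ _), ?_⟩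
    refine (mul_le_mul_of_nonneg_right (min_le_right _ _) hC1).trans ?_
    rw [div_mul_eq_mul_div, div_le_iff₀ (by positivity)]
    exact mul_le_mul_of_nonneg_left (by linarith) (by positivity)
  obtain ⟨η0, hη0, h⟩ := h μ hμ hμa
  obtain ⟨η, hη, ha, hb, hc, hd, he⟩ : ∃ η : ℝ, 0 < η ∧ η ≤ η0 ∧ η ≤ cB ∧ η ≤ r / 2 ∧
      η * (C2 + C0) ≤ (1 / 2 : ℝ) ^ j / 2 ∧ η * (1 + |A|) ≤ (1 / 8 : ℝ) ^ j := by
    refine ⟨min (min η0 (min cB (r / 2)))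
      (min ((1 / 2 : ℝ) ^ j / 2 / (C2 + C0 + 1)) ((1 / 8 : ℝ) ^ j / (1 + |A|))), by positivity,
      (min_le_left _ _).trans (min_le_left _ _),
      (min_le_left _ _).trans ((min_le_right _ _).trans (min_le_left _ _)),
      (min_le_left _ _).trans ((min_le_right _ _).trans (min_le_right _ _)), ?_, ?_⟩
    · refine (mul_le_mul_of_nonneg_right ((min_le_right _ _).trans (min_le_left _ _))
        (by positivity)).trans ?_
      rw [div_mul_eq_mul_div, div_le_iff₀ (by positivity)]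
      exact mul_le_mul_of_nonneg_left (by linarith) (by positivity)
    · rw [← le_div_iff₀ (by positivity)]
      exact (min_le_right _ _).trans (min_le_right _ _)
  have hη1 : η ≤ 1 := hb.trans hcB1
  have h32 : η ^ 32 ≤ η := pow_le_of_le_one hη.le hη1 (by norm_num)
  have h64 : η ^ 64 ≤ η := pow_le_of_le_one hη.le hη1 (by norm_num)
  have hτ0 : 0 < cB * η ^ 32 := by positivity
  have hτ : cB * η ^ 32 ≤ r / 2 :=
    (mul_le_of_le_one_left (by positivity) hcB1).trans (h32.trans hc)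
  refine ⟨om μ η (2 * j + 20) cB, μ • (ζ * f1) + η ^ 32 • (ζ * f2) +
    bmp (η ^ (32 * (2 * j + 20))) (cB * η ^ 32), ?_, fun x hx => ?_, fun x hx => ?_, ?_,
    h η hη ha⟩
  · refine (((h1.smul hμ.le).add (h2.smul (by positivity))).add
      (omg_bmp hC0 h0 hη hb hcB1)).mono ?_
    have := mul_le_mul_of_nonneg_right h32 hC2
    linarith
  · have h3 : (bmp (η ^ (32 * (2 * j + 20))) (cB * η ^ 32)).1 x = 0 := by
      rw [bmp_eq]
      refine scl_zero sp1_B0 _ hτ0 ?_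
      rw [mem_ball_zero_iff, not_lt] at hx
      linarith
    simp only [ev_add, ev_smul, ev_mul, hζ.zero x hx, h3]
    ring
  · simp only [omgB, om, om0, hf1, hf2, ev_add, ev_sub, ev_smul, ev_mul, ev_pow, ev_cst,
      hζ.one x hx]
    ring
  · have h3 := (hA cB μ η hη hb hcB1 hμ hμb).2.1.1 0 (Set.mem_univ _)
    have h4 : (wq μ η).1 0 = -η ^ 32 := by simp [wq]
    rw [ev_sub, h4] at h3
    have h5 := (abs_le.1 h3).1
    have h6 : A * η ^ 64 ≤ |A| * η :=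
      mul_le_mul (le_abs_self A) h64 (by positivity) (abs_nonneg A)
    linarith

theorem omg_sep {i j : ℕ} (hij : i ≠ j) {s : ℝ} (hs : |s| < (1 / 2 : ℝ) ^ j / 8) :
    (1 / 2 : ℝ) ^ i / 4 ≤ |s + (1 / 2 : ℝ) ^ j + -(1 / 2 : ℝ) ^ i| := by
  have h1 := abs_lt.1 hs
  have hi : 0 < (1 / 2 : ℝ) ^ i := by positivity
  have hj : 0 < (1 / 2 : ℝ) ^ j := by positivity
  rcases lt_or_gt_of_ne hij with h | h
  · have h2 : (1 / 2 : ℝ) ^ j ≤ (1 / 2 : ℝ) ^ (i + 1) :=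
      pow_le_pow_of_le_one (by norm_num) (by norm_num) h
    rw [pow_succ] at h2
    exact le_abs.2 (Or.inr (by linarith))
  · have h2 : (1 / 2 : ℝ) ^ i ≤ (1 / 2 : ℝ) ^ (j + 1) :=
      pow_le_pow_of_le_one (by norm_num) (by norm_num) h
    rw [pow_succ] at h2
    exact le_abs.2 (Or.inl (by linarith))

theorem exists_goodOm
    (h : ∀ (Λ r0 : ℝ) (N : ℕ), 1 ≤ Λ → 0 < r0 → r0 ≤ 1 → 20 ≤ N → NoSol Λ r0 N) :
    ∃ φ : Sm, GoodOm φ := by
  have hp : ∀ j : ℕ, 0 < (1 / 2 : ℝ) ^ j := fun j => by positivity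
  choose ϖ ψ h1 h2 h3 h4 h5 using fun j : ℕ =>
    omg_piece j (r := (1 / 2 : ℝ) ^ j / 4) (by positivity)
      (h ((8 : ℝ) ^ j) ((1 / 2 : ℝ) ^ j / 8) (2 * j + 20) (one_le_pow₀ (by norm_num))
        (by positivity)
        (by have : (1 / 2 : ℝ) ^ j ≤ 1 := pow_le_one₀ (by norm_num) (by norm_num)
            linarith) (by omega))
  have hz : ∀ (i : ℕ) (x : Pt), (1 / 2 : ℝ) ^ i / 4 ≤ |x.1 + -(1 / 2 : ℝ) ^ i| →
      (sh (-(1 / 2 : ℝ) ^ i) (ψ i)).1 x = 0 := fun i x hx => by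
    refine h2 i _ ?_
    rw [mem_ball_zero_iff, not_lt, norm_pt]
    exact hx.trans (le_max_left _ _)
  have hS : ContDiff ℝ ∞ fun x => ∑' i, (sh (-(1 / 2 : ℝ) ^ i) (ψ i)).1 x := by
    refine contDiff_tsum_of_eventually (N := ⊤) (v := fun _ i => (1 / 2 : ℝ) ^ i)
      (fun i => Sm.cd _) (fun _ _ => summable_geometric_two) (fun k _ => ?_)
    rw [Nat.cofinite_eq_atTop]
    filter_upwards [Filter.eventually_ge_atTop k] with i hi x
    exact (h1 i).sh _ k hi x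
  have key : ∀ j : ℕ, ∀ x ∈ ball (0 : Pt) ((1 / 2 : ℝ) ^ j / 8),
      (sh ((1 / 2 : ℝ) ^ j) (omgB + mkS _ hS)).1 x = (ϖ j).1 x := by
    intro j x hx
    have hx1 : |x.1| < (1 / 2 : ℝ) ^ j / 8 := by
      rw [mem_ball_zero_iff, norm_pt] at hx
      exact (le_max_left _ _).trans_lt hx
    rw [← h3 j x (by
      rw [show (1 / 2 : ℝ) ^ j / 4 / 2 = (1 / 2 : ℝ) ^ j / 8 by ring]
      exact ball_subset_closedBall hx), ev_sh, ev_add, ev_mkS,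
      tsum_eq_single j fun i hi => hz i _ (omg_sep hi hx1), ev_sh]
    have e1 : x + ((1 / 2 : ℝ) ^ j, 0) + (-(1 / 2 : ℝ) ^ j, 0) = x := by ext <;> simp
    rw [e1]
    simp [omgB]
  refine ⟨omgB + mkS _ hS, fun x hx => ?_, fun j => ?_, fun j z hz => ?_⟩
  · have : ∀ i : ℕ, (sh (-(1 / 2 : ℝ) ^ i) (ψ i)).1 x = 0 := fun i =>
      hz i x (le_abs.2 (Or.inr (by linarith [hp i])))
    rw [ev_add, ev_mkS]
    simp only [this, tsum_zero, add_zero, omgB]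
  · have h6 := omg_wv_congr isOpen_ball (key j) 0 (mem_ball_self (by positivity))
    rw [omg_wv_sh, zero_add] at h6
    rw [h6]
    exact h4 j
  · exact h5 j z (sol_congr (by positivity) (key j) hz)

end
end Vale.Agent.P229
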