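import Vale.Agent.P229.Local
import Vale.Agent.P229.Omega
import Vale.Agent.P229.NoIso

open scoped ContDiff
open MeasureTheory Metric

namespace Vale.Agent.P229
noncomputable section

/-- a function smooth near the origin agrees near the origin with a globally smooth function -/
theorem exists_ext {V : Set Pt} (hV : IsOpen V) {r : ℝ} (hr : 0 < r)
    (hs : closedBall (0 : Pt) r ⊆ V) {f : Pt → ℝ} (hf : ContDiffOn ℝ ∞ f V) :
    ∃ g : Sm, ∀ q ∈ ball (0 : Pt) (r / 2), g.1 q = f q := by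
  obtain ⟨χ, hχ⟩ := exists_isCut hr
  refine ⟨mkS (fun q => χ.1 q * f q) (contDiff_iff_contDiffAt.mpr fun q => ?_), fun q hq => ?_⟩
  · by_cases hq : q ∈ V
    · exact (Sm.cd χ).contDiffAt.mul (hf.contDiffAt (hV.mem_nhds hq))
    · have h1 : q ∈ (closedBall (0 : Pt) r)ᶜ := fun h => hq (hs h)
      have h2 : (fun q => χ.1 q * f q) =ᶠ[nhds q] fun _ => 0 :=
        Filter.eventually_of_mem (isClosed_closedBall.isOpen_compl.mem_nhds h1) fun y hy => by
          have : χ.1 y = 0 := hχ.zero y fun h => hy (ball_subset_closedBall h)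
          simp [this]
      exact contDiffAt_const.congr_of_eventuallyEq h2
  · rw [ev_mkS, hχ.one q (ball_subset_closedBall hq), one_mul]

theorem no_immersion : ∃ φ : Sm, ∀ V : Set Pt, IsOpen V → (0 : Pt) ∈ V →
    ∀ F : Pt → EuclideanSpace ℝ (Fin 3), ContDiffOn ℝ ∞ F V →
      (∀ q ∈ V, inner ℝ (fderiv ℝ F q (1, 0)) (fderiv ℝ F q (1, 0)) = Real.exp (2 * φ.1 q)) →
      (∀ q ∈ V, inner ℝ (fderiv ℝ F q (1, 0)) (fderiv ℝ F q (0, 1)) = 0) →
      (∀ q ∈ V, inner ℝ (fderiv ℝ F q (0, 1)) (fderiv ℝ F q (0, 1)) = Real.exp (2 * φ.1 q)) →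
      False := by
  obtain ⟨φ, hφ⟩ := exists_goodOm fun Λ r0 N h1 h2 h3 h4 => noSol Λ r0 N h1 h2 h3 h4
  refine ⟨φ, fun V hV h0 F hF h1 h2 h3 => ?_⟩
  obtain ⟨r, hr, hs⟩ := nhds_basis_closedBall.mem_iff.mp (hV.mem_nhds h0)
  have hk : ∀ k : Fin 3, ∃ g : Sm, ∀ q ∈ ball (0 : Pt) (r / 2), ∀ v : Pt,
      (dv v g).1 q = fderiv ℝ F q v k := by
    intro k
    have hc : ContDiffOn ℝ ∞ (fun q => F q k) V :=
      (EuclideanSpace.proj (𝕜 := ℝ) k).contDiff.comp_contDiffOn hF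
    obtain ⟨g, hg⟩ := exists_ext hV hr hs hc
    refine ⟨g, fun q hq v => ?_⟩
    have hqV : q ∈ V := hs (ball_subset_closedBall (ball_subset_ball (by linarith) hq))
    have e : g.1 =ᶠ[nhds q] (EuclideanSpace.proj (𝕜 := ℝ) k) ∘ F :=
      Filter.eventually_of_mem (isOpen_ball.mem_nhds hq) hg
    have hd : DifferentiableAt ℝ F q :=
      (hF.contDiffAt (hV.mem_nhds hqV)).differentiableAt (by simp)
    rw [dv_ev, e.fderiv_eq, ((EuclideanSpace.proj (𝕜 := ℝ) k).hasFDerivAt.comp q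
      hd.hasFDerivAt).fderiv]
    rfl
  obtain ⟨x, hx⟩ := hk 0
  obtain ⟨y, hy⟩ := hk 1
  obtain ⟨z, hz⟩ := hk 2
  have hin : ∀ a b : EuclideanSpace ℝ (Fin 3), inner ℝ a b = a 0 * b 0 + a 1 * b 1 + a 2 * b 2 := by
    intro a b
    simp [PiLp.inner_apply, Fin.sum_univ_three, mul_comm]
  refine no_iso hφ (ρ := r / 2) (by positivity) x y z ⟨fun q hq => ?_, fun q hq => ?_, fun q hq => ?_⟩
  · have := h1 q (hs (ball_subset_closedBall (ball_subset_ball (by linarith) hq)))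
    rw [hin] at this
    simp only [ev_add, ev_pow, ev_ex, ev_mul, ev_two, ds, hx q hq, hy q hq, hz q hq]
    rw [← this]; ring
  · have := h2 q (hs (ball_subset_closedBall (ball_subset_ball (by linarith) hq)))
    rw [hin] at this
    simp only [ev_add, ev_mul, ds, dt, hx q hq, hy q hq, hz q hq]
    exact this
  · have := h3 q (hs (ball_subset_closedBall (ball_subset_ball (by linarith) hq)))
    rw [hin] at this
    simp only [ev_add, ev_pow, ev_ex, ev_mul, ev_two, dt, hx q hq, hy q hq, hz q hq]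
    rw [← this]; ring

/-- the statement on Euclidean two-space -/
theorem main : ∃ g : EuclideanSpace ℝ (Fin 2) → Matrix (Fin 2) (Fin 2) ℝ,
    (∀ i j, ContDiff ℝ ∞ fun x => g x i j) ∧ (∀ x, (g x).PosDef) ∧
    ∀ U : Set (EuclideanSpace ℝ (Fin 2)), IsOpen U → 0 ∈ U →
      ¬ ∃ F : EuclideanSpace ℝ (Fin 2) → EuclideanSpace ℝ (Fin 3), ContDiffOn ℝ ∞ F U ∧
        ∀ x ∈ U, ∀ i j, inner ℝ (fderiv ℝ F x (EuclideanSpace.single i 1))
          (fderiv ℝ F x (EuclideanSpace.single j 1)) = g x i j := by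
  obtain ⟨φ, hφ⟩ := no_immersion
  let L : EuclideanSpace ℝ (Fin 2) ≃L[ℝ] Pt :=
    (EuclideanSpace.equiv (Fin 2) ℝ).trans (ContinuousLinearEquiv.finTwoArrow ℝ ℝ)
  refine ⟨fun x => Matrix.diagonal fun _ => Real.exp (2 * φ.1 (L x)), fun i j => ?_, fun x => ?_,
    fun U hU h0 ⟨F, hF, hg⟩ => ?_⟩
  · by_cases h : i = j
    · subst h
      simp only [Matrix.diagonal_apply_eq]
      exact Real.contDiff_exp.comp (contDiff_const.mul ((Sm.cd φ).comp L.contDiff))
    · simp only [Matrix.diagonal_apply_ne _ h]; exact contDiff_const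
  · exact Matrix.PosDef.diagonal fun _ => Real.exp_pos _
  · have hV : IsOpen (L.symm ⁻¹' U) := hU.preimage L.symm.continuous
    have e0 : L.symm (1, 0) = EuclideanSpace.single 0 1 := by
      ext i; fin_cases i <;> simp [L]
    have e1 : L.symm (0, 1) = EuclideanSpace.single 1 1 := by
      ext i; fin_cases i <;> simp [L]
    have hd : ∀ q v : Pt, fderiv ℝ (F ∘ L.symm) q v = fderiv ℝ F (L.symm q) (L.symm v) := by
      intro q v
      rw [L.symm.comp_right_fderiv]; rfl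
    refine hφ (L.symm ⁻¹' U) hV (by simpa using h0) (F ∘ L.symm)
      (hF.comp L.symm.contDiff.contDiffOn fun q hq => hq) (fun q hq => ?_) (fun q hq => ?_)
      (fun q hq => ?_)
    · rw [hd, e0, hg _ hq]; simp
    · rw [hd, hd, e0, e1, hg _ hq]; simp
    · rw [hd, e1, hg _ hq]; simp

end
end Vale.Agent.P229
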