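import Vale.Agent.P229.Defs

open scoped ContDiff
open MeasureTheory Metric

namespace Vale.Agent.P229
noncomputable section

/-- the Gaussian `exp (-y² / (4 c²))` -/
def gauss_g (c y : ℝ) : ℝ := Real.exp (-(1 / (4 * c ^ 2)) * y ^ 2)

theorem gauss_int {c : ℝ} (hc : 0 < c) : Integrable (gauss_g c) :=
  integrable_exp_neg_mul_sq (by positivity)

theorem gauss_val {c : ℝ} (hc : 0 < c) : ∫ y, gauss_g c y ≤ 4 * c := by
  unfold gauss_g
  rw [integral_gaussian]
  have h1 : Real.pi / (1 / (4 * c ^ 2)) = Real.pi * (4 * c ^ 2) := by field_simp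
  rw [h1, Real.sqrt_le_iff]
  refine ⟨by positivity, ?_⟩
  have := Real.pi_le_four
  nlinarith [sq_nonneg c]

theorem gauss_nonneg (c y : ℝ) : 0 ≤ gauss_g c y := (Real.exp_pos _).le

theorem gauss_aff {c a : ℝ} (hc : 0 < c) (ha : 1 / 2 ≤ a) (b : ℝ) (S : Set ℝ) :
    ∫ s in S, gauss_g c (a * s + b) ≤ 8 * c := by
  have ha0 : a ≠ 0 := by linarith [show (0 : ℝ) < 1 / 2 by norm_num] |> fun h : 0 < a => h.ne'
  have i1 : Integrable fun y => gauss_g c (y + b) := (gauss_int hc).comp_add_right b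
  have i2 : Integrable fun s => gauss_g c (a * s + b) := i1.comp_mul_left' ha0
  have e1 : ∫ s, gauss_g c (a * s + b) = |a⁻¹| * ∫ y, gauss_g c y := by
    have := Measure.integral_comp_mul_left (fun y => gauss_g c (y + b)) a
    rw [this, integral_add_right_eq_self (gauss_g c) b, smul_eq_mul]
  have h2 : |a⁻¹| ≤ 2 := by
    have hp : 0 < a := by linarith
    rw [abs_of_pos (inv_pos.2 hp), inv_le_comm₀ hp (by norm_num)]
    linarith
  calc ∫ s in S, gauss_g c (a * s + b) ≤ ∫ s, gauss_g c (a * s + b) :=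
        setIntegral_le_integral i2 (Filter.Eventually.of_forall fun s => gauss_nonneg _ _)
    _ = |a⁻¹| * ∫ y, gauss_g c y := e1
    _ ≤ 2 * (4 * c) := mul_le_mul h2 (gauss_val hc)
        (integral_nonneg fun y => gauss_nonneg _ _) (by norm_num)
    _ = 8 * c := by ring

theorem gauss_box (r : ℝ) : closedBall (0 : Pt) r = Set.Icc (-r) r ×ˢ Set.Icc (-r) r := by
  ext x
  rw [mem_box, Set.mem_prod, Set.mem_Icc, Set.mem_Icc, abs_le, abs_le]

theorem gauss_split (σ : Sm) (η : ℝ) (hη : 0 < η) (s t : ℝ) :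
    gs σ η (s, t) = gauss_g (η ^ 16) t * gauss_g (η ^ 20) ((1 - (ds σ).1 0 * t) * s +
      (-(σ.1 0 * t) - ((dt σ).1 0 - σ.1 0 * (ds σ).1 0) / 2 * t ^ 2)) := by
  unfold gs gauss_g pp
  rw [← Real.exp_add]
  congr 1
  simp only [ev_sub, ev_mul, ev_pow, ev_cst, ev_cS, ev_cT]
  field_simp
  ring

theorem gauss_cont (σ : Sm) (η : ℝ) : Continuous (gs σ η) := by
  have := Sm.cont (pp σ)
  unfold gs
  fun_prop

theorem gauss (σ : Sm) (r η : ℝ) (hη : 0 < η) (h : |(ds σ).1 0| * r ≤ 1 / 2) :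
    ∫ x in closedBall (0 : Pt) r, gs σ η x ≤ 32 * η ^ 36 := by
  have hi : IntegrableOn (gs σ η) (closedBall (0 : Pt) r) := intOn (gauss_cont σ η) r
  rw [gauss_box] at hi ⊢
  have hi' : Integrable (gs σ η)
      ((volume.restrict (Set.Icc (-r) r)).prod (volume.restrict (Set.Icc (-r) r))) := by
    rw [Measure.prod_restrict, ← Measure.volume_eq_prod]
    exact hi
  have e : ∫ x in Set.Icc (-r) r ×ˢ Set.Icc (-r) r, gs σ η x =
      ∫ t in Set.Icc (-r) r, ∫ s in Set.Icc (-r) r, gs σ η (s, t) := by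
    rw [← integral_prod_symm _ hi', Measure.prod_restrict, ← Measure.volume_eq_prod]
  have h16 : 0 < η ^ 16 := by positivity
  have h20 : 0 < η ^ 20 := by positivity
  have b : ∀ t ∈ Set.Icc (-r) r, ∫ s in Set.Icc (-r) r, gs σ η (s, t) ≤
      gauss_g (η ^ 16) t * (8 * η ^ 20) := by
    intro t ht
    simp only [gauss_split σ η hη]
    rw [integral_const_mul]
    refine mul_le_mul_of_nonneg_left (gauss_aff h20 ?_ _ _) (gauss_nonneg _ _)
    have h1 : |t| ≤ r := abs_le.2 ht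
    have h2 : (ds σ).1 0 * t ≤ |(ds σ).1 0| * r := by
      calc (ds σ).1 0 * t ≤ |(ds σ).1 0 * t| := le_abs_self _
        _ = |(ds σ).1 0| * |t| := abs_mul _ _
        _ ≤ |(ds σ).1 0| * r := mul_le_mul_of_nonneg_left h1 (abs_nonneg _)
    linarith
  have i3 : Integrable fun t => gauss_g (η ^ 16) t * (8 * η ^ 20) := (gauss_int h16).mul_const _
  rw [e]
  have hpi : ∫ y, gauss_g (η ^ 16) y ≤ 4 * η ^ 16 := gauss_val h16
  calc ∫ t in Set.Icc (-r) r, ∫ s in Set.Icc (-r) r, gs σ η (s, t)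
      ≤ ∫ t in Set.Icc (-r) r, gauss_g (η ^ 16) t * (8 * η ^ 20) :=
        setIntegral_mono_on hi'.integral_prod_right i3.integrableOn measurableSet_Icc b
    _ ≤ ∫ t, gauss_g (η ^ 16) t * (8 * η ^ 20) :=
        setIntegral_le_integral i3 (Filter.Eventually.of_forall fun t =>
          mul_nonneg (gauss_nonneg _ _) (by positivity))
    _ = (∫ t, gauss_g (η ^ 16) t) * (8 * η ^ 20) := integral_mul_const _ _
    _ ≤ (4 * η ^ 16) * (8 * η ^ 20) := mul_le_mul_of_nonneg_right hpi (by positivity)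
    _ = 32 * η ^ 36 := by ring

end
end Vale.Agent.P229
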