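import Vale.Agent.P229.Ident

open scoped ContDiff
open MeasureTheory Metric

namespace Vale.Agent.P229
noncomputable section

variable {I : Type} {c : Ctx I} {n : ℕ} {f g : I → Sm}

theorem gd_H (hc : c.OK) (i : I) : 1 ≤ 1 / c.η i := by
  rw [le_div_iff₀ (hc.pos i), one_mul]; exact hc.le1 i

theorem gd_pow (hc : c.OK) (i : I) {a b : ℕ} (h : a ≤ b) : (1 / c.η i) ^ a ≤ (1 / c.η i) ^ b :=
  pow_le_pow_right₀ (gd_H hc i) h

theorem gd_pos (hc : c.OK) (i : I) (a : ℕ) : 0 < (1 / c.η i) ^ a :=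
  pow_pos (lt_of_lt_of_le one_pos (gd_H hc i)) a

theorem gd_ey_mono (N : ℕ) {a b : ℕ} (h : a ≤ b) : ey N a ≤ ey N b := by
  unfold ey; omega

theorem gd_ez_mono (N : ℕ) {a b : ℕ} (h : a ≤ b) : ez N a ≤ ez N b := by
  unfold ez ey; split_ifs <;> omega

theorem gd_ey_ge (N a : ℕ) : 62 ≤ ey N a := by
  unfold ey; omega

theorem gd_ez_ey {N n1 n2 n : ℕ} (hN : 20 ≤ N) (h0 : n1 ≤ n2) (h2 : n2 ≤ n)
    (h : n1 + n2 ≤ n + 4) : ez N n1 + ey N n2 ≤ ey N n := by
  unfold ez ey; split_ifs <;> omega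

theorem gd_ez_ez {N n1 n2 n : ℕ} (hN : 20 ≤ N) (h0 : n1 ≤ n2) (h2 : n2 ≤ n)
    (h : n1 + n2 ≤ n + 4) : ez N n1 + ez N n2 ≤ ez N n := by
  unfold ez ey; split_ifs <;> omega

theorem gd_int (hc : c.OK) (i : I) (f : Sm) :
    IntegrableOn (fun x => c.β i x * f.1 x ^ 2) (closedBall (0 : Pt) c.r) :=
  intOn ((hc.cont i).mul ((Sm.cont f).pow 2)) _

theorem gd_L2 (hc : c.OK) {A : ℝ} {a m : ℕ}
    (h : ∀ i, ∀ x ∈ closedBall (0 : Pt) c.r,
      |(f i).1 x| ≤ A * (1 / c.η i) ^ a * |(g i).1 x|) (hm : a + ey c.N m ≤ ey c.N n)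
    (hg : L2 c m g) : L2 c n f := by
  obtain ⟨C, hC⟩ := hg
  refine ⟨A ^ 2 * |C|, fun i => ?_⟩
  have h1 : ∫ x in closedBall (0 : Pt) c.r, c.β i x * (f i).1 x ^ 2 ≤
      ∫ x in closedBall (0 : Pt) c.r, (A * (1 / c.η i) ^ a) ^ 2 * (c.β i x * (g i).1 x ^ 2) := by
    refine setIntegral_mono_on (gd_int hc i _) ((gd_int hc i _).const_mul _)
      measurableSet_closedBall fun x hx => ?_
    have hb : 0 ≤ c.β i x := zero_le_one.trans (hc.one i x)
    have h2 : (f i).1 x ^ 2 ≤ (A * (1 / c.η i) ^ a * |(g i).1 x|) ^ 2 := by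
      rw [← sq_abs]
      exact pow_le_pow_left₀ (abs_nonneg _) (h i x hx) 2
    rw [mul_pow, sq_abs] at h2
    calc c.β i x * (f i).1 x ^ 2 ≤ c.β i x * ((A * (1 / c.η i) ^ a) ^ 2 * (g i).1 x ^ 2) :=
          mul_le_mul_of_nonneg_left h2 hb
      _ = _ := by ring
  rw [integral_const_mul] at h1
  have h3 : (1 / c.η i) ^ a * (1 / c.η i) ^ ey c.N m ≤ (1 / c.η i) ^ ey c.N n := by
    rw [← pow_add]; exact gd_pow hc i hm
  have h4 := gd_pos hc i a
  have h5 := gd_pos hc i (ey c.N m)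
  calc _ ≤ _ := h1
    _ ≤ (A * (1 / c.η i) ^ a) ^ 2 * (|C| * ((1 / c.η i) ^ ey c.N m) ^ 2) := by
        refine mul_le_mul_of_nonneg_left ((hC i).trans ?_) (sq_nonneg _)
        exact mul_le_mul_of_nonneg_right (le_abs_self C) (sq_nonneg _)
    _ = A ^ 2 * |C| * ((1 / c.η i) ^ a * (1 / c.η i) ^ ey c.N m) ^ 2 := by ring
    _ ≤ _ := by gcongr

theorem gd_Sup (hc : c.OK) {A : ℝ} {a m : ℕ}
    (h : ∀ i, ∀ x ∈ closedBall (0 : Pt) c.r,
      |(f i).1 x| ≤ A * (1 / c.η i) ^ a * |(g i).1 x|) (hm : a + ez c.N m ≤ ez c.N n)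
    (hg : Sup c m g) : Sup c n f := by
  obtain ⟨C, hC⟩ := hg
  refine ⟨|A| * |C|, fun i x hx => ?_⟩
  have h3 : (1 / c.η i) ^ a * (1 / c.η i) ^ ez c.N m ≤ (1 / c.η i) ^ ez c.N n := by
    rw [← pow_add]; exact gd_pow hc i hm
  have h4 := gd_pos hc i a
  have h5 := gd_pos hc i (ez c.N m)
  have h6 : |(g i).1 x| ≤ |C| * (1 / c.η i) ^ ez c.N m :=
    (hC i x hx).trans (mul_le_mul_of_nonneg_right (le_abs_self C) h5.le)
  calc _ ≤ _ := h i x hx
    _ ≤ |A| * (1 / c.η i) ^ a * (|C| * (1 / c.η i) ^ ez c.N m) := by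
        gcongr
        exact le_abs_self A
    _ = |A| * |C| * ((1 / c.η i) ^ a * (1 / c.η i) ^ ez c.N m) := by ring
    _ ≤ _ := by gcongr

theorem good_of_le (hc : c.OK) {A : ℝ}
    (h : ∀ i, ∀ x ∈ closedBall (0 : Pt) c.r, |(f i).1 x| ≤ A * |(g i).1 x|) (hg : Good c n g) :
    Good c n f :=
  ⟨fun hn => gd_L2 hc (A := A) (a := 0) (by simpa using h) (by simp) (hg.1 hn),
    fun hn => gd_Sup hc (A := A) (a := 0) (by simpa using h) (by simp) (hg.2 hn)⟩
theorem good_congr (hc : c.OK) (h : ∀ i, ∀ x ∈ closedBall (0 : Pt) c.r, (f i).1 x = (g i).1 x)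
    (hg : Good c n g) : Good c n f :=
  good_of_le hc (A := 1) (fun i x hx => by rw [h i x hx, one_mul]) hg
theorem good_of_bnd (hc : c.OK) (hf : Bnd c f) : Good c n f := by
  obtain ⟨C, hC⟩ := hf
  obtain ⟨B, hB⟩ := hc.big
  refine ⟨fun _ => ⟨(volume : Measure Pt).real (closedBall (0 : Pt) c.r) * (|B| * C ^ 2),
    fun i => ?_⟩, fun _ => ⟨|C|, fun i x hx => ?_⟩⟩
  · have h1 : ∫ x in closedBall (0 : Pt) c.r, c.β i x * (f i).1 x ^ 2 ≤
        ∫ _ in closedBall (0 : Pt) c.r, |B| * C ^ 2 * ((1 / c.η i) ^ ey c.N n) ^ 2 := by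
      refine setIntegral_mono_on (gd_int hc i _) (intOn continuous_const _)
        measurableSet_closedBall fun x hx => ?_
      have h2 : (f i).1 x ^ 2 ≤ C ^ 2 := by
        rw [← sq_abs]
        exact pow_le_pow_left₀ (abs_nonneg _) (hC i x hx) 2
      have h3 : (1 / c.η i) ^ 56 ≤ ((1 / c.η i) ^ ey c.N n) ^ 2 := by
        rw [← pow_mul]
        exact gd_pow hc i (by have := gd_ey_ge c.N n; omega)
      have h4 : c.β i x ≤ |B| * ((1 / c.η i) ^ ey c.N n) ^ 2 :=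
        (hB i x hx).trans (mul_le_mul (le_abs_self B) h3 (gd_pos hc i _).le (abs_nonneg B))
      calc c.β i x * (f i).1 x ^ 2 ≤ |B| * ((1 / c.η i) ^ ey c.N n) ^ 2 * C ^ 2 :=
            mul_le_mul h4 h2 (sq_nonneg _) (by positivity)
        _ = _ := by ring
    rw [setIntegral_const, smul_eq_mul] at h1
    calc _ ≤ _ := h1
      _ = _ := by ring
  · have h1 : 1 ≤ (1 / c.η i) ^ ez c.N n := one_le_pow₀ (gd_H hc i)
    calc _ ≤ |C| * 1 := by rw [mul_one]; exact (hC i x hx).trans (le_abs_self C)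
      _ ≤ _ := by gcongr
theorem good_zero (hc : c.OK) : Good c n fun _ => 0 :=
  good_of_bnd hc ⟨0, fun _ _ _ => by simp⟩
theorem Good.add (hc : c.OK) (hf : Good c n f) (hg : Good c n g) : Good c n fun i => f i + g i := by
  refine ⟨fun hn => ?_, fun hn => ?_⟩
  · obtain ⟨C, hC⟩ := hf.1 hn
    obtain ⟨D, hD⟩ := hg.1 hn
    refine ⟨2 * C + 2 * D, fun i => ?_⟩
    have h1 : ∫ x in closedBall (0 : Pt) c.r, c.β i x * (f i + g i).1 x ^ 2 ≤
        ∫ x in closedBall (0 : Pt) c.r,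
          (2 * (c.β i x * (f i).1 x ^ 2) + 2 * (c.β i x * (g i).1 x ^ 2)) := by
      refine setIntegral_mono_on (gd_int hc i _)
        (((gd_int hc i _).const_mul _).add ((gd_int hc i _).const_mul _))
        measurableSet_closedBall fun x _ => ?_
      have hb : 0 ≤ c.β i x := zero_le_one.trans (hc.one i x)
      rw [ev_add]
      nlinarith [mul_nonneg hb (sq_nonneg ((f i).1 x - (g i).1 x))]
    rw [integral_add ((gd_int hc i _).const_mul _) ((gd_int hc i _).const_mul _),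
      integral_const_mul, integral_const_mul] at h1
    nlinarith [hC i, hD i]
  · obtain ⟨C, hC⟩ := hf.2 hn
    obtain ⟨D, hD⟩ := hg.2 hn
    refine ⟨C + D, fun i x hx => ?_⟩
    rw [ev_add, add_mul]
    exact (abs_add_le _ _).trans (add_le_add (hC i x hx) (hD i x hx))
theorem Good.neg (hc : c.OK) (hf : Good c n f) : Good c n fun i => -f i :=
  good_of_le hc (A := 1) (fun i x _ => by simp) hf
theorem Good.sub (hc : c.OK) (hf : Good c n f) (hg : Good c n g) : Good c n fun i => f i - g i := by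
  simp only [sub_eq_add_neg]
  exact hf.add hc (hg.neg hc)
theorem Good.smul (hc : c.OK) (a : ℝ) (hf : Good c n f) : Good c n fun i => a • f i :=
  good_of_le hc (A := |a|) (fun i x _ => by rw [ev_smul, abs_mul]) hf
theorem Good.bnd_mul (hc : c.OK) (hg : Bnd c g) (hf : Good c n f) :
    Good c n fun i => g i * f i := by
  obtain ⟨C, hC⟩ := hg
  refine good_of_le hc (A := C) (fun i x hx => ?_) hf
  rw [ev_mul, abs_mul]
  exact mul_le_mul_of_nonneg_right (hC i x hx) (abs_nonneg _)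
theorem Good.mono (hc : c.OK) {n' : ℕ} (h : n ≤ n') (hf : Good c n f) : Good c n' f :=
  ⟨fun hn => gd_L2 hc (A := 1) (a := 0) (by simp) (by simpa using gd_ey_mono _ h)
      (hf.1 (h.trans hn)),
    fun hn => gd_Sup hc (A := 1) (a := 0) (by simp) (by simpa using gd_ez_mono _ h)
      (hf.2 (by omega))⟩
theorem good_sum (hc : c.OK) {α : Type} (s : Finset α) {F : α → I → Sm}
    (h : ∀ a ∈ s, Good c n (F a)) : Good c n fun i => ∑ a ∈ s, F a i := by
  classical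
  induction s using Finset.induction_on with
  | empty => simpa using good_zero hc
  | insert a s ha ih =>
    simp only [Finset.sum_insert ha]
    exact (h a (Finset.mem_insert_self _ _)).add hc
      (ih fun b hb => h b (Finset.mem_insert_of_mem hb))

theorem gd_mul (hc : c.OK) {n1 n2 : ℕ} (hf : Good c n1 f) (hg : Good c n2 g) (h1 : n1 ≤ n2)
    (h2 : n2 ≤ n) (h : n1 + n2 ≤ n + 4) : Good c n fun i => f i * g i := by
  have key : Sup c n1 f → ∃ A : ℝ, ∀ i, ∀ x ∈ closedBall (0 : Pt) c.r,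
      |(f i * g i).1 x| ≤ A * (1 / c.η i) ^ ez c.N n1 * |(g i).1 x| := fun ⟨C, hC⟩ =>
    ⟨C, fun i x hx => by
      rw [ev_mul, abs_mul]
      exact mul_le_mul_of_nonneg_right (hC i x hx) (abs_nonneg _)⟩
  refine ⟨fun hn => ?_, fun hn => ?_⟩
  · obtain ⟨A, hA⟩ := key (hf.2 (by omega))
    exact gd_L2 hc hA (gd_ez_ey hc.hN h1 h2 h) (hg.1 (by omega))
  · obtain ⟨A, hA⟩ := key (hf.2 (by omega))
    exact gd_Sup hc hA (gd_ez_ez hc.hN h1 h2 h) (hg.2 (by omega))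

/-- the product lemma -/
theorem Good.mul (hc : c.OK) {n1 n2 : ℕ} (hf : Good c n1 f) (hg : Good c n2 g) (h1 : n1 ≤ n)
    (h2 : n2 ≤ n) (h : n1 + n2 ≤ n + 4) : Good c n fun i => f i * g i := by
  rcases le_total n1 n2 with h0 | h0
  · exact gd_mul hc hf hg h0 h2 h
  · simp only [fun i => mul_comm (f i) (g i)]
    exact gd_mul hc hg hf h0 h1 (by omega)
theorem Bnd.mul (hf : Bnd c f) (hg : Bnd c g) : Bnd c fun i => f i * g i := by
  obtain ⟨C, hC⟩ := hf
  obtain ⟨D, hD⟩ := hg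
  refine ⟨C * D, fun i x hx => ?_⟩
  rw [ev_mul, abs_mul]
  exact mul_le_mul (hC i x hx) (hD i x hx) (abs_nonneg _) ((abs_nonneg _).trans (hC i x hx))
theorem Bnd.add (hf : Bnd c f) (hg : Bnd c g) : Bnd c fun i => f i + g i := by
  obtain ⟨C, hC⟩ := hf
  obtain ⟨D, hD⟩ := hg
  refine ⟨C + D, fun i x hx => ?_⟩
  rw [ev_add]
  exact (abs_add_le _ _).trans (add_le_add (hC i x hx) (hD i x hx))
theorem bnd_const (h : Sm) : Bnd c fun _ => h := by
  obtain ⟨X, hX⟩ := exists_bound_box h c.r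
  exact ⟨X, fun _ => hX⟩
theorem Good.bnd (hf : Good c n f) (hn : n ≤ 8) : Bnd c f := by
  obtain ⟨C, hC⟩ := hf.2 (Or.inl hn)
  refine ⟨C, fun i x hx => ?_⟩
  have := hC i x hx
  rwa [ez, if_pos hn, pow_zero, mul_one] at this

end
end Vale.Agent.P229
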