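import Vale.Agent.P229.Defs

/-! The multiplier identity. -/

open scoped ContDiff
open MeasureTheory Metric

namespace Vale.Agent.P229
noncomputable section

theorem ds_two : ds (2 : Sm) = 0 := by
  have : (2 : Sm) = cst 2 := Sm.ext' fun _ => rfl
  rw [this, ds_cst]
theorem dt_two : dt (2 : Sm) = 0 := by
  have : (2 : Sm) = cst 2 := Sm.ext' fun _ => rfl
  rw [this, dt_cst]

theorem ident_ring (σ k g1 g2 mb ma mc u : Sm) :
    2 * (Lgen σ k g1 g2 u * (mb * ds u + ma * T σ u + mc * u)) =
      dt (2 * (mb * ds u * T σ u) + ma * (T σ u * T σ u) - ma * k * (ds u * ds u)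
          + 2 * (mc * u * T σ u))
      + ds (σ * (2 * (mb * ds u * T σ u) + ma * (T σ u * T σ u) - ma * k * (ds u * ds u)
          + 2 * (mc * u * T σ u)) - mb * (T σ u * T σ u) + mb * k * (ds u * ds u)
          + 2 * (ma * k * T σ u * ds u) + 2 * (mc * u * k * ds u))
      + (Qqq σ g1 mb ma mc * T σ u ^ 2 + Qqy σ k g1 g2 mb ma * (T σ u * ds u)
        + Qyy σ k g2 mb ma mc * ds u ^ 2 + u * (Lq σ g1 mc * T σ u + Ly k g2 mc * ds u)) := by
  simp only [Lgen, Qqq, Qqy, Qyy, Lq, Ly, T, map_add, map_sub, ds_mul, dt_mul, dt_ds, ds_two, dt_two]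
  ring

theorem cs_mul_left (f : Sm) {g : Sm} (h : HasCompactSupport g.1) : HasCompactSupport (f * g).1 :=
  HasCompactSupport.mul_left (f := f.1) h
theorem cs_mul_right {f : Sm} (g : Sm) (h : HasCompactSupport f.1) : HasCompactSupport (f * g).1 :=
  HasCompactSupport.mul_right (f' := g.1) h
theorem cs_add {f g : Sm} (h : HasCompactSupport f.1) (h' : HasCompactSupport g.1) :
    HasCompactSupport (f + g).1 := HasCompactSupport.add h h'
theorem cs_neg {f : Sm} (h : HasCompactSupport f.1) : HasCompactSupport (-f).1 :=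
  HasCompactSupport.neg h
theorem cs_sub {f g : Sm} (h : HasCompactSupport f.1) (h' : HasCompactSupport g.1) :
    HasCompactSupport (f - g).1 := by
  rw [sub_eq_add_neg]; exact cs_add h (cs_neg h')
theorem cs_ds {f : Sm} (h : HasCompactSupport f.1) : HasCompactSupport (ds f).1 := dv_compact _ h
theorem cs_dt {f : Sm} (h : HasCompactSupport f.1) : HasCompactSupport (dt f).1 := dv_compact _ h
theorem cs_T (σ : Sm) {f : Sm} (h : HasCompactSupport f.1) : HasCompactSupport (T σ f).1 :=
  cs_add (cs_dt h) (cs_mul_left σ (cs_ds h))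

/-- integrated form: if `A = dt J₁ + ds J₂ + B` with compactly supported `J₁, J₂, A`, the
integrals of `A` and `B` agree -/
theorem integral_eq_of_div {A B J1 J2 : Sm} (h : A = dt J1 + ds J2 + B)
    (h1 : HasCompactSupport J1.1) (h2 : HasCompactSupport J2.1) (hA : HasCompactSupport A.1) :
    ∫ x, A.1 x = ∫ x, B.1 x := by
  have hB : B = A - dt J1 - ds J2 := by rw [h]; ring
  have e : ∀ x, B.1 x = A.1 x - (dt J1).1 x - (ds J2).1 x := fun x => by rw [hB]; rfl
  simp_rw [e]
  rw [integral_sub (f := fun x => A.1 x - (dt J1).1 x)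
    ((integrable_of_compact hA).sub (integrable_of_compact (cs_dt h1)))
    (integrable_of_compact (cs_ds h2)),
    integral_sub (integrable_of_compact hA) (integrable_of_compact (cs_dt h1)),
    integral_ds h2, integral_dt h1]
  ring

theorem ident (σ k g1 g2 mb ma mc u : Sm) (hb : HasCompactSupport mb.1)
    (ha : HasCompactSupport ma.1) (hc : HasCompactSupport mc.1) :
    ∫ x, (2 * (Lgen σ k g1 g2 u * (mb * ds u + ma * T σ u + mc * u))).1 x =
    ∫ x, (Qqq σ g1 mb ma mc * T σ u ^ 2 + Qqy σ k g1 g2 mb ma * (T σ u * ds u)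
        + Qyy σ k g2 mb ma mc * ds u ^ 2 + u * (Lq σ g1 mc * T σ u + Ly k g2 mc * ds u)).1 x := by
  have h1 : HasCompactSupport (2 * (mb * ds u * T σ u) + ma * (T σ u * T σ u)
      - ma * k * (ds u * ds u) + 2 * (mc * u * T σ u)).1 :=
    cs_add (cs_sub (cs_add (cs_mul_left _ (cs_mul_right _ (cs_mul_right _ hb))) (cs_mul_right _ ha))
      (cs_mul_right _ (cs_mul_right _ ha))) (cs_mul_left _ (cs_mul_right _ (cs_mul_right _ hc)))
  refine integral_eq_of_div (ident_ring σ k g1 g2 mb ma mc u) h1 ?_ ?_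
  · exact cs_add (cs_add (cs_add (cs_sub (cs_mul_left _ h1) (cs_mul_right _ hb))
      (cs_mul_right _ (cs_mul_right _ hb)))
      (cs_mul_left _ (cs_mul_right _ (cs_mul_right _ (cs_mul_right _ ha)))))
      (cs_mul_left _ (cs_mul_right _ (cs_mul_right _ (cs_mul_right _ hc))))
  · exact cs_mul_left _ (cs_mul_left _ (cs_add (cs_add (cs_mul_right _ hb) (cs_mul_right _ ha))
      (cs_mul_right _ hc)))

end
end Vale.Agent.P229
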