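import Vale.Agent.P229.Adj

open scoped ContDiff
open MeasureTheory Metric

namespace Vale.Agent.P229
noncomputable section

theorem ev_scl (a τ : ℝ) (g : Sm) (x : Pt) : (scl a τ g).1 x = a * g.1 (τ⁻¹ • x) := rfl

theorem dv_scl (v : Pt) (a : ℝ) {τ : ℝ} (_hτ : 0 < τ) (g : Sm) :
    dv v (scl a τ g) = scl (a / τ) τ (dv v g) := Sm.ext' fun x => by
  have h1 : HasFDerivAt (fun y : Pt => τ⁻¹ • y) (τ⁻¹ • ContinuousLinearMap.id ℝ Pt) x :=
    (hasFDerivAt_id x).const_smul τ⁻¹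
  have h2 := ((Sm.diff g (τ⁻¹ • x)).hasFDerivAt.comp x h1).const_mul a
  rw [dv_ev, ev_scl, dv_ev]
  have h3 : fderiv ℝ (scl a τ g).1 x = _ := h2.fderiv
  rw [h3]
  simp only [ContinuousLinearMap.smul_apply, ContinuousLinearMap.comp_apply,
    ContinuousLinearMap.id_apply, map_smul, smul_eq_mul]
  ring
theorem ds_scl (a : ℝ) {τ : ℝ} (hτ : 0 < τ) (g : Sm) : ds (scl a τ g) = scl (a / τ) τ (ds g) :=
  dv_scl _ a hτ g
theorem dt_scl (a : ℝ) {τ : ℝ} (hτ : 0 < τ) (g : Sm) : dt (scl a τ g) = scl (a / τ) τ (dt g) :=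
  dv_scl _ a hτ g
theorem dsn_scl (j : ℕ) (a : ℝ) {τ : ℝ} (hτ : 0 < τ) (g : Sm) :
    dsn j (scl a τ g) = scl (a / τ ^ j) τ (dsn j g) := by
  induction j with
  | zero => simp
  | succ j ih => rw [dsn_succ, ih, ds_scl _ hτ, dsn_succ, div_div, pow_succ]
theorem wv_bmp (δ : ℝ) {τ : ℝ} (hτ : 0 < τ) : wv (bmp δ τ) = scl δ τ (wv B0) := by
  rw [bmp_eq, wv, ds_scl _ hτ, ds_scl _ hτ, dt_scl _ hτ, dt_scl _ hτ]
  refine Sm.ext' fun x => ?_
  simp only [wv, ev_neg, ev_add, ev_scl]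
  field_simp
/-- functions vanishing outside the open unit box -/
def Sp1 (g : Sm) : Prop := ∀ x : Pt, 1 < ‖x‖ → g.1 x = 0
theorem sp1_B0 : Sp1 B0 := fun x hx => B0_cut.zero x (by
  rw [mem_ball_zero_iff]; linarith)
theorem scl_open : IsOpen {x : Pt | 1 < ‖x‖} := isOpen_lt continuous_const continuous_norm
theorem Sp1.ds {g : Sm} (h : Sp1 g) : Sp1 (ds g) := ds_zero_of scl_open h
theorem Sp1.dt {g : Sm} (h : Sp1 g) : Sp1 (dt g) := dt_zero_of scl_open h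
theorem Sp1.dsn {g : Sm} (h : Sp1 g) (j : ℕ) : Sp1 (dsn j g) := by
  induction j with
  | zero => exact h
  | succ j ih => rw [dsn_succ]; exact ih.ds
theorem Sp1.wv {g : Sm} (h : Sp1 g) : Sp1 (wv g) := fun x hx => by
  show -((P229.ds (P229.ds g)).1 x + (P229.dt (P229.dt g)).1 x) = 0
  rw [h.ds.ds x hx, h.dt.dt x hx]; simp
theorem Sp1.cpt {g : Sm} (h : Sp1 g) : HasCompactSupport g.1 :=
  HasCompactSupport.intro (isCompact_closedBall (0 : Pt) 1) fun x hx => h x (by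
    rw [mem_closedBall_zero_iff] at hx; exact not_le.mp hx)
theorem scl_zero {g : Sm} (h : Sp1 g) (a : ℝ) {τ : ℝ} (hτ : 0 < τ) {x : Pt} (hx : τ < ‖x‖) :
    (scl a τ g).1 x = 0 := by
  rw [ev_scl, h _ (by
    rw [norm_smul, Real.norm_eq_abs, abs_of_pos (inv_pos.mpr hτ), inv_mul_eq_div, one_lt_div hτ]
    exact hx), mul_zero]
theorem scl_cpt {g : Sm} (h : Sp1 g) (a : ℝ) {τ : ℝ} (hτ : 0 < τ) :
    HasCompactSupport (scl a τ g).1 :=
  HasCompactSupport.intro (isCompact_closedBall (0 : Pt) τ) fun x hx => scl_zero h a hτ (by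
    rw [mem_closedBall_zero_iff] at hx; exact not_le.mp hx)
theorem scl_bound {g : Sm} (h : Sp1 g) : ∃ C : ℝ, 0 ≤ C ∧ ∀ (a τ : ℝ) (x : Pt),
    |(scl a τ g).1 x| ≤ C * |a| := by
  obtain ⟨C, hC⟩ := exists_bound_compact h.cpt
  refine ⟨C, (abs_nonneg _).trans (hC 0), fun a τ x => ?_⟩
  rw [ev_scl, abs_mul, mul_comm]
  gcongr; exact hC _
theorem integral_scl (F : ℝ → ℝ) (a : ℝ) {τ : ℝ} (hτ : 0 < τ) (g : Sm) :
    ∫ x, F ((scl a τ g).1 x) = τ ^ 2 * ∫ x, F (a * g.1 x) := by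
  have := Measure.integral_comp_inv_smul_of_nonneg (volume : Measure Pt)
    (fun x => F (a * g.1 x)) hτ.le
  simp only [Module.finrank_prod, Module.finrank_self, smul_eq_mul] at this
  exact this
theorem wv_om (μ η : ℝ) (N : ℕ) (cB : ℝ) :
    wv (om μ η N cB) = wq μ η + wv (bmp (η ^ (32 * N)) (cB * η ^ 32)) := by
  have h3 : ds (3 : Sm) = 0 := ds_cst 3
  have h4 : ds (4 : Sm) = 0 := ds_cst 4
  have h3' : dt (3 : Sm) = 0 := dt_cst 3
  have h4' : dt (4 : Sm) = 0 := dt_cst 4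
  have : wv (om0 μ (η ^ 32)) = wq μ η := by
    simp only [wv, om0, wq, map_add, map_sub, ds_mul, dt_mul, ds_sq, dt_sq, ds_cube, dt_cube, ds_four,
      dt_four, ds_cst, dt_cst, ds_cS, dt_cS, ds_cT, dt_cT, ds_one, dt_one, ds_two, dt_two, map_zero,
      h3, h4, h3', h4']
    refine Sm.ext' fun x => ?_
    simp only [ev_add, ev_sub, ev_mul, ev_neg, ev_pow, ev_cst, ev_cS, ev_cT, ev_zero, ev_one, ev_two,
      ev_three, ev_four]
    ring
  rw [← this]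
  simp only [wv, om, map_add]; ring
theorem dsn_wq (μ η : ℝ) {j : ℕ} (hj : 3 ≤ j) : dsn j (wq μ η) = 0 := by
  obtain ⟨i, rfl⟩ : ∃ i, j = i + 1 + 1 + 1 := ⟨j - 3, by omega⟩
  rw [dsn_succ', dsn_succ', dsn_succ']
  have : ds (ds (ds (wq μ η))) = 0 := by
    simp only [wq, map_add, map_sub, ds_mul, ds_sq, ds_cst, ds_cS, ds_cT, ds_one, ds_two, map_zero,
      mul_zero, mul_one, add_zero, zero_add, sub_zero]
  rw [this, map_zero]
theorem integral_B0_pos : 0 < ∫ x, B0.1 x := by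
  refine (Sm.cont B0).integral_pos_of_hasCompactSupport_nonneg_nonzero B0_cut.cpt
    (fun x => (B0_cut.mem x).1) (x := 0) ?_
  rw [B0_cut.one 0 (mem_closedBall_self (by norm_num))]; norm_num

end
end Vale.Agent.P229
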