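import Vale.Agent.P229.Tay
import Vale.Agent.P229.Scl
import Vale.Agent.P229.Adj

open scoped ContDiff
open MeasureTheory Metric

namespace Vale.Agent.P229
noncomputable section

theorem pairL_p {M ε s t p σ0 d υ : ℝ} (hM : 1 ≤ M) (hε1 : ε ≤ 1)
    (hs : |s| ≤ d) (ht : |t| ≤ d) (hd : d ≤ ε) (hσ : |σ0| ≤ M)
    (hp : |p - (s - σ0 * t)| ≤ M * d ^ 2) (hυ : |υ| ≤ 1) :
    |p| ≤ 3 * M * ε ∧ |t + υ * p| ≤ 4 * M * ε := by
  have hd0 : 0 ≤ d := (abs_nonneg _).trans hs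
  have a1 : |σ0 * t| ≤ M * d := by rw [abs_mul]; gcongr
  have a2 := abs_sub s (σ0 * t)
  have a3 := abs_sub_abs_le_abs_sub p (s - σ0 * t)
  have a4 : M * d ^ 2 ≤ M * d := by gcongr; nlinarith
  have a5 : M * d ≤ M * ε := by gcongr
  have a6 : |υ * p| ≤ 1 * |p| := by rw [abs_mul]; gcongr
  have a7 := abs_add_le t (υ * p)
  have a8 : 1 * ε ≤ M * ε := by gcongr; linarith
  constructor <;> linarith

theorem pairL_G {M η p q a : ℝ} (hη : 0 < η) (hη1 : η ≤ 1) (ha : a ≤ 2)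
    (p1 : |p| ≤ 3 * M * η ^ 32) (p2 : |q| ≤ 4 * M * η ^ 32) :
    a / (2 * η ^ 32) * q ^ 2 + 1 / (2 * η ^ 40) * p ^ 2 ≤ 25 * M ^ 2 * η := by
  have e1 : η ^ 32 ≤ η := pow_le_of_le_one hη.le hη1 (by norm_num)
  have e2 : η ^ 24 ≤ η := pow_le_of_le_one hη.le hη1 (by norm_num)
  have a1 : a / (2 * η ^ 32) * q ^ 2 ≤ 2 / (2 * η ^ 32) * (4 * M * η ^ 32) ^ 2 := by
    rw [← sq_abs q]; gcongr
  have a2 : 1 / (2 * η ^ 40) * p ^ 2 ≤ 1 / (2 * η ^ 40) * (3 * M * η ^ 32) ^ 2 := by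
    rw [← sq_abs p]; gcongr
  have a3 : 2 / (2 * η ^ 32) * (4 * M * η ^ 32) ^ 2 = 16 * (M ^ 2 * η ^ 32) := by field_simp; ring
  have a4 : 1 / (2 * η ^ 40) * (3 * M * η ^ 32) ^ 2 = 9 / 2 * (M ^ 2 * η ^ 24) := by
    field_simp; ring
  have a5 : M ^ 2 * η ^ 32 ≤ M ^ 2 * η := by gcongr
  have a6 : M ^ 2 * η ^ 24 ≤ M ^ 2 * η := by gcongr
  have a7 : 0 ≤ M ^ 2 * η := by positivity
  linarith

theorem pairL_c {M η G c c' mh mh0 : ℝ} (hM : 1 ≤ M) (hη : 0 < η) (G0 : 0 ≤ G)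
    (G1 : G ≤ 25 * M ^ 2 * η) (x4 : |c| ≤ 1) (x3 : |c - c'| ≤ 2 * M ^ 2 * η)
    (hm : |mh - mh0| ≤ M * η) (hm0 : |mh0| ≤ M) :
    |mh * (Real.exp (-G) * c) - mh0 * c'| ≤ 28 * M ^ 3 * η := by
  have x1 : Real.exp (-G) ≤ 1 := Real.exp_le_one_iff.2 (by linarith)
  have x2 : |Real.exp (-G) - 1| ≤ G := by
    rw [abs_sub_comm, abs_of_nonneg (by linarith)]
    linarith [Real.add_one_le_exp (-G)]
  have y1 : |(mh - mh0) * (Real.exp (-G) * c)| ≤ M * η * (1 * 1) := by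
    rw [abs_mul, abs_mul, abs_of_pos (Real.exp_pos _)]
    gcongr
  have y2 : |mh0 * ((Real.exp (-G) - 1) * c)| ≤ M * (25 * M ^ 2 * η * 1) := by
    rw [abs_mul, abs_mul]
    gcongr
    linarith
  have y3 : |mh0 * (c - c')| ≤ M * (2 * M ^ 2 * η) := by
    rw [abs_mul]
    gcongr
  have y4 : M * η ≤ M ^ 3 * η := by gcongr; exact le_self_pow₀ hM (by norm_num)
  rw [abs_le] at y1 y2 y3 ⊢
  constructor <;> linarith [y1.1, y1.2, y2.1, y2.2, y3.1, y3.2]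

theorem pairL_pt {M η s t p σ0 d a υ l mh mh0 : ℝ} (hM : 1 ≤ M) (hη : 0 < η) (hη1 : η ≤ 1)
    (hs : |s| ≤ d) (ht : |t| ≤ d) (hd : d ≤ η ^ 32) (hσ : |σ0| ≤ M)
    (hp : |p - (s - σ0 * t)| ≤ M * d ^ 2) (ha0 : 0 ≤ a) (ha : a ≤ 2) (hυ : |υ| ≤ 1) (hl0 : 0 ≤ l)
    (hl : l ≤ 2 * M) (hm : |mh - mh0| ≤ M * d) (hm0 : |mh0| ≤ M) :
    |mh * (Real.exp (-(a / (2 * η ^ 32) * (t + υ * p) ^ 2 + 1 / (2 * η ^ 40) * p ^ 2)) *
      Real.cos (l / η ^ 32 * p)) - mh0 * Real.cos (l / η ^ 32 * (s - σ0 * t))| ≤ 28 * M ^ 3 * η := by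
  have hd0 : 0 ≤ d := (abs_nonneg _).trans hs
  have e1 : η ^ 32 ≤ η := pow_le_of_le_one hη.le hη1 (by norm_num)
  obtain ⟨p1, p2⟩ := pairL_p hM (e1.trans hη1) hs ht hd hσ hp hυ
  refine pairL_c hM hη (by positivity) (pairL_G hη hη1 ha p1 p2) (Real.abs_cos_le_one _) ?_
    (hm.trans (by gcongr; linarith)) hm0
  refine (Real.abs_cos_sub_cos_le _ _).trans ?_
  rw [← mul_sub, abs_mul, abs_of_nonneg (by positivity)]
  calc _ ≤ 2 * M / η ^ 32 * (M * (η ^ 32) ^ 2) := by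
        gcongr
        exact hp.trans (by gcongr)
    _ = 2 * M ^ 2 * η ^ 32 := by field_simp
    _ ≤ _ := by gcongr

theorem pairL_par {M μ σ m : ℝ} (hM : 1 ≤ M) (hμ : 0 < μ) (hμM : μ * M ^ 2 ≤ 1) (hσ : |σ| ≤ M)
    (hm1 : 1 / M ≤ m) (hm2 : m ≤ M) : 1 + μ * σ ^ 2 ≤ 2 ∧ |μ * σ / (1 + μ * σ ^ 2)| ≤ 1 ∧
      √((1 + μ * σ ^ 2) / m) ≤ 2 * M ∧ 1 / M ≤ √((1 + μ * σ ^ 2) / m) := by
  have hm0 : 0 < m := lt_of_lt_of_le (by positivity) hm1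
  have a0 := mul_nonneg hμ.le (sq_nonneg σ)
  have a2 : μ * σ ^ 2 ≤ μ * M ^ 2 := by rw [← sq_abs]; gcongr
  refine ⟨by linarith, ?_, Real.sqrt_le_iff.2 ⟨by positivity, ?_⟩, Real.le_sqrt_of_sq_le ?_⟩
  · rw [abs_div, abs_mul, abs_of_pos hμ, abs_of_pos (a := 1 + _) (by linarith),
      div_le_one (by linarith)]
    have : μ * |σ| ≤ μ * M ^ 2 := by gcongr; nlinarith
    linarith
  · rw [div_le_iff₀ hm0]
    rw [div_le_iff₀ (by positivity)] at hm1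
    nlinarith
  · rw [le_div_iff₀ hm0, div_pow, one_pow, one_div_mul_eq_div, div_le_iff₀ (by positivity)]
    nlinarith

/-- the plane wave -/
def pairL_g (l σ0 : ℝ) : Sm := co (cst l * (cS - cst σ0 * cT))

theorem pairL_ss (l σ0 : ℝ) (f : Sm) (hf : HasCompactSupport f.1) :
    ∫ x, (ds (ds f) * pairL_g l σ0).1 x = -l ^ 2 * ∫ x, (f * pairL_g l σ0).1 x := by
  rw [ibp_ds _ _ (cs_ds hf), ibp_ds _ _ hf, neg_neg, ← integral_const_mul]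
  refine integral_congr_ae (.of_forall fun x => ?_)
  simp [pairL_g, ds_co, ds_si, ds_mul]
  ring

theorem pairL_tt (l σ0 : ℝ) (f : Sm) (hf : HasCompactSupport f.1) :
    ∫ x, (dt (dt f) * pairL_g l σ0).1 x = -(l * σ0) ^ 2 * ∫ x, (f * pairL_g l σ0).1 x := by
  rw [ibp_dt _ _ (cs_dt hf), ibp_dt _ _ hf, neg_neg, ← integral_const_mul]
  refine integral_congr_ae (.of_forall fun x => ?_)
  simp [pairL_g, dt_co, dt_si, dt_mul]
  ring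

theorem pairL_cpt (j : ℕ) {f : Sm} (hf : HasCompactSupport f.1) :
    HasCompactSupport (dsn j f).1 := by
  induction j with
  | zero => exact hf
  | succ j ih => rw [dsn_succ]; exact dv_compact _ ih

theorem pairL_dsn (l σ0 : ℝ) (f : Sm) (hf : HasCompactSupport f.1) (i : ℕ) :
    ∫ x, (dsn (i + i) f * pairL_g l σ0).1 x = (-l ^ 2) ^ i * ∫ x, (f * pairL_g l σ0).1 x := by
  induction i with
  | zero => simp
  | succ i ih =>
    rw [show i + 1 + (i + 1) = i + i + 1 + 1 by ring, dsn_succ, dsn_succ,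
      pairL_ss _ _ _ (pairL_cpt _ hf), ih]
    ring

theorem pairL_wv (l σ0 : ℝ) (f : Sm) (hf : HasCompactSupport f.1) :
    ∫ x, (wv f * pairL_g l σ0).1 x = l ^ 2 * (1 + σ0 ^ 2) * ∫ x, (f * pairL_g l σ0).1 x := by
  have h1 := integrable_of_compact (cs_mul_right (pairL_g l σ0) (cs_ds (cs_ds hf)))
  have h2 := integrable_of_compact (cs_mul_right (pairL_g l σ0) (cs_dt (cs_dt hf)))
  have h3 := integral_add h1 h2
  rw [pairL_ss _ _ _ hf, pairL_tt _ _ _ hf] at h3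
  have h4 : ∫ x, (wv f * pairL_g l σ0).1 x =
      -∫ x, ((ds (ds f) * pairL_g l σ0).1 x + (dt (dt f) * pairL_g l σ0).1 x) := by
    rw [← integral_neg]
    refine integral_congr_ae (.of_forall fun x => ?_)
    simp only [wv, ev_mul, ev_neg, ev_add]
    ring
  rw [h4, h3]
  ring

theorem pairL_main {δ τ l σ0 : ℝ} (hδ : 0 < δ) (hτ : 0 < τ) (hl : 0 ≤ l)
    (h : l * (1 + |σ0|) * τ ≤ 1) {j : ℕ} (hj : Even j) :
    l ^ (j + 2) * (δ * τ ^ 4 * (∫ x, B0.1 x) / 2) ≤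
      |∫ x, (dsn j (wv (bmp δ τ)) * pairL_g l σ0).1 x| := by
  obtain ⟨i, rfl⟩ := hj
  have c1 : HasCompactSupport (bmp δ τ).1 := scl_cpt sp1_B0 _ hτ
  have c2 : HasCompactSupport (wv (bmp δ τ)).1 := by
    rw [wv_bmp _ hτ]; exact scl_cpt sp1_B0.wv _ hτ
  have i1 : ∫ x, (bmp δ τ).1 x / 2 = δ * τ ^ 4 * (∫ x, B0.1 x) / 2 := by
    have := integral_scl id (δ * τ ^ 2) hτ B0
    simp only [id, integral_const_mul] at this
    rw [integral_div, bmp_eq, this]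
    ring
  have i2 : ∫ x, (bmp δ τ).1 x / 2 ≤ ∫ x, (bmp δ τ * pairL_g l σ0).1 x := by
    refine integral_mono ((integrable_of_compact c1).div_const 2)
      (integrable_of_compact (cs_mul_right _ c1)) fun x => ?_
    by_cases hx : τ < ‖x‖
    · simp only [ev_mul, bmp_eq, scl_zero sp1_B0 _ hτ hx]
      simp
    have b0 : 0 ≤ (bmp δ τ).1 x := mul_nonneg (by positivity) (B0_cut.mem _).1
    obtain ⟨b1, b2⟩ := mem_box.1 (mem_closedBall_zero_iff.2 (not_lt.1 hx))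
    have b3 : |l * (x.1 - σ0 * x.2)| ≤ 1 := by
      refine le_trans ?_ h
      have a1 : |σ0 * x.2| ≤ |σ0| * τ := by rw [abs_mul]; gcongr
      have a2 := abs_sub x.1 (σ0 * x.2)
      rw [abs_mul, abs_of_nonneg hl, mul_assoc]
      gcongr
      linarith
    have b4 := Real.one_sub_sq_div_two_le_cos (x := l * (x.1 - σ0 * x.2))
    have b5 := (sq_le_one_iff_abs_le_one _).2 b3
    change _ ≤ (bmp δ τ).1 x * Real.cos (l * (x.1 - σ0 * x.2))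
    nlinarith
  have i3 := integral_B0_pos
  rw [i1] at i2
  rw [pairL_dsn _ _ _ c2, pairL_wv _ _ _ c1, abs_mul, abs_mul, abs_pow, abs_neg,
    abs_of_nonneg (sq_nonneg l), abs_of_nonneg (a := l ^ 2 * _) (by positivity)]
  calc _ = (l ^ 2) ^ i * (l ^ 2 * 1 * (δ * τ ^ 4 * (∫ x, B0.1 x) / 2)) := by ring
    _ ≤ _ := by
      gcongr
      · nlinarith [sq_nonneg σ0]
      · exact i2.trans (le_abs_self _)

theorem pairL_err {δ τ E : ℝ} (hδ : 0 < δ) (hτ : 0 < τ) (j : ℕ) (m v g : Sm)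
    (h : ∀ x, ‖x‖ ≤ τ → |m.1 x * v.1 x - m.1 0 * g.1 x| ≤ E) :
    |(∫ x, (m * dsn j (wv (bmp δ τ)) * v).1 x) - m.1 0 * ∫ x, (dsn j (wv (bmp δ τ)) * g).1 x| ≤
      E * (τ ^ 2 * (δ / τ ^ j * ∫ x, |(dsn j (wv B0)).1 x|)) := by
  rw [wv_bmp _ hτ, dsn_scl _ _ hτ]
  set f := scl (δ / τ ^ j) τ (dsn j (wv B0)) with hf
  have cf : HasCompactSupport f.1 := scl_cpt (sp1_B0.wv.dsn j) _ hτ
  have j1 := integrable_of_compact (cs_mul_right v (cs_mul_left m cf))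
  have j2 := (integrable_of_compact (cs_mul_right g cf)).const_mul (m.1 0)
  have j3 : ∫ x, E * |f.1 x| = E * (τ ^ 2 * (δ / τ ^ j * ∫ x, |(dsn j (wv B0)).1 x|)) := by
    rw [integral_const_mul, hf, integral_scl abs _ hτ]
    simp only [abs_mul, integral_const_mul]
    rw [abs_of_pos (by positivity)]
  rw [← integral_const_mul, ← integral_sub j1 j2, ← j3]
  refine abs_integral_le_integral_abs.trans (integral_mono (j1.sub j2).abs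
    ((integrable_of_compact cf).abs.const_mul _) fun x => ?_)
  by_cases hx : τ < ‖x‖
  · simp only [ev_mul, hf, scl_zero (sp1_B0.wv.dsn j) _ hτ hx]
    simp
  refine le_trans (le_of_eq ?_) (mul_le_mul_of_nonneg_right (h x (not_lt.1 hx)) (abs_nonneg (f.1 x)))
  rw [← abs_mul]
  congr 1
  simp only [ev_mul]
  ring

theorem pairL_fin {M cB η δ I0 I1 l mh A B : ℝ} {j : ℕ} (hM : 1 ≤ M) (hc : 0 < cB) (hη : 0 < η)
    (hδ : 0 < δ) (i0 : 0 < I0) (i1 : 0 ≤ I1) (hl : 1 / M ≤ l) (hh : 1 / M ≤ mh)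
    (hηc : η * (2 * (28 * M ^ 3 * (cB ^ 2 / cB ^ j * I1)) + 1) ≤ cB ^ 4 * I0 / (2 * M ^ (j + 3)))
    (h1 : (l / η ^ 32) ^ (j + 2) * (δ * (cB * η ^ 32) ^ 4 * I0 / 2) ≤ |B|)
    (h2 : |A - mh * B| ≤
      28 * M ^ 3 * η * ((cB * η ^ 32) ^ 2 * (δ / (cB * η ^ 32) ^ j * I1))) :
    cB ^ 4 * I0 / (2 * M ^ (j + 3)) / 2 * (δ * η ^ 64 / η ^ (32 * j)) ≤ |A| := by
  have m1 : cB ^ 4 * I0 / (2 * M ^ (j + 3)) * (δ * η ^ 64 / η ^ (32 * j)) ≤ |mh * B| := by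
    rw [abs_mul]
    calc _ = 1 / M * ((1 / M / η ^ 32) ^ (j + 2) * (δ * (cB * η ^ 32) ^ 4 * I0 / 2)) := by
          rw [pow_mul η 32 j, div_pow, div_pow, one_pow]; field_simp; ring
      _ ≤ _ := by
          gcongr
          · exact hh.trans (le_abs_self _)
          · exact le_trans (by gcongr) h1
  have m2 : 28 * M ^ 3 * η * ((cB * η ^ 32) ^ 2 * (δ / (cB * η ^ 32) ^ j * I1)) =
      28 * M ^ 3 * (cB ^ 2 / cB ^ j * I1) * η * (δ * η ^ 64 / η ^ (32 * j)) := by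
    rw [pow_mul η 32 j, mul_pow cB (η ^ 32) j]; field_simp
  have m3 := abs_sub_abs_le_abs_sub (mh * B) A
  rw [abs_sub_comm] at m3
  have m4 : 28 * M ^ 3 * (cB ^ 2 / cB ^ j * I1) * η * (δ * η ^ 64 / η ^ (32 * j)) ≤
      cB ^ 4 * I0 / (2 * M ^ (j + 3)) / 2 * (δ * η ^ 64 / η ^ (32 * j)) := by
    gcongr; linarith
  linarith

theorem pairL (M : ℝ) (hM : 1 ≤ M) : ∃ cB0 μ1 : ℝ, 0 < cB0 ∧ 0 < μ1 ∧
    ∀ (cB μ r : ℝ) (N j : ℕ), 0 < cB → cB ≤ cB0 → 0 < μ → μ ≤ μ1 → 0 < r → r ≤ 1 → Even j →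
      ∃ c η0 : ℝ, 0 < c ∧ 0 < η0 ∧ ∀ (η : ℝ) (K : Coef) (χ : Sm), 0 < η → η ≤ η0 →
        CoefOK M r η K → IsCut r χ →
        c * (η ^ (32 * N) * η ^ 64 / η ^ (32 * j)) ≤
          |∫ x, (K.mh * dsn j (wv (bmp (η ^ (32 * N)) (cB * η ^ 32))) * vq K μ η χ).1 x| := by
  obtain ⟨M', hM', hT⟩ := tay M hM
  have hM1 : 1 ≤ M' := hM.trans hM'
  refine ⟨1 / (4 * M' ^ 2), 1 / M' ^ 2, by positivity, by positivity,
    fun cB μ r N j hc hc1 hμ hμ1 hr hr1 hj => ?_⟩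
  have i3 := integral_B0_pos
  have i4 : 0 ≤ ∫ x, |(dsn j (wv B0)).1 x| := integral_nonneg fun _ => abs_nonneg _
  refine ⟨cB ^ 4 * (∫ x, B0.1 x) / (2 * M' ^ (j + 3)) / 2, min (r / 2)
    (cB ^ 4 * (∫ x, B0.1 x) / (2 * M' ^ (j + 3)) /
      (2 * (28 * M' ^ 3 * (cB ^ 2 / cB ^ j * ∫ x, |(dsn j (wv B0)).1 x|)) + 1)),
    by positivity, by positivity, fun η K χ hη hη0 hK hχ => ?_⟩
  have hηr : η ≤ r / 2 := hη0.trans (min_le_left _ _)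
  have hη1 : η ≤ 1 := by linarith
  have e1 : η ^ 32 ≤ η := pow_le_of_le_one hη.le hη1 (by norm_num)
  have e0 : 0 < η ^ 32 := by positivity
  have hM2 : 1 ≤ M' ^ 2 := one_le_pow₀ hM1
  have hcM : cB * (4 * M' ^ 2) ≤ 1 := (le_div_iff₀ (by positivity)).1 hc1
  have hcB : cB ≤ 1 := by nlinarith
  have hτ : 0 < cB * η ^ 32 := by positivity
  have hτ1 : cB * η ^ 32 ≤ η ^ 32 := mul_le_of_le_one_left e0.le hcB
  have h0 := (hT r η K 1 hr1 hη hK le_rfl hM 0 (mem_closedBall_self hr.le)).1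
  have hσ : |K.σ.1 0| ≤ M' := h0.hσ0
  obtain ⟨a2, hυ, l1, l2⟩ := pairL_par hM1 hμ ((le_div_iff₀ (by positivity)).1 hμ1) hσ h0.m0_lo
    h0.m0_hi
  have hh1 : 1 / M' ≤ K.mh.1 0 :=
    le_trans (by gcongr) (hK.mh_lo 0 (mem_closedBall_self hr.le))
  have hh2 : |K.mh.1 0| ≤ M' := (hK.mh0 0 (mem_closedBall_self hr.le)).trans hM'
  set l := √((1 + μ * K.σ.1 0 ^ 2) / (mkPD K 1 0).m0) with hl
  have l0 : 0 ≤ l := Real.sqrt_nonneg _
  refine pairL_fin hM1 hc hη (by positivity) i3 i4 l2 hh1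
    ((le_div_iff₀ (by positivity)).1 (hη0.trans (min_le_right _ _)))
    (pairL_main (σ0 := K.σ.1 0) (by positivity) hτ (by positivity) ?_ hj)
    (pairL_err (by positivity) hτ j _ _ _ fun x hx => ?_)
  · calc _ = l * (1 + |K.σ.1 0|) * cB := by field_simp
      _ ≤ 2 * M' * (M' + M') * cB := by gcongr
      _ ≤ 1 := by linarith
  have x1 : ‖x‖ ≤ η ^ 32 := hx.trans hτ1
  obtain ⟨y1, y2⟩ := hT r η K 1 hr1 hη hK le_rfl hM x (mem_closedBall_zero_iff.2 (by linarith))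
  have y3 := pairL_pt (d := ‖x‖) hM1 hη hη1 (le_max_left _ _) (le_max_right _ _) x1 hσ y1.hp
    (by positivity) a2 hυ l0 l1 y2 hh2
  have y4 := hχ.one x (mem_closedBall_zero_iff.2 (by linarith))
  rw [vq, ev_mul, y4, one_mul]
  exact y3

end
end Vale.Agent.P229
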