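import Vale.Agent.P229.Quasi
import Vale.Agent.P229.Gauss
import Vale.Agent.P229.Adj

open scoped ContDiff
open MeasureTheory Metric

namespace Vale.Agent.P229
noncomputable section

theorem pu_amgm {a β u X G : ℝ} (ha : 0 < a) (hβ : 0 < β) (h : X ^ 2 ≤ β * G) :
    |u * X| ≤ a / 2 * (β * u ^ 2) + G / (2 * a) := by
  have h1 : X ^ 2 / (2 * a * β) ≤ G / (2 * a) := by
    rw [div_le_div_iff₀ (by positivity) (by positivity)]
    nlinarith [mul_le_mul_of_nonneg_left h (show 0 ≤ 2 * a by positivity)]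
  have h2 : |u * X| ≤ a / 2 * (β * u ^ 2) + X ^ 2 / (2 * a * β) := by
    have e : a / 2 * (β * u ^ 2) + X ^ 2 / (2 * a * β) - |u| * |X| =
        (a * β * |u| - |X|) ^ 2 / (2 * a * β) := by
      rw [← sq_abs u, ← sq_abs X]; field_simp; ring
    have : 0 ≤ (a * β * |u| - |X|) ^ 2 / (2 * a * β) := by positivity
    rw [abs_mul]; linarith
  linarith

theorem pu_real {a b β W g C M M' u Q v g1 σs q κ y R : ℝ} (ha : 0 < a) (hb : 0 < b) (hβ : 1 ≤ β)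
    (hW : 0 < W) (hv : v ^ 2 ≤ g) (hQ : Q ^ 2 ≤ C * β * g) (h1 : |g1| ≤ M) (h2 : |σs| ≤ M)
    (hκ : κ ^ 2 ≤ M' * W) (hM' : 0 ≤ M') :
    |u * Q + v * ((g1 - σs) * q + κ * y) - v * R| ≤
      a / 2 * (β * u ^ 2) + b / 2 * (β * (q ^ 2 + W * y ^ 2)) + a / 2 * (β * R ^ 2)
        + ((C + 1) / (2 * a) + (4 * M ^ 2 + M') / (2 * b)) * g := by
  have hβ0 : 0 < β := by linarith
  have hg : 0 ≤ g := le_trans (sq_nonneg _) hv
  have t1 := pu_amgm (u := u) (X := Q) (G := C * g) ha hβ0 (by linarith)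
  have t2 := pu_amgm (u := q) (X := v * (g1 - σs)) (G := 4 * M ^ 2 * g) hb hβ0 (by
    have e1 : (g1 - σs) ^ 2 ≤ 4 * M ^ 2 := by
      have : |g1 - σs| ≤ 2 * M := le_trans (abs_sub _ _) (by linarith)
      have := sq_le_sq' (abs_le.1 this).1 (abs_le.1 this).2
      linarith
    have e2 : (v * (g1 - σs)) ^ 2 ≤ g * (4 * M ^ 2) := by
      rw [mul_pow]; exact mul_le_mul hv e1 (sq_nonneg _) hg
    have e3 : 0 ≤ 4 * M ^ 2 * g := by positivity
    nlinarith)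
  have t3 := pu_amgm (u := y) (X := v * κ) (β := β * W) (G := M' * g) hb (by positivity) (by
    have e2 : (v * κ) ^ 2 ≤ g * (M' * W) := by
      rw [mul_pow]; exact mul_le_mul hv hκ (sq_nonneg _) hg
    have e3 : 0 ≤ W * (M' * g) := by positivity
    nlinarith)
  have t4 := pu_amgm (u := R) (X := v) (G := g) ha hβ0 (by nlinarith)
  have e : u * Q + v * ((g1 - σs) * q + κ * y) - v * R =
      u * Q + q * (v * (g1 - σs)) + y * (v * κ) - R * v := by ring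
  have t5 : |u * Q + q * (v * (g1 - σs)) + y * (v * κ) - R * v| ≤
      |u * Q| + |q * (v * (g1 - σs))| + |y * (v * κ)| + |R * v| :=
    le_trans (abs_sub _ _) (by
      gcongr
      exact le_trans (abs_add_le _ _) (by gcongr; exact abs_add_le _ _))
  have e2 : ((C + 1) / (2 * a) + (4 * M ^ 2 + M') / (2 * b)) * g =
      C * g / (2 * a) + 4 * M ^ 2 * g / (2 * b) + M' * g / (2 * b) + g / (2 * a) := by ring
  rw [e, e2]
  nlinarith

theorem pu_kappa {M μ r η : ℝ} {D : PD} (h : PDOK M r η D) (hb : RB M μ r η D) (hM : 1 ≤ M)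
    (hη : 0 < η) :
    ((D.ν - 1) * D.ks μ η + D.g3 * D.w μ η) ^ 2 ≤ 144 * M ^ 6 * D.W μ η := by
  have hW : 0 < D.W μ η := lt_of_lt_of_le (by positivity) hb.W2
  have e1 : (D.ν - 1) ^ 2 ≤ M ^ 2 := by
    have := h.ν_lo; have := h.ν_hi
    exact sq_le_sq' (by linarith) (by linarith)
  have e2 : D.g3 ^ 2 ≤ M ^ 2 := sq_le_sq' (abs_le.1 h.hg3).1 (abs_le.1 h.hg3).2
  have e3 : D.w μ η ^ 2 ≤ 8 * D.W μ η := by
    have := sq_le_sq' (abs_le.1 hb.w1).1 (abs_le.1 hb.w1).2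
    have := hb.W6
    nlinarith
  have e4 : ((D.ν - 1) * D.ks μ η) ^ 2 ≤ M ^ 2 * (64 * M ^ 4 * D.W μ η) := by
    rw [mul_pow]; exact mul_le_mul e1 hb.ks2 (sq_nonneg _) (by positivity)
  have e5 : (D.g3 * D.w μ η) ^ 2 ≤ M ^ 2 * (8 * D.W μ η) := by
    rw [mul_pow]; exact mul_le_mul e2 e3 (sq_nonneg _) (by positivity)
  have e6 : M ^ 2 * D.W μ η ≤ M ^ 6 * D.W μ η :=
    mul_le_mul_of_nonneg_right (pow_le_pow_right₀ hM (by norm_num)) hW.le
  nlinarith [sq_nonneg ((D.ν - 1) * D.ks μ η - D.g3 * D.w μ η)]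

theorem pu_g2 (K : Coef) (μ η ν : ℝ) (x : Pt) :
    (K.g2 μ η ν - ds (K.k μ η)).1 x =
      ((mkPD K ν x).ν - 1) * (mkPD K ν x).ks μ η + (mkPD K ν x).g3 * (mkPD K ν x).w μ η := by
  simp only [Coef.g2, Coef.k, Coef.w, wq, mkPD, PD.ks, PD.w, ds_mul, map_add, map_sub, ds_sq, ds_cst,
    ds_cS, ds_cT, ev_add, ev_sub, ev_mul, ev_pow, ev_cst, ev_cS, ev_cT, ev_zero, ev_one, ev_two]
  ring

theorem pu_bw (σ : Sm) {η : ℝ} (hη : 0 < η) (x : Pt) : 1 ≤ (bw σ η).1 x := by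
  simp only [bw, ev_add, ev_mul, ev_one, ev_cst, ev_pow]
  have : 0 ≤ 1 / η ^ 56 * (pp σ).1 x ^ 2 := by positivity
  linarith

theorem pu_gs_cont (σ : Sm) (η : ℝ) : Continuous (gs σ η) := by
  have := Sm.cont (pp σ)
  unfold gs
  fun_prop

theorem pu_en_cont (σ : Sm) (μ η : ℝ) (u : Sm) : Continuous (en σ μ η u) := by
  have h1 := Sm.cont (bw σ η)
  have h2 := Sm.cont (T σ u)
  have h3 := Sm.cont (ds u)
  unfold en Wt
  fun_prop

theorem pu_Q_zero {σ k v : Sm} {U : Set Pt} (hU : IsOpen U) (h : ∀ x ∈ U, v.1 x = 0) :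
    ∀ x ∈ U, (Qop σ k v).1 x = 0 := by
  have hT : ∀ f : Sm, (∀ x ∈ U, f.1 x = 0) → ∀ x ∈ U, (T σ f).1 x = 0 := fun f hf x hx => by
    simp only [T, ev_add, ev_mul, ds_zero_of hU hf x hx, dt_zero_of hU hf x hx, mul_zero, add_zero]
  intro x hx
  have h1 : ∀ y ∈ U, (k * ds v).1 y = 0 := fun y hy => by
    rw [ev_mul, ds_zero_of hU h y hy, mul_zero]
  simp only [Qop, ev_add, ev_mul, hT _ (hT v h) x hx, hT v h x hx, ds_zero_of hU h1 x hx, mul_zero,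
    add_zero]

/-- the pairing as an integral over the box -/
theorem pu_pair {σ k g1 g2 u v S R : Sm} {r : ℝ} (hv : HasCompactSupport v.1)
    (h0 : ∀ x, x ∉ closedBall (0 : Pt) r → v.1 x = 0)
    (he : ∀ x ∈ closedBall (0 : Pt) r, (Lgen σ k g1 g2 u).1 x = S.1 x + R.1 x) :
    ∫ x, (S * v).1 x = ∫ x in closedBall (0 : Pt) r,
      (u * Qop σ k v + v * ((g1 - ds σ) * T σ u + (g2 - ds k) * ds u) - v * R).1 x := by
  have hU : IsOpen (closedBall (0 : Pt) r)ᶜ := isClosed_closedBall.isOpen_compl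
  have h1 : ∫ x, (S * v).1 x = ∫ x in closedBall (0 : Pt) r, (S * v).1 x :=
    (integral_box fun x hx => by rw [ev_mul, h0 x hx, mul_zero]).symm
  have h2 : ∫ x in closedBall (0 : Pt) r, (v * Lgen σ k g1 g2 u).1 x =
      ∫ x, (v * Lgen σ k g1 g2 u).1 x :=
    integral_box fun x hx => by rw [ev_mul, h0 x hx, zero_mul]
  have h3 : ∫ x in closedBall (0 : Pt) r,
      (u * Qop σ k v + v * ((g1 - ds σ) * T σ u + (g2 - ds k) * ds u)).1 x =
      ∫ x, (u * Qop σ k v + v * ((g1 - ds σ) * T σ u + (g2 - ds k) * ds u)).1 x :=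
    integral_box fun x hx => by
      rw [ev_add, ev_mul, ev_mul, h0 x hx, pu_Q_zero hU h0 x hx, mul_zero, zero_mul, add_zero]
  have h4 : ∫ x in closedBall (0 : Pt) r, (S * v).1 x =
      ∫ x in closedBall (0 : Pt) r, ((v * Lgen σ k g1 g2 u).1 x - (v * R).1 x) :=
    setIntegral_congr_fun measurableSet_closedBall fun x hx => by
      simp only [ev_mul, he x hx]; ring
  rw [h1, h4, integral_sub (intOn (Sm.cont _) r) (intOn (Sm.cont _) r), h2, adj σ k g1 g2 u v hv, ← h3,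
    ← integral_sub (intOn (Sm.cont _) r) (intOn (Sm.cont _) r)]
  rfl

theorem pu_final {η A C M M' I1 I2 I3 I4 : ℝ} (hη : 0 < η) (hη1 : η ≤ 1) (hA : 0 < A) (hC : 0 ≤ C)
    (hM' : 0 ≤ M') (h1 : I1 ≤ A ^ 2) (h2 : I2 ≤ (1 / η) ^ 32 * A ^ 2) (h3 : I3 ≤ A ^ 2)
    (h4 : I4 ≤ 32 * η ^ 36) :
    η ^ 2 / A / 2 * I1 + η ^ 34 / A / 2 * I2 + η ^ 2 / A / 2 * I3
      + ((C * (1 / η) ^ 32 + 1) / (2 * (η ^ 2 / A)) + (4 * M ^ 2 + M') / (2 * (η ^ 34 / A))) * I4 ≤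
      (2 + 16 * (C + 1) + 16 * (4 * M ^ 2 + M')) * (η ^ 2 * A) := by
  have e1 : η ^ 2 / A / 2 * I1 ≤ η ^ 2 / A / 2 * A ^ 2 := by gcongr
  have e2 : η ^ 34 / A / 2 * I2 ≤ η ^ 34 / A / 2 * ((1 / η) ^ 32 * A ^ 2) := by gcongr
  have e3 : η ^ 2 / A / 2 * I3 ≤ η ^ 2 / A / 2 * A ^ 2 := by gcongr
  have e4 : ((C * (1 / η) ^ 32 + 1) / (2 * (η ^ 2 / A)) + (4 * M ^ 2 + M') / (2 * (η ^ 34 / A))) * I4 ≤
      ((C * (1 / η) ^ 32 + 1) / (2 * (η ^ 2 / A)) + (4 * M ^ 2 + M') / (2 * (η ^ 34 / A)))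
        * (32 * η ^ 36) := by gcongr
  have f1 : η ^ 2 / A / 2 * A ^ 2 = η ^ 2 * A / 2 := by field_simp
  have f2 : η ^ 34 / A / 2 * ((1 / η) ^ 32 * A ^ 2) = η ^ 2 * A / 2 := by field_simp
  have f4 : ((C * (1 / η) ^ 32 + 1) / (2 * (η ^ 2 / A)) + (4 * M ^ 2 + M') / (2 * (η ^ 34 / A)))
        * (32 * η ^ 36) = (16 * (C + η ^ 32) + 16 * (4 * M ^ 2 + M')) * (η ^ 2 * A) := by
    field_simp; ring
  have f5 : η ^ 32 ≤ 1 := pow_le_one₀ hη.le hη1
  have f6 : 0 < η ^ 2 * A := by positivity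
  have f7 : η ^ 32 * (η ^ 2 * A) ≤ 1 * (η ^ 2 * A) := by gcongr
  rw [f1] at e1 e3
  rw [f2] at e2
  rw [f4] at e4
  nlinarith

theorem pairU (M : ℝ) (hM : 1 ≤ M) : ∃ μ1 r1 η1 : ℝ, 0 < μ1 ∧ 0 < r1 ∧ 0 < η1 ∧
    ∀ (μ r : ℝ) (χ : Sm), 0 < μ → μ ≤ μ1 → 0 < r → r ≤ r1 → IsCut r χ → ∃ C : ℝ,
      ∀ (η : ℝ) (K : Coef) (ν : ℝ) (u S R : Sm) (A : ℝ), 0 < η → η ≤ η1 → CoefOK M r η K →
        1 ≤ ν → ν ≤ M → (∀ x ∈ closedBall (0 : Pt) r, (K.L μ η ν u).1 x = S.1 x + R.1 x) → 0 < A →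
        ∫ x in closedBall (0 : Pt) r, (bw K.σ η).1 x * u.1 x ^ 2 ≤ A ^ 2 →
        ∫ x in closedBall (0 : Pt) r, en K.σ μ η u x ≤ (1 / η) ^ 32 * A ^ 2 →
        ∫ x in closedBall (0 : Pt) r, (bw K.σ η).1 x * R.1 x ^ 2 ≤ A ^ 2 →
        |∫ x, (S * vq K μ η χ).1 x| ≤ C * (η ^ 2 * A) := by
  obtain ⟨μ1, r1, η1, hμ1, hr1, hη1, hq⟩ := quasi M hM
  obtain ⟨M', hMM, ht⟩ := tay M hM
  have hM' : 1 ≤ M' := le_trans hM hMM
  have hM0 : 0 < M' := by linarith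
  refine ⟨min μ1 1, min r1 (1 / (2 * M')), min η1 (1 / M'), by positivity, by positivity,
    by positivity, fun μ r χ hμ hμ' hr hr' hχ => ?_⟩
  have hrM : M' * r ≤ 1 / 2 := by
    have : r ≤ 1 / (2 * M') := le_trans hr' (min_le_right _ _)
    rw [le_div_iff₀ (by positivity)] at this
    linarith
  have hr1' : r ≤ 1 := by nlinarith
  obtain ⟨C, hC, hq⟩ := hq μ r χ hμ (le_trans hμ' (min_le_left _ _))
    (le_trans hr' (min_le_left _ _)) hχ
  refine ⟨2 + 16 * (C + 1) + 16 * (4 * M ^ 2 + 144 * M' ^ 6),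
    fun η K ν u S R A hη hη' hK hν hν' he hA i1 i2 i3 => ?_⟩
  have hηM : M' * η ≤ 1 := by
    have : η ≤ 1 / M' := le_trans hη' (min_le_right _ _)
    rw [le_div_iff₀ hM0] at this
    linarith
  have hη1' : η ≤ 1 := by nlinarith
  have hηM' : M' * η ^ 32 ≤ 1 := by
    have : η ^ 32 ≤ η := by
      calc η ^ 32 ≤ η ^ 1 := pow_le_pow_of_le_one hη.le hη1' (by norm_num)
        _ = η := pow_one η
    nlinarith
  have hq := hq η K hη (le_trans hη' (min_le_left _ _)) hK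
  have hv : HasCompactSupport (vq K μ η χ).1 := cs_mul_right _ hχ.cpt
  have h0 : ∀ x, x ∉ closedBall (0 : Pt) r → (vq K μ η χ).1 x = 0 := fun x hx => by
    rw [vq, ev_mul, hχ.zero x fun h => hx (ball_subset_closedBall h), zero_mul]
  have hg : ∫ x in closedBall (0 : Pt) r, gs K.σ η x ≤ 32 * η ^ 36 := by
    refine gauss K.σ r η hη ?_
    have h1 := hK.σs 0 (mem_closedBall_self hr.le)
    have h2 : |(ds K.σ).1 0| * r ≤ M' * r := by gcongr; linarith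
    linarith
  rw [pu_pair hv h0 he]
  have c1 : Continuous fun x => (bw K.σ η).1 x * u.1 x ^ 2 :=
    (Sm.cont _).mul ((Sm.cont _).pow 2)
  have c3 : Continuous fun x => (bw K.σ η).1 x * R.1 x ^ 2 :=
    (Sm.cont _).mul ((Sm.cont _).pow 2)
  have c2 := pu_en_cont K.σ μ η u
  have c4 := pu_gs_cont K.σ η
  refine le_trans ?_ (pu_final (M := M) (M' := 144 * M' ^ 6) hη hη1' hA hC (by positivity) i1 i2 i3 hg)
  rw [← integral_const_mul, ← integral_const_mul, ← integral_const_mul, ← integral_const_mul,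
    ← integral_add (intOn (by fun_prop) r) (intOn (by fun_prop) r),
    ← integral_add (intOn (by fun_prop) r) (intOn (by fun_prop) r),
    ← integral_add (intOn (by fun_prop) r) (intOn (by fun_prop) r)]
  refine le_trans abs_integral_le_integral_abs ?_
  refine setIntegral_mono_on (intOn (Sm.cont _).abs r) (intOn (by fun_prop) r)
    measurableSet_closedBall fun x hx => ?_
  have hP := (ht r η K ν hr1' hη hK hν hν' x hx).1
  have hR := rbas hP hM' hrM hη hη1' hηM' hμ (le_trans hμ' (min_le_right _ _))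
  have hκ := pu_kappa hP hR hM' hη
  rw [← pu_g2] at hκ
  have hW : 0 < Wt μ η x := by unfold Wt; positivity
  exact pu_real (by positivity) (by positivity) (pu_bw K.σ hη x) hW (hq x hx).1 (hq x hx).2
    (hK.g10 x hx) (hK.σs x hx) hκ (by positivity)

end
end Vale.Agent.P229
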