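import Vale.Agent.P229.Step
import Vale.Agent.P229.Energy
import Vale.Agent.P229.PairU
import Vale.Agent.P229.PairL
import Vale.Agent.P229.CF

open scoped ContDiff
open MeasureTheory Metric

namespace Vale.Agent.P229
noncomputable section

theorem ENat.mono {M μ r η1 η2 : ℝ} (h : ENat M μ r η1) (h2 : η2 ≤ η1) : ENat M μ r η2 := by
  obtain ⟨C, hC⟩ := h
  exact ⟨C, fun η h0 h1 => hC η h0 (h1.trans h2)⟩

theorem loc_levels {M μ r r1 : ℝ} (hr : 0 < r) (hr1 : r ≤ r1)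
    (h : ∀ r : ℝ, 0 < r → r ≤ r1 → ∃ η0 : ℝ, 0 < η0 ∧ ENat M μ r η0) (n : ℕ) :
    ∃ η0 : ℝ, 0 < η0 ∧ ∀ k, k ≤ n → ENat M μ (r / 2 ^ k) η0 := by
  have hk : ∀ k : ℕ, ∃ η0 : ℝ, 0 < η0 ∧ ENat M μ (r / 2 ^ k) η0 := fun k =>
    h _ (by positivity) ((div_le_self hr.le (one_le_pow₀ (by norm_num))).trans hr1)
  induction n with
  | zero =>
    obtain ⟨η0, h0, h1⟩ := hk 0
    exact ⟨η0, h0, fun k hk' => by obtain rfl : k = 0 := by omega
                                   exact h1⟩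
  | succ n ih =>
    obtain ⟨η0, h0, h1⟩ := ih
    obtain ⟨η1, h2, h3⟩ := hk (n + 1)
    refine ⟨min η0 η1, lt_min h0 h2, fun k hk' => ?_⟩
    rcases Nat.lt_or_ge k (n + 1) with h4 | h4
    · exact (h1 k (by omega)).mono (min_le_left _ _)
    · obtain rfl : k = n + 1 := by omega
      exact h3.mono (min_le_right _ _)

theorem loc_inv {I : Type} {Λ r0 : ℝ} {N : ℕ} {cB μ M r1 : ℝ} (F : Fam I Λ r0 N cB μ M r1)
    (hp : Par Λ r0 N cB μ M r1) {r η1 : ℝ} (hr : 0 < r) (hr1 : r < r1)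
    (hE : ∀ k, k ≤ 32 * N → ENat M μ (r / 2 ^ k) η1) (hη : ∀ i, F.η i ≤ η1) :
    ∀ k, k + 8 ≤ 32 * N → F.Inv (k + 8) (r / 2 ^ k) := by
  intro k
  induction k with
  | zero => intro _; simpa using inv_base F hp hr hr1
  | succ k ih =>
    intro hk
    have h1 : r / 2 ^ k < r1 := lt_of_le_of_lt (div_le_self hr.le (one_le_pow₀ (by norm_num))) hr1
    have := step F hp (J := k + 8) (by positivity) h1 (by omega) (by omega) (hE k (by omega)) hη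
      (ih (by omega))
    rw [show k + 1 + 8 = k + 8 + 1 by omega, pow_succ, ← div_div]
    exact this

theorem loc_restrict {f : Pt → ℝ} (hf : Continuous f) (h0 : ∀ x, 0 ≤ f x) {r : ℝ} (hr : 0 < r) :
    ∫ x in closedBall (0 : Pt) (r / 2), f x ≤ ∫ x in closedBall (0 : Pt) r, f x :=
  setIntegral_mono_set (intOn hf r) (Filter.Eventually.of_forall h0)
    (closedBall_subset_closedBall (by linarith)).eventuallyLE

theorem bw_pos (σ : Sm) {η : ℝ} (hη : 0 < η) (x : Pt) : 0 ≤ (bw σ η).1 x := by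
  simp only [bw, ev_add, ev_one, ev_mul, ev_cst, ev_pow]; positivity

theorem loc_pow {η : ℝ} (hη : 0 < η) {N : ℕ} (hN : 20 ≤ N) :
    η ^ (32 * N) * η ^ 64 / η ^ (32 * (32 * N)) = η * (1 / η) ^ ey N (32 * N) ∧
    η ^ 32 * ((1 / η) ^ ey N (32 * N + 1)) ^ 2 = (1 / η) ^ 32 * ((1 / η) ^ ey N (32 * N)) ^ 2 := by
  have hey : ey N (32 * N + 1) = ey N (32 * N) + 32 := by unfold ey; omega
  have hey2 : ey N (32 * N) + (32 * N + 64) = 32 * (32 * N) + 1 := by unfold ey; omega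
  constructor
  · have : η ^ (32 * (32 * N)) * η = η ^ ey N (32 * N) * (η ^ (32 * N) * η ^ 64) := by
      rw [← pow_succ, ← hey2, pow_add, pow_add]
    rw [div_pow, one_pow, div_eq_iff (by positivity)]
    generalize η ^ (32 * (32 * N)) = a at *
    generalize η ^ (32 * N) * η ^ 64 = b at *
    have h : 0 < η ^ ey N (32 * N) := by positivity
    generalize η ^ ey N (32 * N) = c at *
    field_simp
    linarith
  · rw [hey, pow_add]
    generalize (1 / η) ^ ey N (32 * N) = Y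
    field_simp

theorem loc_key {I : Type} {Λ r0 : ℝ} {N : ℕ} {cB μ M r1 : ℝ} (F : Fam I Λ r0 N cB μ M r1)
    (hp : Par Λ r0 N cB μ M r1) {ρ ηa ηb ηc Cu cl : ℝ} {χ : Sm} (hρp : 0 < ρ) (hρ1 : ρ < r1)
    (hE : ENat M μ ρ ηa) (ha : ∀ i, F.η i ≤ ηa) (hb : ∀ i, F.η i ≤ ηb) (hc : ∀ i, F.η i ≤ ηc)
    (hinv : F.Inv (32 * N) ρ) (hχ : IsCut (ρ / 2) χ)
    (hCu : ∀ (η : ℝ) (K : Coef) (ν : ℝ) (u S R : Sm) (A : ℝ), 0 < η → η ≤ ηb →
        CoefOK M (ρ / 2) η K → 1 ≤ ν → ν ≤ M →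
        (∀ x ∈ closedBall (0 : Pt) (ρ / 2), (K.L μ η ν u).1 x = S.1 x + R.1 x) → 0 < A →
        ∫ x in closedBall (0 : Pt) (ρ / 2), (bw K.σ η).1 x * u.1 x ^ 2 ≤ A ^ 2 →
        ∫ x in closedBall (0 : Pt) (ρ / 2), en K.σ μ η u x ≤ (1 / η) ^ 32 * A ^ 2 →
        ∫ x in closedBall (0 : Pt) (ρ / 2), (bw K.σ η).1 x * R.1 x ^ 2 ≤ A ^ 2 →
        |∫ x, (S * vq K μ η χ).1 x| ≤ Cu * (η ^ 2 * A))
    (hL : ∀ (η : ℝ) (K : Coef) (χ : Sm), 0 < η → η ≤ ηc →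
        CoefOK M (ρ / 2) η K → IsCut (ρ / 2) χ →
        cl * (η ^ (32 * N) * η ^ 64 / η ^ (32 * (32 * N))) ≤
          |∫ x, (K.mh * dsn (32 * N) (wv (bmp (η ^ (32 * N)) (cB * η ^ 32))) * vq K μ η χ).1 x|) :
    ∃ A : ℝ, 0 ≤ A ∧ ∀ i, cl ≤ A * F.η i := by
  have hN := hp.hN
  obtain ⟨C1, hC1⟩ := en_bound F hp hρp hρ1 (by omega) le_rfl hE ha hinv
  obtain ⟨C2, hC2⟩ := rem_good F hp hρp hρ1 (by omega) hinv
  obtain ⟨C3, hC3⟩ := (hinv.1 (32 * N - 1)).1 (by show 32 * N - 1 + 1 ≤ 32 * N; omega)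
  have hj1 : 32 * N - 1 + 1 = 32 * N := by omega
  have hC3' : ∀ i, ∫ x in closedBall (0 : Pt) ρ, (bw (F.σ i) (F.η i)).1 x *
      (dsn (32 * N) (F.z i)).1 x ^ 2 ≤ C3 * ((1 / F.η i) ^ ey N (32 * N)) ^ 2 := fun i => by
    have := hC3 i
    dsimp only at this
    rw [← dsn_succ', hj1] at this
    exact this
  have hC2' : ∀ i, ∫ x in closedBall (0 : Pt) ρ, (bw (F.σ i) (F.η i)).1 x *
      (rem Λ μ (F.η i) (F.φ i) (F.z i) (32 * N)).1 x ^ 2 ≤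
        C2 * ((1 / F.η i) ^ ey N (32 * N)) ^ 2 := hC2
  obtain ⟨Cs, hCs⟩ := om_src N (32 * N) (by omega) hp.cB0 hp.cB1
  obtain ⟨A0, hA0p, hA1, hA2, hA3⟩ : ∃ A0 : ℝ, 1 ≤ A0 ∧ C1 ≤ A0 ^ 2 ∧ C2 ≤ A0 ^ 2 ∧ C3 ≤ A0 ^ 2 := by
    have := abs_nonneg C1; have := abs_nonneg C2; have := abs_nonneg C3
    have := le_abs_self C1; have := le_abs_self C2; have := le_abs_self C3
    exact ⟨|C1| + |C2| + |C3| + 1, by linarith, by nlinarith, by nlinarith, by nlinarith⟩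
  refine ⟨|Cu| * A0, by positivity, fun i => ?_⟩
  have hη : 0 < F.η i := F.pos i
  have hη1' : F.η i ≤ 1 := (F.le i).trans hp.cB1
  have hKo : CoefOK M (ρ / 2) (F.η i) (coef Λ μ (F.η i) (F.φ i) (F.z i) (32 * N)) :=
    (F.co i (32 * N) le_rfl).mono (by linarith)
  obtain ⟨h6, h8⟩ := loc_pow hη hN
  have g1 := (loc_restrict ((Sm.cont _).mul ((Sm.cont _).pow 2))
          (fun x => mul_nonneg (bw_pos _ hη x) (sq_nonneg _)) hρp).trans (hC3' i)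
  have g2 := (loc_restrict ((Sm.cont _).mul ((Sm.cont _).pow 2))
          (fun x => mul_nonneg (bw_pos _ hη x) (sq_nonneg _)) hρp).trans (hC2' i)
  have g3 := hC1 i
  rw [h8] at g3
  have hlo := hL (F.η i) _ χ hη (hc i) hKo hχ
  rw [← (hCs μ (F.η i) 1 hη hη1').1, h6] at hlo
  have hYp : 0 < (1 / F.η i) ^ ey N (32 * N) := by positivity
  generalize (1 / F.η i) ^ ey N (32 * N) = Y at *
  have hν1 : (1 : ℝ) ≤ ((32 * N : ℕ) : ℝ) + 1 := by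
    have : (0 : ℝ) ≤ ((32 * N : ℕ) : ℝ) := Nat.cast_nonneg _
    linarith
  have hν2 : ((32 * N : ℕ) : ℝ) + 1 ≤ M := by push_cast; exact hp.hMN
  have k1 : C3 * Y ^ 2 ≤ (A0 * Y) ^ 2 := by rw [mul_pow]; gcongr
  have k2 : C2 * Y ^ 2 ≤ (A0 * Y) ^ 2 := by rw [mul_pow]; gcongr
  have k3 : C1 * ((1 / F.η i) ^ 32 * Y ^ 2) ≤ (1 / F.η i) ^ 32 * (A0 * Y) ^ 2 := by
    rw [mul_pow, mul_left_comm]; gcongr
  have hup := hCu (F.η i) _ _ (dsn (32 * N) (F.z i))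
    ((coef Λ μ (F.η i) (F.φ i) (F.z i) (32 * N)).mh * dsn (32 * N) (wv (F.φ i)))
    (rem Λ μ (F.η i) (F.φ i) (F.z i) (32 * N)) (A0 * Y) hη (hb i) hKo hν1 hν2
    (fun x _ => by rw [rem, ev_sub]; ring) (by positivity) (g1.trans k1) (g3.trans k3) (g2.trans k2)
  have h5 := hlo.trans hup
  have h7 : cl * (F.η i * Y) ≤ (|Cu| * A0 * F.η i) * (F.η i * Y) := by
    calc cl * (F.η i * Y) ≤ Cu * (F.η i ^ 2 * (A0 * Y)) := h5
      _ ≤ |Cu| * (F.η i ^ 2 * (A0 * Y)) := by gcongr; exact le_abs_self _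
      _ = _ := by ring
  exact le_of_mul_le_mul_right h7 (by positivity)

theorem noSol (Λ r0 : ℝ) (N : ℕ) (hΛ : 1 ≤ Λ) (hr0 : 0 < r0) (hr01 : r0 ≤ 1) (hN : 20 ≤ N) :
    NoSol Λ r0 N := by
  obtain ⟨M, r1, hM, hMN, hr1, hr10, hcf⟩ := cf Λ r0 N hΛ hr0 hr01 hN
  obtain ⟨μa, hμa, hen⟩ := energy M hM
  obtain ⟨μb, rb, ηb, hμb, hrb, hηb, hpu⟩ := pairU M hM
  obtain ⟨cB0, μc, hcB0, hμc, hpl⟩ := pairL M hM
  refine ⟨min cB0 1, lt_min hcB0 one_pos, min_le_right _ _, min (min μa μb) (min μc 1),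
    lt_min (lt_min hμa hμb) (lt_min hμc one_pos), fun μ hμ hμ0 => ?_⟩
  set cB := min cB0 1 with hcB
  have hcBp : 0 < cB := lt_min hcB0 one_pos
  have hμ1 : μ ≤ μa := hμ0.trans ((min_le_left _ _).trans (min_le_left _ _))
  have hμ2 : μ ≤ μb := hμ0.trans ((min_le_left _ _).trans (min_le_right _ _))
  have hμ3 : μ ≤ μc := hμ0.trans ((min_le_right _ _).trans (min_le_left _ _))
  have hμ4 : μ ≤ 1 := hμ0.trans ((min_le_right _ _).trans (min_le_right _ _))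
  obtain ⟨ra, hra, hen2⟩ := hen μ hμ hμ1
  set r := min (r1 / 2) (min ra rb) with hr
  have hrp : 0 < r := lt_min (by linarith) (lt_min hra hrb)
  have hrr1 : r < r1 := lt_of_le_of_lt (min_le_left _ _) (by linarith)
  have hrra : r ≤ ra := (min_le_right _ _).trans (min_le_left _ _)
  have hrrb : r ≤ rb := (min_le_right _ _).trans (min_le_right _ _)
  obtain ⟨ηa, hηa, hE⟩ := loc_levels hrp hrra hen2 (32 * N)
  obtain ⟨k, hk⟩ : ∃ k, k + 8 = 32 * N := ⟨32 * N - 8, by omega⟩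
  set ρ := r / 2 ^ k with hρ
  have hρp : 0 < ρ := by positivity
  have hρr : ρ ≤ r := div_le_self hrp.le (one_le_pow₀ (by norm_num))
  have hρ1 : ρ < r1 := lt_of_le_of_lt hρr hrr1
  obtain ⟨χ, hχ⟩ := exists_isCut (r := ρ / 2) (by positivity)
  obtain ⟨Cu, hCu⟩ := hpu μ (ρ / 2) χ hμ hμ2 (by positivity) (by linarith) hχ
  obtain ⟨cl, ηc, hcl, hηc, hL⟩ := hpl cB μ (ρ / 2) N (32 * N) hcBp (min_le_left _ _) hμ hμ3
    (by positivity) (by linarith) ⟨16 * N, by ring⟩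
  set η1 := min (min ηa ηb) (min ηc cB) with hη1
  have hη1p : 0 < η1 := lt_min (lt_min hηa hηb) (lt_min hηc hcBp)
  have e1 : η1 ≤ ηa := (min_le_left _ _).trans (min_le_left _ _)
  have e2 : η1 ≤ ηb := (min_le_left _ _).trans (min_le_right _ _)
  have e3 : η1 ≤ ηc := (min_le_right _ _).trans (min_le_left _ _)
  have e4 : η1 ≤ cB := (min_le_right _ _).trans (min_le_right _ _)
  have hcB1 : cB ≤ 1 := min_le_right _ _
  let I : Type := {q : ℝ × Sm // 0 < q.1 ∧ q.1 ≤ η1 ∧ Sol Λ r0 (om μ q.1 N cB) q.2}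
  let F : Fam I Λ r0 N cB μ M r1 :=
    { η := fun i => i.1.1
      z := fun i => i.1.2
      pos := fun i => i.2.1
      le := fun i => i.2.2.1.trans e4
      sol := fun i => i.2.2.2
      co := fun i => (hcf cB μ _ _ i.2.1 (i.2.2.1.trans e4) hcB1 hμ hμ4 i.2.2.2).1
      aux := fun i => (hcf cB μ _ _ i.2.1 (i.2.2.1.trans e4) hcB1 hμ hμ4 i.2.2.2).2 }
  have hp : Par Λ r0 N cB μ M r1 := ⟨hΛ, hN, hcBp, hcB1, hμ, hμ4, hM, hMN, hr1, hr10, hr01⟩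
  have hηa' : ∀ i, F.η i ≤ ηa := fun i => i.2.2.1.trans e1
  have hinv : F.Inv (32 * N) ρ := by
    have := loc_inv F hp hrp hrr1 hE hηa' k hk.le
    rwa [hk] at this
  obtain ⟨A, hA, key⟩ := loc_key F hp hρp hρ1 (hE k (by omega)) hηa' (fun i => i.2.2.1.trans e2)
    (fun i => i.2.2.1.trans e3) hinv hχ hCu hL
  refine ⟨min η1 (cl / (2 * (A + 1))), lt_min hη1p (by positivity), fun η h0 h1 z hz => ?_⟩
  have h2 : cl ≤ A * η := key ⟨(η, z), h0, h1.trans (min_le_left _ _), hz⟩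
  have h3 : η ≤ cl / (2 * (A + 1)) := h1.trans (min_le_right _ _)
  rw [le_div_iff₀ (by positivity)] at h3
  nlinarith

end
end Vale.Agent.P229
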