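import Vale.Agent.P229.CBd
import Vale.Agent.P229.Scl

open scoped ContDiff
open MeasureTheory Metric

namespace Vale.Agent.P229
noncomputable section

/-- derivative bounds for a rescaled bump -/
theorem scl_bd (k : ℕ) : ∀ {g : Sm}, Sp1 g → ∃ C : ℝ, 0 ≤ C ∧ ∀ a τ : ℝ, 0 < τ → τ ≤ 1 →
    Bd Set.univ (C * (|a| / τ ^ k)) k (scl a τ g) := by
  induction k with
  | zero =>
    intro g h
    obtain ⟨C, hC, hb⟩ := scl_bound h
    refine ⟨C, hC, fun a τ _ _ x _ => ?_⟩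
    simpa using hb a τ x
  | succ k ih =>
    intro g h
    obtain ⟨C0, hC0, hb0⟩ := scl_bound h
    obtain ⟨C1, hC1, hb1⟩ := ih h.ds
    obtain ⟨C2, hC2, hb2⟩ := ih h.dt
    refine ⟨C0 + C1 + C2, by positivity, fun a τ hτ hτ1 => ?_⟩
    have hq : 0 ≤ |a| / τ ^ (k + 1) := by positivity
    have he : |a / τ| / τ ^ k = |a| / τ ^ (k + 1) := by
      rw [abs_div, abs_of_pos hτ, div_div, pow_succ']
    have hle : |a| ≤ |a| / τ ^ (k + 1) :=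
      le_div_self (abs_nonneg a) (by positivity) (pow_le_one₀ hτ.le hτ1)
    refine ⟨fun x _ => (hb0 a τ x).trans ?_, ?_, ?_⟩
    · nlinarith [mul_le_mul_of_nonneg_left hle hC0, mul_nonneg hC1 hq, mul_nonneg hC2 hq]
    · rw [ds_scl a hτ]
      refine (hb1 (a / τ) τ hτ hτ1).mono_const ?_
      rw [he]
      nlinarith [mul_nonneg hC0 hq, mul_nonneg hC2 hq]
    · rw [dt_scl a hτ]
      refine (hb2 (a / τ) τ hτ hτ1).mono_const ?_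
      rw [he]
      nlinarith [mul_nonneg hC0 hq, mul_nonneg hC1 hq]

/-- admissible parameters -/
def OmPar : Type :=
  {p : ℝ × ℝ × ℝ // 0 < p.2.2 ∧ p.2.2 ≤ p.1 ∧ p.1 ≤ 1 ∧ 0 < p.2.1 ∧ p.2.1 ≤ 1}

theorem om_tau {cB η : ℝ} (h0 : 0 < η) (h1 : η ≤ cB) (h2 : cB ≤ 1) :
    0 < cB * η ^ 32 ∧ cB * η ^ 32 ≤ 1 ∧ η ^ 33 ≤ cB * η ^ 32 := by
  have hc : 0 < cB := h0.trans_le h1
  refine ⟨by positivity, mul_le_one₀ h2 (by positivity) (pow_le_one₀ h0.le (h1.trans h2)), ?_⟩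
  rw [pow_succ']
  gcongr

theorem om_cb0 : CB (closedBall (0 : Pt) 1) 6 fun p : OmPar => om0 p.1.2.1 (p.1.2.2 ^ 32) := by
  have hU : closedBall (0 : Pt) 1 ⊆ closedBall (0 : Pt) 1 := subset_rfl
  have hμ : ∀ p : OmPar, |p.1.2.1| ≤ 1 := fun p => by
    rw [abs_of_pos p.2.2.2.2.1]; exact p.2.2.2.2.2
  have hμ' : ∀ p : OmPar, |p.1.2.1 / 12| ≤ 1 := fun p => by
    rw [abs_of_pos (by have := p.2.2.2.2.1; positivity)]; linarith [p.2.2.2.2.2, p.2.2.2.2.1]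
  have hε : ∀ p : OmPar, |p.1.2.2 ^ 32| ≤ 1 := fun p => by
    rw [abs_of_pos (pow_pos p.2.1 _)]; exact pow_le_one₀ p.2.1.le (p.2.2.1.trans p.2.2.2.1)
  exact (((cb_const hU cT).sub (cb_const hU (cst (1 / 12) * cT ^ 4))).sub
    ((cb_const hU (cst (1 / 2))).mul ((((cb_cst hμ).mul (cb_const hU (cS ^ 2))).sub
      (cb_cst hε)).mul (cb_const hU (cT ^ 2))))).add ((cb_cst hμ').mul (cb_const hU (cT ^ 4)))

theorem om_cb1 (N : ℕ) (hN : 20 ≤ N) : CB (closedBall (0 : Pt) 1) 6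
    fun p : OmPar => bmp (p.1.2.2 ^ (32 * N)) (p.1.1 * p.1.2.2 ^ 32) := by
  obtain ⟨C, hC, hb⟩ := scl_bd 6 sp1_B0
  refine ⟨C, fun p => ?_⟩
  obtain ⟨⟨cB, μ, η⟩, h0, h1, h2, -, -⟩ := p
  dsimp only at h0 h1 h2 ⊢
  obtain ⟨t0, t1, t2⟩ := om_tau h0 h1 h2
  rw [bmp_eq]
  refine ((hb _ _ t0 t1).mono_set (Set.subset_univ _)).mono_const ?_
  generalize cB * η ^ 32 = τ at t0 t1 t2
  refine mul_le_of_le_one_right hC ?_
  rw [abs_of_pos (by positivity), div_le_one (by positivity)]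
  have h3 : η ^ (32 * N) ≤ τ ^ 4 :=
    calc η ^ (32 * N) ≤ η ^ (33 * 4) := pow_le_pow_of_le_one h0.le (h1.trans h2) (by omega)
      _ = (η ^ 33) ^ 4 := pow_mul _ _ _
      _ ≤ τ ^ 4 := by gcongr
  calc η ^ (32 * N) * τ ^ 2 ≤ τ ^ 4 * τ ^ 2 := by gcongr
    _ = τ ^ 6 := by ring

theorem om_bd (N : ℕ) (hN : 20 ≤ N) : ∃ A : ℝ, ∀ cB μ η : ℝ, 0 < η → η ≤ cB → cB ≤ 1 → 0 < μ →
    μ ≤ 1 → Bd (closedBall (0 : Pt) 1) A 6 (om μ η N cB) ∧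
      Bd Set.univ (A * η ^ 64) 1 (wv (om μ η N cB) - wq μ η) ∧ 0 ≤ (om μ η N cB).1 0 := by
  obtain ⟨A, hA⟩ := om_cb0.add (om_cb1 N hN)
  obtain ⟨C, hC, hb⟩ := scl_bd 1 sp1_B0.wv
  refine ⟨max A C, fun cB μ η h0 h1 h2 h3 h4 => ⟨?_, ?_, ?_⟩⟩
  · exact (hA ⟨(cB, μ, η), h0, h1, h2, h3, h4⟩).mono_const (le_max_left _ _)
  · obtain ⟨t0, t1, t2⟩ := om_tau h0 h1 h2
    rw [wv_om, add_sub_cancel_left, wv_bmp _ t0]
    refine (hb _ _ t0 t1).mono_const ?_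
    generalize cB * η ^ 32 = τ at t0 t1 t2
    have h5 : |η ^ (32 * N)| / τ ^ 1 ≤ η ^ 64 := by
      rw [abs_of_pos (by positivity), pow_one, div_le_iff₀ t0]
      calc η ^ (32 * N) ≤ η ^ (64 + 33) := pow_le_pow_of_le_one h0.le (h1.trans h2) (by omega)
        _ = η ^ 64 * η ^ 33 := pow_add _ _ _
        _ ≤ η ^ 64 * τ := by gcongr
    exact mul_le_mul (le_max_right _ _) h5 (by positivity) (hC.trans (le_max_right _ _))
  · have h5 : (om0 μ (η ^ 32)).1 0 = 0 := by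
      simp only [om0, ev_add, ev_sub, ev_mul, ev_pow, ev_cst, ev_cS, ev_cT, Prod.fst_zero,
        Prod.snd_zero]
      ring
    have hc : 0 < cB := h0.trans_le h1
    rw [om, ev_add, h5, zero_add, bmp_eq, ev_scl]
    exact mul_nonneg (by positivity) (B0_cut.mem _).1

end
end Vale.Agent.P229
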