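import Vale.Agent.P229.Ident

/-! Pointwise values of the quadratic form for the chosen multipliers. -/

open scoped ContDiff
open MeasureTheory Metric

namespace Vale.Agent.P229
noncomputable section

theorem ds_rho (η : ℝ) (hη : 0 < η) : ds (rho η hη) = 0 := by
  have h : (cst (η ^ 30) + cT * cT) * rho η hη = cst (η ^ 30) := Sm.ext' fun x => by
    have : 0 < η ^ 30 + x.2 ^ 2 := by positivity
    simp only [rho, ev_mul, ev_add, ev_cst, ev_cT, ev_mkS]; field_simp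
  have h2 := congrArg ds h
  simp only [ds_mul, map_add, ds_cst, ds_cT] at h2
  refine Sm.ext' fun x => ?_
  have h3 := congrArg (fun f : Sm => f.1 x) h2
  have : 0 < η ^ 30 + x.2 * x.2 := by have := mul_self_nonneg x.2; positivity
  simp only [ev_mul, ev_add, ev_cst, ev_cT, ev_zero, mul_zero, add_zero] at h3
  simpa [this.ne'] using h3

theorem dt_rho (η : ℝ) (hη : 0 < η) :
    dt (rho η hη) = cst (-2 / η ^ 30) * cT * rho η hη ^ 2 := by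
  have h : (cst (η ^ 30) + cT * cT) * rho η hη = cst (η ^ 30) := Sm.ext' fun x => by
    have : 0 < η ^ 30 + x.2 ^ 2 := by positivity
    simp only [rho, ev_mul, ev_add, ev_cst, ev_cT, ev_mkS]; field_simp
  have h2 := congrArg dt h
  simp only [dt_mul, map_add, dt_cst, dt_cT] at h2
  refine Sm.ext' fun x => ?_
  have h3 := congrArg (fun f : Sm => f.1 x) h2
  have h4 : 0 < η ^ 30 + x.2 ^ 2 := by positivity
  simp only [ev_mul, ev_add, ev_cst, ev_cT, ev_zero, ev_one, rho, ev_mkS, ev_pow] at h3 ⊢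
  have h5 : (dt (mkS (fun x : Pt => η ^ 30 / (η ^ 30 + x.2 ^ 2))
      (contDiff_const.div (by fun_prop) fun x => by positivity))).1 x =
      -(η ^ 30 / (η ^ 30 + x.2 ^ 2) * (2 * x.2)) / (η ^ 30 + x.2 ^ 2) := by
    rw [eq_div_iff h4.ne']; nlinarith [h3]
  rw [h5]; field_simp

theorem ds_sq (f : Sm) : ds (f ^ 2) = 2 * f * ds f := by rw [sq, ds_mul]; ring
theorem dt_sq (f : Sm) : dt (f ^ 2) = 2 * f * dt f := by rw [sq, dt_mul]; ring
theorem ds_cube (f : Sm) : ds (f ^ 3) = 3 * f ^ 2 * ds f := by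
  rw [pow_succ, ds_mul, ds_sq]; ring
theorem dt_cube (f : Sm) : dt (f ^ 3) = 3 * f ^ 2 * dt f := by
  rw [pow_succ, dt_mul, dt_sq]; ring
theorem ds_four (f : Sm) : ds (f ^ 4) = 4 * f ^ 3 * ds f := by
  rw [pow_succ, ds_mul, ds_cube]; ring
theorem dt_four (f : Sm) : dt (f ^ 4) = 4 * f ^ 3 * dt f := by
  rw [pow_succ, dt_mul, dt_cube]; ring
@[simp] theorem ev_two (x : Pt) : (2 : Sm).1 x = 2 := rfl
@[simp] theorem ev_three (x : Pt) : (3 : Sm).1 x = 3 := rfl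
@[simp] theorem ev_four (x : Pt) : (4 : Sm).1 x = 4 := rfl
theorem ds_one : ds (1 : Sm) = 0 := Derivation.map_one_eq_zero _
theorem dt_one : dt (1 : Sm) = 0 := Derivation.map_one_eq_zero _

theorem qform (K : Coef) (μ η ν C1 : ℝ) (hη : 0 < η) (χ : Sm) (x : Pt) :
    let D := mkPD K ν x
    let n0 := (th K).1 x * (bw K.σ η).1 x
    let c := χ.1 x
    let cs := (ds χ).1 x
    let ct := (T K.σ χ).1 x
    (Qqq K.σ K.g1 (mB K η χ) (mA K η hη χ) (mC K η hη χ C1)).1 x = 2 * n0 * D.Aqq η c cs ct C1 ∧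
    (Qqy K.σ (K.k μ η) K.g1 (K.g2 μ η ν) (mB K η χ) (mA K η hη χ)).1 x
      = 2 * n0 * D.Aqy μ η c cs ct ∧
    (Qyy K.σ (K.k μ η) (K.g2 μ η ν) (mB K η χ) (mA K η hη χ) (mC K η hη χ C1)).1 x
      = 2 * n0 * D.Ayy μ η c cs ct C1 ∧
    (Lq K.σ K.g1 (mC K η hη χ C1)).1 x = 2 * n0 * D.Alq η c ct C1 ∧
    (Ly (K.k μ η) (K.g2 μ η ν) (mC K η hη χ C1)).1 x = 2 * n0 * D.Aly μ η c cs C1 ∧
    (mB K η χ).1 x = n0 * (c ^ 4 * D.B η) ∧ (mA K η hη χ).1 x = n0 * (c ^ 4 * D.τ η / 4) ∧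
    (mC K η hη χ C1).1 x = n0 * D.cc η c C1 ∧ (bw K.σ η).1 x = D.b1 η := by
  intro D n0 c cs ct
  have h1 : 0 < η ^ 30 + x.2 ^ 2 := by positivity
  have h2 : 0 < η ^ 56 + (pp K.σ).1 x ^ 2 := by positivity
  have hr : (rho η hη).1 x = η ^ 30 / (η ^ 30 + x.2 ^ 2) := rfl
  simp only [D, n0, c, cs, ct, Qqq, Qqy, Qyy, Lq, Ly, mB, mA, mC, Coef.g2, Coef.k, Coef.w, wq, bw, th,
    T, map_add, map_sub, ds_mul, dt_mul, ds_sq, dt_sq, ds_cube, dt_cube, ds_four, dt_four, ds_ex,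
    dt_ex, ds_cst, dt_cst, ds_cS, dt_cS, ds_cT, dt_cT, ds_rho, dt_rho, ds_one, dt_one,
    ev_add, ev_sub, ev_mul, ev_pow, ev_cst, ev_cS, ev_cT, ev_zero, ev_one, ev_two, ev_three, ev_four,
    hr, mkPD, PD.Aqq, PD.Aqy, PD.Ayy, PD.Alq, PD.Aly, PD.cc, PD.qq, PD.qy, PD.yy, PD.c0, PD.c0',
    PD.τ, PD.τ', PD.ρ, PD.B, PD.Γ, PD.b1, PD.k, PD.ks, PD.kt, PD.w]
  have h3 : 1 + (pp K.σ).1 x ^ 2 / η ^ 56 ≠ 0 := by positivity
  refine ⟨?_, ?_, ?_, ?_, ?_, ?_, ?_, ?_, ?_⟩ <;> field_simp <;> ring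

end
end Vale.Agent.P229
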