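import Vale.Agent.P229.Cls
import Vale.Agent.P229.Scl
import Vale.Agent.P229.QForm

open scoped ContDiff
open MeasureTheory Metric

namespace Vale.Agent.P229
noncomputable section

variable {I : Type} {c : Ctx I}

theorem oc_real {η cB : ℝ} (h0 : 0 < η) (h1 : η ≤ 1) (hcB : 0 < cB) {N p q d e : ℕ}
    (h : 32 * q + d ≤ 32 * N + 32 * p + e) :
    η ^ (32 * N) * (cB * η ^ 32) ^ p / (cB * η ^ 32) ^ q ≤
      cB ^ p / cB ^ q * (η ^ d * (1 / η) ^ e) := by
  have h2 : η ^ (32 * N + 32 * p + e) ≤ η ^ (32 * q + d) := pow_le_pow_of_le_one h0.le h1 h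
  have e1 : η ^ (32 * N) * (cB * η ^ 32) ^ p / (cB * η ^ 32) ^ q =
      cB ^ p / cB ^ q * (η ^ (32 * N + 32 * p + e) / (η ^ (32 * q) * η ^ e)) := by
    rw [mul_pow, mul_pow, ← pow_mul, ← pow_mul, pow_add, pow_add]
    field_simp
  have e2 : η ^ d * (1 / η) ^ e = η ^ (32 * q + d) / (η ^ (32 * q) * η ^ e) := by
    rw [pow_add, one_div, inv_pow]
    field_simp
  rw [e1, e2]
  gcongr

theorem oc_int {g : Sm} (hg : Sp1 g) (a r : ℝ) {τ : ℝ} (hτ : 0 < τ) :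
    ∫ x in closedBall (0 : Pt) r, (scl a τ g).1 x ^ 2 ≤ (∫ x, g.1 x ^ 2) * (τ * a) ^ 2 := by
  have hi : Integrable fun x => (scl a τ g).1 x ^ 2 := by
    have := integrable_of_compact (cs_mul_left (scl a τ g) (scl_cpt hg a hτ))
    refine this.congr (Filter.Eventually.of_forall fun x => ?_)
    simp [sq]
  refine (setIntegral_le_integral hi (Filter.Eventually.of_forall fun x => sq_nonneg _)).trans ?_
  rw [integral_scl (fun y => y ^ 2) a hτ g]
  simp only [mul_pow]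
  rw [integral_const_mul]
  exact le_of_eq (by ring)

theorem oc_scl (hc : c.OK) {cB : ℝ} (hcB : 0 < cB) (hcB1 : cB ≤ 1) {g : Sm} (hg : Sp1 g)
    {n p q : ℕ} (h1 : 32 * q ≤ 32 * c.N + 32 * p + ez c.N n)
    (h2 : 32 * q ≤ 32 * c.N + 32 * (p + 1) + ey c.N n) :
    Good c n fun i => scl (c.η i ^ (32 * c.N) * (cB * c.η i ^ 32) ^ p / (cB * c.η i ^ 32) ^ q)
      (cB * c.η i ^ 32) g := by
  have hτ : ∀ i, 0 < cB * c.η i ^ 32 := fun i => mul_pos hcB (pow_pos (hc.pos i) _)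
  have ha : ∀ i, 0 ≤ c.η i ^ (32 * c.N) * (cB * c.η i ^ 32) ^ p / (cB * c.η i ^ 32) ^ q :=
    fun i => by
      have := hτ i
      have := hc.pos i
      positivity
  refine ⟨fun _ => ?_, fun _ => ?_⟩
  · obtain ⟨C, hC⟩ := hc.small
    refine ⟨|C| * ((∫ x, g.1 x ^ 2) * (cB ^ (p + 1) / cB ^ q) ^ 2), fun i => ?_⟩
    set a := c.η i ^ (32 * c.N) * (cB * c.η i ^ 32) ^ p / (cB * c.η i ^ 32) ^ q with ha'
    have h3 : ∫ x in closedBall (0 : Pt) c.r, c.β i x * (scl a (cB * c.η i ^ 32) g).1 x ^ 2 ≤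
        ∫ x in closedBall (0 : Pt) c.r, |C| * (scl a (cB * c.η i ^ 32) g).1 x ^ 2 := by
      refine setIntegral_mono_on (gd_int hc i _)
        (intOn (continuous_const.mul ((Sm.cont _).pow 2)) _) measurableSet_closedBall
        fun x _ => ?_
      by_cases hx : ‖x‖ ≤ c.η i ^ 32
      · exact mul_le_mul_of_nonneg_right ((hC i x hx).trans (le_abs_self C)) (sq_nonneg _)
      · rw [scl_zero hg a (hτ i) (lt_of_le_of_lt
          (mul_le_of_le_one_left (pow_pos (hc.pos i) _).le hcB1) (not_le.1 hx))]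
        simp
    rw [integral_const_mul] at h3
    have h4 : cB * c.η i ^ 32 * a ≤ cB ^ (p + 1) / cB ^ q * (1 / c.η i) ^ ey c.N n := by
      have := oc_real (hc.pos i) (hc.le1 i) hcB (N := c.N) (p := p + 1) (q := q) (d := 0)
        (e := ey c.N n) (by omega)
      rw [pow_zero, one_mul] at this
      refine le_trans (le_of_eq ?_) this
      rw [ha']
      ring
    have h5 : 0 ≤ ∫ x, g.1 x ^ 2 := integral_nonneg fun x => sq_nonneg _
    have h6 : 0 ≤ cB * c.η i ^ 32 * a := mul_nonneg (hτ i).le (ha i)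
    calc _ ≤ _ := h3
      _ ≤ |C| * ((∫ x, g.1 x ^ 2) * (cB * c.η i ^ 32 * a) ^ 2) :=
          mul_le_mul_of_nonneg_left (oc_int hg a c.r (hτ i)) (abs_nonneg _)
      _ ≤ |C| * ((∫ x, g.1 x ^ 2) * (cB ^ (p + 1) / cB ^ q * (1 / c.η i) ^ ey c.N n) ^ 2) := by
          gcongr
      _ = _ := by ring
  · obtain ⟨C, hC0, hC⟩ := scl_bound hg
    refine ⟨C * (cB ^ p / cB ^ q), fun i x _ => (hC _ _ x).trans ?_⟩
    have := oc_real (hc.pos i) (hc.le1 i) hcB (N := c.N) (p := p) (q := q) (d := 0)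
      (e := ez c.N n) (by omega)
    rw [pow_zero, one_mul] at this
    rw [abs_of_nonneg (ha i), mul_assoc]
    exact mul_le_mul_of_nonneg_left this hC0

theorem oc_fix (hc : c.OK) {a : ℕ} (h1 h2 : Sm) : Cls c a fun i => h1 + c.η i ^ 32 • h2 := by
  refine cls_of_bnd hc fun l => ?_
  simp only [map_add, map_smul]
  simp only [smul_eq_cst]
  refine (bnd_const _).add (Bnd.mul ⟨1, fun i x _ => ?_⟩ (bnd_const _))
  rw [ev_cst, abs_of_pos (pow_pos (hc.pos i) _)]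
  exact pow_le_one₀ (hc.pos i).le (hc.le1 i)

theorem oc_om0 (μ ε : ℝ) : om0 μ ε = om0 μ 0 + ε • (cst (1 / 2) * cT ^ 2) :=
  Sm.ext' fun x => by
    simp [om0]
    ring

theorem oc_wq (μ η : ℝ) : wq μ η = (cT ^ 2 + cst μ * cS ^ 2) + η ^ 32 • (-1 : Sm) :=
  Sm.ext' fun x => by
    simp [wq]
    ring

theorem om_cls (hc : c.OK) {cB μ : ℝ} (hcB : 0 < cB) (hcB1 : cB ≤ 1) (hμ : 0 < μ) (hμ1 : μ ≤ 1) :
    Cls c 0 (fun i => ds (om μ (c.η i) c.N cB)) ∧ Cls c 0 (fun i => dt (om μ (c.η i) c.N cB)) ∧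
    Cls c 1 (fun i => wv (om μ (c.η i) c.N cB)) ∧
    Cls c 0 (fun i => ex (2 * om μ (c.η i) c.N cB)) := by
  have hτ : ∀ i, 0 < cB * c.η i ^ 32 := fun i => mul_pos hcB (pow_pos (hc.pos i) _)
  have hN := hc.hN
  have hb : ∀ g : Sm, Sp1 g → Cls c 0 fun i =>
      scl (c.η i ^ (32 * c.N) * (cB * c.η i ^ 32) ^ 2 / (cB * c.η i ^ 32)) (cB * c.η i ^ 32) g := by
    intro g hg l
    simp only [fun i a => dsn_scl l a (hτ i) g, div_div, ← pow_succ']
    refine oc_scl hc hcB hcB1 (hg.dsn l) ?_ ?_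
    · unfold ez ey; split_ifs <;> omega
    · unfold ey; omega
  have h1 : Cls c 0 fun i => ds (om μ (c.η i) c.N cB) := by
    simp only [om, oc_om0 μ (_ ^ 32), map_add, Derivation.map_smul, bmp_eq,
      fun i a => ds_scl a (hτ i) B0]
    exact (oc_fix hc _ _).add hc (hb _ sp1_B0.ds)
  refine ⟨h1, ?_, ?_, ?_⟩
  · simp only [om, oc_om0 μ (_ ^ 32), map_add, Derivation.map_smul, bmp_eq,
      fun i a => dt_scl a (hτ i) B0]
    exact (oc_fix hc _ _).add hc (hb _ sp1_B0.dt)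
  · simp only [wv_om, oc_wq, fun i a => wv_bmp a (hτ i)]
    refine (oc_fix hc _ _).add hc fun l => ?_
    simp only [fun i a => dsn_scl l a (hτ i) (wv B0)]
    have := oc_scl hc hcB hcB1 (sp1_B0.wv.dsn l) (n := l + 1) (p := 0) (q := l)
      (by unfold ez ey; split_ifs <;> omega) (by unfold ey; omega)
    simpa only [pow_zero, mul_one] using this
  · refine cls_exp hc (f := fun i => ds (om μ (c.η i) c.N cB) + ds (om μ (c.η i) c.N cB))
      (fun i => by rw [ds_ex, two_mul, map_add, mul_comm]) ?_ (h1.add hc h1)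
    have h2 : Good c 0 fun i => om μ (c.η i) c.N cB := by
      simp only [om, oc_om0 μ (_ ^ 32), bmp_eq]
      refine Good.add hc (oc_fix hc (a := 0) _ _ 0) ?_
      have := oc_scl hc hcB hcB1 sp1_B0 (n := 0) (p := 2) (q := 0) (by omega) (by omega)
      simpa only [pow_zero, div_one] using this
    obtain ⟨C, hC⟩ := h2.bnd (by omega)
    refine ⟨Real.exp (C + C), fun i x hx => ?_⟩
    rw [ev_ex, abs_of_pos (Real.exp_pos _), two_mul, ev_add]
    have := (le_abs_self _).trans (hC i x hx)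
    exact Real.exp_le_exp.2 (add_le_add this this)

theorem om_src (N j : ℕ) (hj : 3 ≤ j) {cB : ℝ} (hcB : 0 < cB) (hcB1 : cB ≤ 1) : ∃ C : ℝ,
    ∀ μ η r : ℝ, 0 < η → η ≤ 1 →
      dsn j (wv (om μ η N cB)) = dsn j (wv (bmp (η ^ (32 * N)) (cB * η ^ 32))) ∧
      (∀ x : Pt, η ^ 32 < ‖x‖ → (dsn j (wv (om μ η N cB))).1 x = 0) ∧
      ∫ x in closedBall (0 : Pt) r, (dsn j (wv (om μ η N cB))).1 x ^ 2 ≤
        C * (η * (1 / η) ^ ey N (j + 1)) ^ 2 := by
  refine ⟨(∫ x, (dsn j (wv B0)).1 x ^ 2) * (cB ^ 1 / cB ^ j) ^ 2, fun μ η r h0 h1 => ?_⟩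
  have hτ : 0 < cB * η ^ 32 := mul_pos hcB (pow_pos h0 _)
  have e : dsn j (wv (om μ η N cB)) = dsn j (wv (bmp (η ^ (32 * N)) (cB * η ^ 32))) := by
    rw [wv_om, map_add, dsn_wq μ η hj, zero_add]
  refine ⟨e, ?_⟩
  rw [e, wv_bmp _ hτ, dsn_scl j _ hτ]
  refine ⟨fun x hx => scl_zero (sp1_B0.wv.dsn j) _ hτ
    (lt_of_le_of_lt (mul_le_of_le_one_left (pow_pos h0 _).le hcB1) hx), ?_⟩
  refine (oc_int (sp1_B0.wv.dsn j) _ r hτ).trans ?_
  have h4 : cB * η ^ 32 * (η ^ (32 * N) / (cB * η ^ 32) ^ j) ≤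
      cB ^ 1 / cB ^ j * (η * (1 / η) ^ ey N (j + 1)) := by
    have := oc_real h0 h1 hcB (N := N) (p := 1) (q := j) (d := 1) (e := ey N (j + 1))
      (by unfold ey; omega)
    rw [pow_one η] at this
    refine le_trans (le_of_eq ?_) this
    ring
  have h5 : 0 ≤ ∫ x, (dsn j (wv B0)).1 x ^ 2 := integral_nonneg fun x => sq_nonneg _
  rw [mul_assoc (∫ x, (dsn j (wv B0)).1 x ^ 2), ← mul_pow]
  gcongr

end
end Vale.Agent.P229
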