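import Vale.Agent.P229.QForm

/-! Pointwise values of the adjoint operator on the quasimode. -/

open scoped ContDiff
open MeasureTheory Metric

namespace Vale.Agent.P229
noncomputable section

theorem dss_pp (σ : Sm) : ds (ds (pp σ)) = 0 := by
  simp only [pp, map_sub, ds_mul, ds_sq, ds_cst, ds_cS, ds_cT, map_add, ds_one, ds_two, map_zero,
    mul_zero, mul_one, add_zero, zero_add, sub_zero]

theorem T_add (σ f g : Sm) : T σ (f + g) = T σ f + T σ g := by simp only [T, map_add]; ring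
theorem T_sub (σ f g : Sm) : T σ (f - g) = T σ f - T σ g := by simp only [T, map_sub]; ring
theorem T_neg (σ f : Sm) : T σ (-f) = -T σ f := by simp only [T, map_neg]; ring
theorem T_mul (σ f g : Sm) : T σ (f * g) = f * T σ g + g * T σ f := by
  simp only [T, ds_mul, dt_mul]; ring
theorem T_sq (σ f : Sm) : T σ (f ^ 2) = 2 * f * T σ f := by rw [sq, T_mul]; ring
theorem T_cst (σ : Sm) (a : ℝ) : T σ (cst a) = 0 := by simp [T]
theorem T_one (σ : Sm) : T σ 1 = 0 := by simp [T]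
theorem T_two (σ : Sm) : T σ 2 = 0 := by simp only [T, ds_two, dt_two]; ring
theorem T_zero (σ : Sm) : T σ 0 = 0 := by simp [T]
theorem T_cT (σ : Sm) : T σ cT = 1 := by simp [T]
theorem T_ex (σ f : Sm) : T σ (ex f) = ex f * T σ f := by simp only [T, ds_ex, dt_ex]; ring
theorem T_co (σ f : Sm) : T σ (co f) = -(si f * T σ f) := by simp only [T, ds_co, dt_co]; ring
theorem T_si (σ f : Sm) : T σ (si f) = co f * T σ f := by simp only [T, ds_si, dt_si]; ring

theorem qbridge (K : Coef) (μ η : ℝ) (hμ : 0 ≤ μ) (hη : 0 < η) (χ : Sm) (x : Pt) :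
    let D := mkPD K 1 x
    let ψ := D.lam μ η * D.p
    (vq K μ η χ).1 x = χ.1 x * (Real.exp (-D.G μ η) * Real.cos ψ) ∧
    (Qop K.σ (K.k μ η) (vq K μ η χ)).1 x = Real.exp (-D.G μ η) *
      (χ.1 x * (D.X μ η * Real.cos ψ - D.Y μ η * Real.sin ψ)
        + 2 * (T K.σ χ).1 x * (-D.TG μ η * Real.cos ψ - D.lam μ η * D.e * Real.sin ψ)
        + 2 * (ds χ).1 x * (-(D.k μ η * D.Gs μ η) * Real.cos ψ
          - D.k μ η * (D.lam μ η * D.ps) * Real.sin ψ)
        + (Qop K.σ (K.k μ η) χ).1 x * Real.cos ψ) := by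
  intro D ψ
  have hk : (K.k μ η).1 x = D.k μ η := by
    simp [D, Coef.k, Coef.w, wq, mkPD, PD.k, PD.w]
  have hks : (ds (K.k μ η)).1 x = D.ks μ η := by
    simp only [D, Coef.k, Coef.w, wq, mkPD, PD.ks, PD.w, ds_mul, map_add, map_sub, ds_sq, ds_cst,
      ds_cS, ds_cT, ev_add, ev_sub, ev_mul, ev_pow, ev_cst, ev_cS, ev_cT, ev_zero, ev_one, ev_two]
    ring
  have ha : (mkPD K 1 0).a0 μ = D.a0 μ := rfl
  have hu : (mkPD K 1 0).υ μ = D.υ μ := rfl
  have hl : (mkPD K 1 0).lam μ η = D.lam μ η := rfl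
  have hG : (Gq K μ η).1 x = D.G μ η := by
    simp only [Gq, ha, hu, ev_add, ev_mul, ev_pow, ev_cst, ev_cT, PD.G, PD.tt]
    simp only [D, mkPD]; ring
  refine ⟨by simp only [vq, hl, ev_mul, ev_ex, ev_co, ev_neg, ev_cst, hG]; rfl, ?_⟩
  simp only [vq, Qop, hl, T_mul, T_add, T_neg, T_ex, T_co, T_si, T_cst, ds_mul, map_add, map_neg,
    ds_ex, ds_co, ds_si, ds_cst, dss_pp, ev_add, ev_mul, ev_neg, ev_ex, ev_co, ev_si, ev_cst, ev_zero,
    hG, hk, hks, T_zero, map_zero]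
  simp only [Gq, ha, hu, T_mul, T_add, T_sq, T_cst, T_cT, T_one, T_two, T_zero, ds_mul, map_add,
    ds_sq, ds_cst, ds_cT, ds_two, dss_pp, map_zero, ev_add, ev_mul, ev_pow, ev_cst, ev_cT, ev_zero,
    ev_one, ev_two, PD.X, PD.Y, PD.TG, PD.TTG, PD.Gs, PD.Gss, PD.ga, PD.tt, ψ]
  simp only [D, mkPD]
  field_simp
  ring

end
end Vale.Agent.P229
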