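import Vale.Agent.P229.RBas

open scoped ContDiff
open MeasureTheory Metric

namespace Vale.Agent.P229
noncomputable section

/-- admissible parameters -/
structure QX1I (M : ℝ) where
  μ : ℝ
  r : ℝ
  η : ℝ
  D : PD
  hμ : 0 < μ
  hμM : μ * M ^ 2 ≤ 1 / 2
  hr : M * r ≤ 1 / 2
  hη : 0 < η
  hη1 : η ≤ 1
  hMη : M * η ^ 32 ≤ 1
  ok : PDOK M r η D

namespace QX1I
variable {M : ℝ}

def g (i : QX1I M) : ℝ := √(i.D.Hh i.μ i.η)
def b (i : QX1I M) : ℝ := 1 + |i.D.p| / i.η ^ 28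

theorem one_le_Hh (i : QX1I M) : 1 ≤ i.D.Hh i.μ i.η := by
  have := i.hη
  have h1 : 0 ≤ i.D.tt i.μ ^ 2 / i.η ^ 32 := by positivity
  have h2 : 0 ≤ i.D.p ^ 2 / i.η ^ 40 := by positivity
  unfold PD.Hh
  linarith

theorem one_le_g (i : QX1I M) : 1 ≤ i.g := Real.one_le_sqrt.2 i.one_le_Hh

theorem one_le_b (i : QX1I M) : 1 ≤ i.b := by
  have := i.hη
  exact le_add_of_nonneg_right (by positivity)

/-- size classes -/
def O (a : ℤ) (n c : ℕ) (f : QX1I M → ℝ) : Prop :=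
  ∃ C : ℝ, 0 ≤ C ∧ ∀ i, |f i| ≤ C * (i.η ^ a * i.g ^ n * i.b ^ c)

variable {a a' : ℤ} {n n' c c' : ℕ} {f f' : QX1I M → ℝ}

theorem wt_nonneg (i : QX1I M) (a : ℤ) (n c : ℕ) : 0 ≤ i.η ^ a * i.g ^ n * i.b ^ c := by
  have h1 := i.hη
  have h2 := zero_le_one.trans i.one_le_g
  have h3 := zero_le_one.trans i.one_le_b
  positivity

theorem O.mono (h : O a n c f) (h1 : a' ≤ a) (h2 : n ≤ n')
    (h3 : c ≤ c') : O a' n' c' f := by
  obtain ⟨C, hC, h⟩ := h
  refine ⟨C, hC, fun i => (h i).trans (mul_le_mul_of_nonneg_left ?_ hC)⟩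
  have e1 := i.hη
  have e2 := zero_le_one.trans i.one_le_g
  have e3 := zero_le_one.trans i.one_le_b
  exact mul_le_mul (mul_le_mul (zpow_le_zpow_right_of_le_one₀ i.hη i.hη1 h1)
    (pow_le_pow_right₀ i.one_le_g h2) (by positivity) (by positivity))
    (pow_le_pow_right₀ i.one_le_b h3) (by positivity) (by positivity)

theorem O.le (h : O a n c f) (h' : ∀ i, |f' i| ≤ |f i|) : O a n c f' := by
  obtain ⟨C, hC, h⟩ := h
  exact ⟨C, hC, fun i => (h' i).trans (h i)⟩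

theorem O.le' (h : O a n c f) (h' : ∀ i, |f' i| ≤ f i) : O a n c f' :=
  h.le fun i => (h' i).trans (le_abs_self _)

theorem O.congr (h : O a n c f) (h' : ∀ i, f' i = f i) : O a n c f' :=
  h.le fun i => by rw [h' i]

theorem O.abs (h : O a n c f) : O a n c fun i => |f i| := h.le fun i => by rw [abs_abs]

theorem O.mul (h : O a n c f) (h' : O a' n' c' f') :
    O (a + a') (n + n') (c + c') fun i => f i * f' i := by
  obtain ⟨C, hC, h⟩ := h
  obtain ⟨C', hC', h'⟩ := h'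
  refine ⟨C * C', mul_nonneg hC hC', fun i => ?_⟩
  rw [abs_mul, zpow_add₀ i.hη.ne', pow_add, pow_add]
  refine (mul_le_mul (h i) (h' i) (abs_nonneg _) (mul_nonneg hC (wt_nonneg i _ _ _))).trans_eq ?_
  ring

theorem O.sq (h : O a n c f) : O (a + a) (n + n) (c + c) fun i => f i ^ 2 :=
  (h.mul h).congr fun _ => _root_.sq _

theorem O.add (h : O a n c f) (h' : O a' n' c' f') :
    O (min a a') (max n n') (max c c') fun i => f i + f' i := by
  obtain ⟨C, hC, h⟩ := h.mono (min_le_left a a') (le_max_left n n') (le_max_left c c')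
  obtain ⟨C', hC', h'⟩ := h'.mono (min_le_right a a') (le_max_right n n') (le_max_right c c')
  refine ⟨C + C', add_nonneg hC hC', fun i => ?_⟩
  rw [add_mul]
  exact (abs_add_le _ _).trans (add_le_add (h i) (h' i))

theorem O.sub (h : O a n c f) (h' : O a' n' c' f') :
    O (min a a') (max n n') (max c c') fun i => f i - f' i :=
  (h.add (f' := fun i => -f' i) (h'.le fun i => by rw [abs_neg])).congr fun _ => sub_eq_add_neg _ _

theorem bd {C : ℝ} (hC : 0 ≤ C) (h : ∀ i, |f i| ≤ C) : O 0 0 0 f :=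
  ⟨C, hC, fun i => by simpa using h i⟩

theorem cst (C : ℝ) : O (M := M) 0 0 0 fun _ => C := bd (abs_nonneg C) fun _ => le_rfl

theorem pw (k : ℕ) : O (M := M) k 0 0 fun i => i.η ^ k :=
  ⟨1, zero_le_one, fun i => by simp [abs_of_pos i.hη]⟩

theorem O.div (h : O a n c f) (k : ℕ) : O (a - k) n c fun i => f i / i.η ^ k := by
  obtain ⟨C, hC, h⟩ := h
  refine ⟨C, hC, fun i => ?_⟩
  have := i.hη
  rw [abs_div, abs_of_pos (pow_pos this k), zpow_sub₀ this.ne', zpow_natCast]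
  refine (div_le_div_of_nonneg_right (h i) (pow_pos this k).le).trans_eq ?_
  ring

theorem o_tt : O (M := M) 16 1 0 fun i => i.D.tt i.μ := by
  refine ⟨1, zero_le_one, fun i => ?_⟩
  have h := i.hη
  have h1 : 0 ≤ i.D.p ^ 2 / i.η ^ 40 := by positivity
  have h2 : (i.D.tt i.μ / i.η ^ 16) ^ 2 ≤ i.D.Hh i.μ i.η := by
    rw [div_pow, ← pow_mul]
    unfold PD.Hh
    linarith
  have h3 := Real.abs_le_sqrt h2
  rw [abs_div, abs_of_pos (pow_pos h 16), div_le_iff₀' (pow_pos h 16)] at h3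
  simpa [g, zpow_ofNat] using h3

theorem o_p : O (M := M) 20 1 0 fun i => i.D.p := by
  refine ⟨1, zero_le_one, fun i => ?_⟩
  have h := i.hη
  have h1 : 0 ≤ i.D.tt i.μ ^ 2 / i.η ^ 32 := by positivity
  have h2 : (i.D.p / i.η ^ 20) ^ 2 ≤ i.D.Hh i.μ i.η := by
    rw [div_pow, ← pow_mul]
    unfold PD.Hh
    linarith
  have h3 := Real.abs_le_sqrt h2
  rw [abs_div, abs_of_pos (pow_pos h 20), div_le_iff₀' (pow_pos h 20)] at h3
  simpa [g, zpow_ofNat] using h3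

theorem o_p' : O (M := M) 28 0 1 fun i => i.D.p := by
  refine ⟨1, zero_le_one, fun i => ?_⟩
  have h := pow_pos i.hη 28
  have h1 : |i.D.p| / i.η ^ 28 ≤ i.b := le_add_of_nonneg_left zero_le_one
  rw [div_le_iff₀' h] at h1
  simpa [zpow_ofNat] using h1

theorem a0_bd (i : QX1I M) : 1 ≤ i.D.a0 i.μ ∧ i.D.a0 i.μ ≤ 2 := by
  have h1 := sq_le_sq' (abs_le.1 i.ok.hσ0).1 (abs_le.1 i.ok.hσ0).2
  have h2 := mul_le_mul_of_nonneg_left h1 i.hμ.le
  have h3 := mul_nonneg i.hμ.le (sq_nonneg i.D.σ0)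
  have h4 := i.hμM
  unfold PD.a0
  constructor <;> linarith

theorem μ_le (hM : 1 ≤ M) (i : QX1I M) : i.μ ≤ 1 := by
  have h1 := mul_le_mul_of_nonneg_left (one_le_pow₀ hM (n := 2)) i.hμ.le
  have h2 := i.hμM
  linarith

theorem rb (hM : 1 ≤ M) (i : QX1I M) : RB M i.μ i.r i.η i.D :=
  rbas i.ok hM i.hr i.hη i.hη1 i.hMη i.hμ (μ_le hM i)

theorem lam_sq (hM : 1 ≤ M) (i : QX1I M) :
    i.D.lam i.μ i.η ^ 2 * i.D.m0 = i.D.a0 i.μ / i.η ^ 64 := by
  have h1 : 0 < i.D.m0 := lt_of_lt_of_le (by positivity) i.ok.m0_lo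
  have h2 := i.a0_bd.1
  have h3 := i.hη
  rw [PD.lam, div_pow, Real.sq_sqrt (by positivity)]
  field_simp

theorem X_eq (hM : 1 ≤ M) (i : QX1I M) : i.D.X i.μ i.η =
    2 * (i.D.a0 i.μ * i.D.tt i.μ / i.η ^ 32) * (i.D.e * i.D.ga i.μ i.η)
    + (i.D.e * i.D.ga i.μ i.η) ^ 2 - (i.D.lam i.μ i.η * i.D.e) ^ 2
    - (i.D.a0 i.μ * (i.D.υ i.μ * i.D.e) / i.η ^ 32 + i.D.Te * i.D.ga i.μ i.η
      + i.D.e * (i.D.a0 i.μ * i.D.υ i.μ * (1 + i.D.υ i.μ * i.D.e) / i.η ^ 32 + i.D.e / i.η ^ 40))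
    - i.D.σs * i.D.TG i.μ i.η + i.D.k i.μ i.η * i.D.Gs i.μ i.η ^ 2
    - i.D.k i.μ i.η * i.D.Gss i.μ i.η - i.D.ks i.μ i.η * i.D.Gs i.μ i.η
    - i.D.lam i.μ i.η ^ 2 * (i.D.m * ((i.D.ps - 1) * (i.D.ps + 1)) + (i.D.m - i.D.m0))
      * i.D.w i.μ i.η
    - (i.μ * (i.D.p * i.D.p) + i.D.a0 i.μ * (i.μ * ((i.D.s - i.D.σ0 * i.D.t - i.D.p)
      * (i.D.s + (i.D.p + i.D.σ0 * i.D.t))) + i.D.wb)) / i.η ^ 64 := by
  have h1 := lam_sq hM i
  have h2 : i.D.a0 i.μ * i.D.tt i.μ = i.D.a0 i.μ * i.D.t + i.μ * i.D.σ0 * i.D.p := by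
    have := i.a0_bd.1
    rw [PD.tt, PD.υ]
    field_simp
  have h3 := i.hη
  have h4 : (i.D.a0 i.μ * i.D.tt i.μ / i.η ^ 32) ^ 2 - i.D.a0 i.μ / i.η ^ 32
      - i.D.a0 i.μ / i.η ^ 64 * i.D.w i.μ i.η = -((i.μ * (i.D.p * i.D.p) + i.D.a0 i.μ *
        (i.μ * ((i.D.s - i.D.σ0 * i.D.t - i.D.p) * (i.D.s + (i.D.p + i.D.σ0 * i.D.t))) + i.D.wb))
          / i.η ^ 64) := by
    rw [h2, PD.w, PD.a0]
    field_simp
    ring
  rw [PD.X, PD.TTG]
  rw [show i.D.TG i.μ i.η ^ 2 = (i.D.a0 i.μ * i.D.tt i.μ / i.η ^ 32 + i.D.e * i.D.ga i.μ i.η) ^ 2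
    from rfl, show i.D.k i.μ i.η = i.D.m * i.D.w i.μ i.η from rfl]
  linear_combination h4 - i.D.w i.μ i.η * h1

theorem o_X (hM : 1 ≤ M) : O (M := M) (-16) 8 1 fun i => i.D.X i.μ i.η := by
  have hM0 : 0 ≤ M := zero_le_one.trans hM
  have oM := cst (M := M) M
  have oμ : O (M := M) 0 0 0 fun i => i.μ :=
    bd zero_le_one fun i => by rw [abs_of_pos i.hμ]; exact μ_le hM i
  have oa : O (M := M) 0 0 0 fun i => i.D.a0 i.μ :=
    bd zero_le_two fun i => abs_le.2 ⟨by linarith [i.a0_bd.1], i.a0_bd.2⟩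
  have oσ0 : O (M := M) 0 0 0 fun i => i.D.σ0 := bd hM0 fun i => i.ok.hσ0
  have oσs : O (M := M) 0 0 0 fun i => i.D.σs := bd hM0 fun i => i.ok.hσs
  have oms : O (M := M) 0 0 0 fun i => i.D.ms := bd hM0 fun i => i.ok.hms
  have om : O (M := M) 0 0 0 fun i => i.D.m := bd hM0 fun i => by
    have h : 0 < i.D.m := lt_of_lt_of_le (by positivity) i.ok.m_lo
    rw [abs_of_pos h]
    exact i.ok.m_hi
  have oυ : O (M := M) 0 0 0 fun i => i.D.υ i.μ := (oμ.mul oσ0).le fun i => by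
    have h := i.a0_bd.1
    rw [PD.υ, abs_div, abs_of_pos (one_pos.trans_le h)]
    exact div_le_self (abs_nonneg _) h
  have ops : O (M := M) 0 0 0 fun i => i.D.ps := bd zero_le_two fun i => by
    have h1 := abs_le.1 i.ok.hps
    have h2 := mul_le_mul_of_nonneg_left (rb hM i).dr hM0
    have h3 := i.hr
    rw [abs_le]
    constructor <;> linarith [h1.1, h1.2]
  have ot : O (M := M) 16 1 0 fun i => i.D.t :=
    ((o_tt.sub (oυ.mul o_p)).congr fun i => by rw [PD.tt]; ring).mono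
    (by omega) (by omega) (by omega)
  have od : O (M := M) 16 1 0 fun i => i.D.d :=
    ((((cst 2).mul o_p.abs).add ((cst (3 * M)).mul ot.abs)).le' fun i => by
      rw [abs_of_nonneg (rb hM i).d0]; exact (rb hM i).dp).mono
    (by omega) (by omega) (by omega)
  have os : O (M := M) 16 1 0 fun i => i.D.s := od.le' fun i => (rb hM i).sd
  have oe : O (M := M) 32 2 0 fun i => i.D.e := ((oM.mul od.sq).le' fun i => i.ok.he).mono
    (by omega) (by omega) (by omega)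
  have oTe : O (M := M) 16 1 0 fun i => i.D.Te := ((oM.mul od).le' fun i => i.ok.hTe).mono
    (by omega) (by omega) (by omega)
  have op1 : O (M := M) 16 1 0 fun i => i.D.ps - 1 := ((oM.mul od).le' fun i => i.ok.hps).mono
    (by omega) (by omega) (by omega)
  have omd : O (M := M) 16 1 0 fun i => i.D.m - i.D.m0 := ((oM.mul od).le' fun i => i.ok.hmd).mono
    (by omega) (by omega) (by omega)
  have osp : O (M := M) 32 2 0 fun i => i.D.s - i.D.σ0 * i.D.t - i.D.p :=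
    ((oM.mul od.sq).le' fun i => by rw [abs_sub_comm]; exact i.ok.hp).mono
    (by omega) (by omega) (by omega)
  have owb : O (M := M) 64 0 0 fun i => i.D.wb := ((oM.mul (pw 64)).le' fun i => i.ok.hwb).mono
    (by omega) (by omega) (by omega)
  have owbs : O (M := M) 64 0 0 fun i => i.D.wbs :=
    ((oM.mul (pw 64)).le' fun i => i.ok.hwbs).mono
    (by omega) (by omega) (by omega)
  have ow : O (M := M) 32 2 0 fun i => i.D.w i.μ i.η :=
    (((ot.sq.add (oμ.mul os.sq)).sub (pw 32)).add owb).mono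
    (by omega) (by omega) (by omega)
  have ok : O (M := M) 32 2 0 fun i => i.D.k i.μ i.η := (om.mul ow).mono
    (by omega) (by omega) (by omega)
  have oks : O (M := M) 16 2 0 fun i => i.D.ks i.μ i.η :=
    ((oms.mul ow).add (om.mul ((((cst 2).mul oμ).mul os).add owbs))).mono
    (by omega) (by omega) (by omega)
  have oga : O (M := M) (-20) 1 0 fun i => i.D.ga i.μ i.η :=
    ((((oa.mul oυ).mul o_tt).div 32).add (o_p.div 40)).mono
    (by omega) (by omega) (by omega)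
  have o1 : O (M := M) (-16) 1 0 fun i => i.D.a0 i.μ * i.D.tt i.μ / i.η ^ 32 :=
    ((oa.mul o_tt).div 32).mono
    (by omega) (by omega) (by omega)
  have o2 : O (M := M) 12 3 0 fun i => i.D.e * i.D.ga i.μ i.η := (oe.mul oga).mono
    (by omega) (by omega) (by omega)
  have oTG : O (M := M) (-16) 3 0 fun i => i.D.TG i.μ i.η := (o1.add o2).mono
    (by omega) (by omega) (by omega)
  have oGs : O (M := M) (-20) 1 0 fun i => i.D.Gs i.μ i.η := (ops.mul oga).mono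
    (by omega) (by omega) (by omega)
  have oGss : O (M := M) (-40) 0 0 fun i => i.D.Gss i.μ i.η :=
    (ops.sq.mul (((oa.mul oυ.sq).div 32).add ((cst 1).div 40))).mono
    (by omega) (by omega) (by omega)
  have ol0 : O (M := M) 0 0 0 fun i => √(i.D.a0 i.μ / i.D.m0) :=
    bd (Real.sqrt_nonneg (2 * M)) fun i => by
      have h1 : 0 < i.D.m0 := lt_of_lt_of_le (by positivity) i.ok.m0_lo
      have h2 := (div_le_iff₀' (one_pos.trans_le hM)).1 i.ok.m0_lo
      have h3 := i.a0_bd.2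
      rw [abs_of_nonneg (Real.sqrt_nonneg _)]
      refine Real.sqrt_le_sqrt ((div_le_iff₀ h1).2 ?_)
      linarith
  have ol : O (M := M) (-32) 0 0 fun i => i.D.lam i.μ i.η := (ol0.div 32).mono
    (by omega) (by omega) (by omega)
  have t1 : O (M := M) (-16) 8 1 _ := (((cst 2).mul o1).mul o2).mono
    (by omega) (by omega) (by omega)
  have t2 : O (M := M) (-16) 8 1 _ := o2.sq.mono
    (by omega) (by omega) (by omega)
  have t3 : O (M := M) (-16) 8 1 _ := (ol.mul oe).sq.mono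
    (by omega) (by omega) (by omega)
  have t4 : O (M := M) (-16) 8 1 _ := ((((oa.mul (oυ.mul oe)).div 32).add (oTe.mul oga)).add
    (oe.mul ((((oa.mul oυ).mul ((cst 1).add (oυ.mul oe))).div 32).add (oe.div 40)))).mono
    (by omega) (by omega) (by omega)
  have t5 : O (M := M) (-16) 8 1 _ := (oσs.mul oTG).mono
    (by omega) (by omega) (by omega)
  have t6 : O (M := M) (-16) 8 1 _ := (ok.mul oGs.sq).mono
    (by omega) (by omega) (by omega)
  have t7 : O (M := M) (-16) 8 1 _ := (ok.mul oGss).mono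
    (by omega) (by omega) (by omega)
  have t8 : O (M := M) (-16) 8 1 _ := (oks.mul oGs).mono
    (by omega) (by omega) (by omega)
  have t9 : O (M := M) (-16) 8 1 _ :=
    ((ol.sq.mul ((om.mul (op1.mul (ops.add (cst 1)))).add omd)).mul ow).mono
    (by omega) (by omega) (by omega)
  have t10 : O (M := M) (-16) 8 1 _ := (((oμ.mul (o_p.mul o_p')).add
    (oa.mul ((oμ.mul (osp.mul (os.add (o_p.add (oσ0.mul ot))))).add owb))).div 64).mono
    (by omega) (by omega) (by omega)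
  exact ((((((((((t1.add t2).sub t3).sub t4).sub t5).add t6).sub t7).sub t8).sub t9).sub
    t10).congr (X_eq hM)).mono
    (by omega) (by omega) (by omega)

end QX1I

theorem qx1 (M : ℝ) (hM : 1 ≤ M) : ∃ C : ℝ, ∀ (μ r η : ℝ) (D : PD), 0 < μ → μ * M ^ 2 ≤ 1 / 2 →
    M * r ≤ 1 / 2 → 0 < η → η ≤ 1 → M * η ^ 32 ≤ 1 → PDOK M r η D → |D.X μ η| ≤ C * D.Z μ η := by
  obtain ⟨C, -, h⟩ := QX1I.o_X hM
  refine ⟨C, fun μ r η D h1 h2 h3 h4 h5 h6 h7 => ?_⟩
  refine (h ⟨μ, r, η, D, h1, h2, h3, h4, h5, h6, h7⟩).trans_eq ?_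
  have h8 := QX1I.one_le_Hh ⟨μ, r, η, D, h1, h2, h3, h4, h5, h6, h7⟩
  have h9 : √(D.Hh μ η) ^ 8 = D.Hh μ η ^ 4 := by
    rw [show 8 = 2 * 4 from rfl, pow_mul, Real.sq_sqrt (zero_le_one.trans h8)]
  simp only [QX1I.g, QX1I.b, PD.Z, h9, pow_one, zpow_neg, zpow_ofNat, one_div, inv_pow]

end
end Vale.Agent.P229
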