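import Vale.Agent.P229.RBas

open scoped ContDiff
open MeasureTheory Metric

namespace Vale.Agent.P229
noncomputable section

theorem qx2_a0 {M μ : ℝ} {D : PD} (hμ : 0 < μ) (hμM : μ * M ^ 2 ≤ 1 / 2) (hσ : |D.σ0| ≤ M) :
    1 ≤ D.a0 μ ∧ D.a0 μ ≤ 3 / 2 := by
  have h1 : D.σ0 ^ 2 ≤ M ^ 2 := by
    rw [← sq_abs D.σ0]; exact pow_le_pow_left₀ (abs_nonneg _) hσ 2
  have h2 : μ * D.σ0 ^ 2 ≤ μ * M ^ 2 := mul_le_mul_of_nonneg_left h1 hμ.le
  have h3 : 0 ≤ μ * D.σ0 ^ 2 := by positivity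
  unfold PD.a0
  constructor <;> linarith

theorem qx2_ups {M μ : ℝ} {D : PD} (hM : 1 ≤ M) (hμ : 0 < μ) (hμM : μ * M ^ 2 ≤ 1 / 2)
    (hσ : |D.σ0| ≤ M) : |D.υ μ| ≤ 1 / 2 := by
  obtain ⟨h1, -⟩ := qx2_a0 hμ hμM hσ
  have h2 : μ * |D.σ0| ≤ 1 / 2 := by
    have : μ * |D.σ0| ≤ μ * M ^ 2 := mul_le_mul_of_nonneg_left (by nlinarith) hμ.le
    linarith
  unfold PD.υ
  rw [abs_div, abs_mul, abs_of_pos hμ, abs_of_pos (by linarith : 0 < D.a0 μ),
    div_le_iff₀ (by linarith)]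
  linarith

theorem qx2_Hh (D : PD) (μ : ℝ) {η : ℝ} (hη : 0 < η) : 1 ≤ D.Hh μ η := by
  unfold PD.Hh
  have h1 : 0 ≤ D.tt μ ^ 2 / η ^ 32 := by positivity
  have h2 : 0 ≤ D.p ^ 2 / η ^ 40 := by positivity
  linarith

/-- all data of the estimate -/
structure QX2I (M : ℝ) where
  μ : ℝ
  r : ℝ
  η : ℝ
  D : PD
  hμ : 0 < μ
  hμM : μ * M ^ 2 ≤ 1 / 2
  hr : M * r ≤ 1 / 2
  hη : 0 < η
  hη1 : η ≤ 1
  hMη : M * η ^ 32 ≤ 1
  ok : PDOK M r η D

namespace QX2I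
variable {M : ℝ}

def g (i : QX2I M) : ℝ := Real.sqrt (i.D.Hh i.μ i.η)
def sb (i : QX2I M) : ℝ := 1 + |i.D.p| / i.η ^ 28

theorem g1 (i : QX2I M) : 1 ≤ i.g := Real.one_le_sqrt.2 (qx2_Hh _ _ i.hη)
theorem g2 (i : QX2I M) : i.g ^ 2 = i.D.Hh i.μ i.η :=
  Real.sq_sqrt (by linarith [qx2_Hh i.D i.μ i.hη])
theorem sb1 (i : QX2I M) : 1 ≤ i.sb := by
  unfold sb
  have := i.hη
  have : 0 ≤ |i.D.p| / i.η ^ 28 := by positivity
  linarith

/-- the gauge -/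
def ga (a : ℤ) (b c : ℕ) (i : QX2I M) : ℝ := i.η ^ a * i.g ^ b * i.sb ^ c

theorem ga_pos (a : ℤ) (b c : ℕ) (i : QX2I M) : 0 < ga a b c i := by
  have := i.hη; have := i.g1; have := i.sb1
  unfold ga; positivity

theorem ga_mul (a a' : ℤ) (b b' c c' : ℕ) (i : QX2I M) :
    ga (a + a') (b + b') (c + c') i = ga a b c i * ga a' b' c' i := by
  unfold ga
  rw [zpow_add₀ i.hη.ne', pow_add, pow_add]; ring

theorem ga_mono {a a' : ℤ} {b b' c c' : ℕ} (ha : a' ≤ a) (hb : b ≤ b') (hc : c ≤ c')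
    (i : QX2I M) : ga a b c i ≤ ga a' b' c' i := by
  have h0 := i.hη; have h1 := i.g1; have h2 := i.sb1
  unfold ga
  have e1 : i.η ^ a ≤ i.η ^ a' := zpow_le_zpow_right_of_le_one₀ h0 i.hη1 ha
  have e2 : i.g ^ b ≤ i.g ^ b' := pow_le_pow_right₀ h1 hb
  have e3 : i.sb ^ c ≤ i.sb ^ c' := pow_le_pow_right₀ h2 hc
  gcongr

def O (a : ℤ) (b c : ℕ) (f : QX2I M → ℝ) : Prop :=
  ∃ C : ℝ, 0 ≤ C ∧ ∀ i, |f i| ≤ C * ga a b c i

theorem O.mono {a a' : ℤ} {b b' c c' : ℕ} {f : QX2I M → ℝ} (h : O a b c f) (ha : a' ≤ a)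
    (hb : b ≤ b') (hc : c ≤ c') : O a' b' c' f := by
  obtain ⟨C, h0, h⟩ := h
  exact ⟨C, h0, fun i => (h i).trans (mul_le_mul_of_nonneg_left (ga_mono ha hb hc i) h0)⟩

theorem O.add {a : ℤ} {b c : ℕ} {f f' : QX2I M → ℝ} (h : O a b c f) (h' : O a b c f') :
    O a b c fun i => f i + f' i := by
  obtain ⟨C, h0, h⟩ := h
  obtain ⟨C', h0', h'⟩ := h'
  refine ⟨C + C', by positivity, fun i => (abs_add_le _ _).trans ?_⟩
  have := h i; have := h' i; linarith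

theorem O.sub {a : ℤ} {b c : ℕ} {f f' : QX2I M → ℝ} (h : O a b c f) (h' : O a b c f') :
    O a b c fun i => f i - f' i := by
  obtain ⟨C, h0, h⟩ := h
  obtain ⟨C', h0', h'⟩ := h'
  refine ⟨C + C', by positivity, fun i => (abs_sub _ _).trans ?_⟩
  have := h i; have := h' i; linarith

theorem O.mul {a a' : ℤ} {b b' c c' : ℕ} {f f' : QX2I M → ℝ} (h : O a b c f)
    (h' : O a' b' c' f') : O (a + a') (b + b') (c + c') fun i => f i * f' i := by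
  obtain ⟨C, h0, h⟩ := h
  obtain ⟨C', h0', h'⟩ := h'
  refine ⟨C * C', by positivity, fun i => ?_⟩
  have := ga_pos a b c i
  rw [abs_mul, ga_mul]
  calc |f i| * |f' i| ≤ (C * ga a b c i) * (C' * ga a' b' c' i) :=
        mul_le_mul (h i) (h' i) (abs_nonneg _) (by positivity)
    _ = _ := by ring

theorem O.of_le {a : ℤ} {b c : ℕ} {f f' : QX2I M → ℝ} (h : O a b c f')
    (hf : ∀ i, |f i| ≤ f' i) : O a b c f := by
  obtain ⟨C, h0, h⟩ := h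
  exact ⟨C, h0, fun i => (hf i).trans ((le_abs_self _).trans (h i))⟩

theorem O.abs {a : ℤ} {b c : ℕ} {f : QX2I M → ℝ} (h : O a b c f) : O a b c fun i => |f i| := by
  obtain ⟨C, h0, h⟩ := h
  exact ⟨C, h0, fun i => by rw [abs_abs]; exact h i⟩

theorem O.bdd {f : QX2I M → ℝ} (C : ℝ) (hf : ∀ i, |f i| ≤ C) : O 0 0 0 f :=
  ⟨|C|, abs_nonneg _, fun i => by simpa [ga] using (hf i).trans (le_abs_self C)⟩

theorem O.cst (C : ℝ) : O (M := M) 0 0 0 fun _ => C := O.bdd |C| fun _ => le_rfl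

theorem O.smul {a : ℤ} {b c : ℕ} {f : QX2I M → ℝ} (C : ℝ) (h : O a b c f) :
    O a b c fun i => C * f i := by
  simpa using (O.cst C).mul h

theorem O.pw (n : ℕ) : O (M := M) n 0 0 fun i => i.η ^ n :=
  ⟨1, zero_le_one, fun i => by
    have := i.hη
    rw [abs_of_pos (by positivity)]; simp [ga]⟩

theorem O.div {a : ℤ} {b c : ℕ} {f : QX2I M → ℝ} (h : O a b c f) (n : ℕ) :
    O (a - n) b c fun i => f i / i.η ^ n := by
  have h1 : O (M := M) (-n) 0 0 fun i => (i.η ^ n)⁻¹ :=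
    ⟨1, zero_le_one, fun i => by
      have := i.hη
      rw [abs_of_pos (by positivity)]; simp [ga]⟩
  simpa [div_eq_mul_inv, sub_eq_add_neg] using h.mul h1

theorem O.of_sq {a : ℤ} {b c : ℕ} {f f' : QX2I M → ℝ} (h : O (a + a) (b + b) (c + c) f')
    (hf : ∀ i, f i ^ 2 ≤ f' i) : O a b c f := by
  obtain ⟨C, h0, h⟩ := h
  refine ⟨Real.sqrt C, Real.sqrt_nonneg _, fun i => ?_⟩
  have := ga_pos a b c i
  apply abs_le_of_sq_le_sq' _ (by positivity) |> fun h => abs_le.2 h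
  rw [mul_pow, Real.sq_sqrt h0]
  have h2 := (hf i).trans ((le_abs_self _).trans (h i))
  rw [ga_mul] at h2
  nlinarith

theorem rb (hM : 1 ≤ M) (i : QX2I M) : RB M i.μ i.r i.η i.D :=
  rbas i.ok hM i.hr i.hη i.hη1 i.hMη i.hμ (by
    have := i.hμM; have := i.hμ
    have : i.μ * 1 ≤ i.μ * M ^ 2 := mul_le_mul_of_nonneg_left (by nlinarith) i.hμ.le
    linarith)

theorem oHh : O (M := M) 0 2 0 fun i => i.D.Hh i.μ i.η :=
  ⟨1, zero_le_one, fun i => by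
    rw [abs_of_pos (by linarith [qx2_Hh i.D i.μ i.hη])]; simp [ga, i.g2]⟩

theorem ott : O (M := M) 16 1 0 fun i => i.D.tt i.μ := by
  refine O.of_sq ((O.pw 32).mul oHh) fun i => ?_
  have := i.hη
  have h1 : 0 ≤ i.D.p ^ 2 / i.η ^ 40 := by positivity
  have h2 : i.D.tt i.μ ^ 2 = i.η ^ 32 * (i.D.tt i.μ ^ 2 / i.η ^ 32) := by field_simp
  rw [h2]
  refine mul_le_mul_of_nonneg_left ?_ (by positivity)
  unfold PD.Hh; linarith

theorem op : O (M := M) 20 1 0 fun i => i.D.p := by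
  refine O.of_sq ((O.pw 40).mul oHh) fun i => ?_
  have := i.hη
  have h1 : 0 ≤ i.D.tt i.μ ^ 2 / i.η ^ 32 := by positivity
  have h2 : i.D.p ^ 2 = i.η ^ 40 * (i.D.p ^ 2 / i.η ^ 40) := by field_simp
  rw [h2]
  refine mul_le_mul_of_nonneg_left ?_ (by positivity)
  unfold PD.Hh; linarith

theorem op' : O (M := M) 28 0 1 fun i => i.D.p :=
  ⟨1, zero_le_one, fun i => by
    have := i.hη
    have h2 : |i.D.p| = i.η ^ 28 * (|i.D.p| / i.η ^ 28) := by field_simp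
    have h3 : ga 28 0 1 i = i.η ^ 28 * (1 + |i.D.p| / i.η ^ 28) := by
      unfold ga sb
      rw [pow_zero, pow_one, mul_one]; norm_cast
    rw [h3, one_mul, mul_add, ← h2]
    have : 0 < i.η ^ 28 * 1 := by positivity
    linarith⟩

theorem oa0 : O (M := M) 0 0 0 fun i => i.D.a0 i.μ :=
  O.bdd (3 / 2) fun i => by
    obtain ⟨h1, h2⟩ := qx2_a0 i.hμ i.hμM i.ok.hσ0
    rw [abs_of_pos (by linarith)]; exact h2

theorem oups (hM : 1 ≤ M) : O (M := M) 0 0 0 fun i => i.D.υ i.μ :=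
  O.bdd (1 / 2) fun i => qx2_ups hM i.hμ i.hμM i.ok.hσ0

theorem ot (hM : 1 ≤ M) : O (M := M) 16 1 0 fun i => i.D.t := by
  have h := ott.sub (((oups hM).mul op).mono (a' := 16) (b' := 1) (c' := 0)
    (by norm_num) le_rfl le_rfl)
  convert h using 2 with i
  unfold PD.tt; ring

theorem od (hM : 1 ≤ M) : O (M := M) 16 1 0 fun i => i.D.d := by
  have h := ((op.abs.smul 2).mono (a' := 16) (by norm_num) le_rfl le_rfl).add
    ((ot hM).abs.smul (3 * M))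
  refine h.of_le fun i => ?_
  rw [abs_of_nonneg (rb hM i).d0]; exact (rb hM i).dp

theorem od2 (hM : 1 ≤ M) : O (M := M) 32 2 0 fun i => i.D.d ^ 2 := by
  simpa [sq] using (od hM).mul (od hM)

theorem oe (hM : 1 ≤ M) : O (M := M) 32 2 0 fun i => i.D.e :=
  ((od2 hM).smul M).of_le fun i => i.ok.he

theorem oTe (hM : 1 ≤ M) : O (M := M) 16 1 0 fun i => i.D.Te :=
  ((od hM).smul M).of_le fun i => i.ok.hTe

theorem ops (hM : 1 ≤ M) : O (M := M) 0 0 0 fun i => i.D.ps :=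
  O.bdd 2 fun i => by
    have h1 := i.ok.hps
    have h2 : M * i.D.d ≤ M * i.r := mul_le_mul_of_nonneg_left (rb hM i).dr (by linarith)
    have h3 := i.hr
    rw [abs_le] at h1 ⊢
    constructor <;> linarith [h1.1, h1.2]

theorem oσs : O (M := M) 0 0 0 fun i => i.D.σs := O.bdd M fun i => i.ok.hσs

theorem oW (hM : 1 ≤ M) : O (M := M) 32 2 0 fun i => i.D.W i.μ i.η := by
  have h := ((od2 hM).smul 2).add ((O.pw 32).mono (a' := 32) (b' := 2) (c' := 0)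
    (by norm_num) (by norm_num) le_rfl)
  refine h.of_le fun i => ?_
  have := i.hη
  rw [abs_of_nonneg (le_trans (by positivity) (rb hM i).W2)]; exact (rb hM i).W5

theorem okk (hM : 1 ≤ M) : O (M := M) 32 2 0 fun i => i.D.k i.μ i.η :=
  ((oW hM).smul (2 * M)).of_le fun i => (rb hM i).k1

theorem oks (hM : 1 ≤ M) : O (M := M) 16 1 0 fun i => i.D.ks i.μ i.η :=
  O.of_sq ((oW hM).smul (64 * M ^ 4)) fun i => (rb hM i).ks2

theorem olam (hM : 1 ≤ M) : O (M := M) (-32) 0 0 fun i => i.D.lam i.μ i.η := by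
  have h : O (M := M) 0 0 0 fun i => Real.sqrt (i.D.a0 i.μ / i.D.m0) :=
    O.bdd (Real.sqrt (3 / 2 * M)) fun i => by
      obtain ⟨h1, h2⟩ := qx2_a0 i.hμ i.hμM i.ok.hσ0
      have h3 := i.ok.m0_lo
      have h4 : 0 < 1 / M := by positivity
      rw [abs_of_nonneg (Real.sqrt_nonneg _)]
      apply Real.sqrt_le_sqrt
      rw [div_le_iff₀ (by linarith)]
      rw [div_le_iff₀ (by linarith)] at h3
      nlinarith
  exact h.div 32

theorem oga (hM : 1 ≤ M) : O (M := M) (-16) 1 1 fun i => i.D.ga i.μ i.η :=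
  ((((oa0.mul (oups hM)).mul ott).div 32).mono (by norm_num) le_rfl (by norm_num)).add
    ((op'.div 40).mono (by norm_num) (by norm_num) le_rfl)

theorem oTG (hM : 1 ≤ M) : O (M := M) (-16) 3 1 fun i => i.D.TG i.μ i.η :=
  (((oa0.mul ott).div 32).mono (by norm_num) (by norm_num) (by norm_num)).add
    (((oe hM).mul (oga hM)).mono (by norm_num) le_rfl le_rfl)

theorem ole (hM : 1 ≤ M) : O (M := M) 0 2 0 fun i => i.D.lam i.μ i.η * i.D.e :=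
  ((olam hM).mul (oe hM)).mono (by norm_num) le_rfl le_rfl

theorem okG (hM : 1 ≤ M) : O (M := M) 16 3 1 fun i => i.D.k i.μ i.η * i.D.Gs i.μ i.η :=
  ((okk hM).mul ((ops hM).mul (oga hM))).mono (by norm_num) le_rfl le_rfl

theorem olp (hM : 1 ≤ M) : O (M := M) (-32) 0 0 fun i => i.D.lam i.μ i.η * i.D.ps :=
  ((olam hM).mul (ops hM)).mono (by norm_num) le_rfl le_rfl

theorem okl (hM : 1 ≤ M) :
    O (M := M) 0 2 0 fun i => i.D.k i.μ i.η * (i.D.lam i.μ i.η * i.D.ps) :=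
  ((okk hM).mul (olp hM)).mono (by norm_num) le_rfl le_rfl

theorem oY (hM : 1 ≤ M) : O (M := M) (-16) 8 1 fun i => i.D.Y i.μ i.η := by
  have h1 := (((oTG hM).smul (-2)).mul (ole hM)).mono (a' := -16) (b' := 8) (c' := 1)
    (by norm_num) (by norm_num) (by norm_num)
  have h2 := ((olam hM).mul (oTe hM)).mono (a' := -16) (b' := 8) (c' := 1)
    (by norm_num) (by norm_num) (by norm_num)
  have h3 := (oσs.mul (ole hM)).mono (a' := -16) (b' := 8) (c' := 1)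
    (by norm_num) (by norm_num) (by norm_num)
  have h4 := (((okG hM).smul 2).mul (olp hM)).mono (a' := -16) (b' := 8) (c' := 1)
    (by norm_num) (by norm_num) (by norm_num)
  have h5 := ((oks hM).mul (olp hM)).mono (a' := -16) (b' := 8) (c' := 1)
    (by norm_num) (by norm_num) (by norm_num)
  convert (((h1.add h2).add h3).sub h4).add h5 using 2 with i
  unfold PD.Y; ring

theorem gaZ (i : QX2I M) : ga (-16) 8 1 i = i.D.Z i.μ i.η := by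
  unfold ga PD.Z
  rw [← i.g2, ← pow_mul, pow_one, one_div, inv_pow, zpow_neg]
  norm_cast

end QX2I

open QX2I in
theorem qx2 (M : ℝ) (hM : 1 ≤ M) : ∃ C : ℝ, ∀ (μ r η : ℝ) (D : PD), 0 < μ → μ * M ^ 2 ≤ 1 / 2 →
    M * r ≤ 1 / 2 → 0 < η → η ≤ 1 → M * η ^ 32 ≤ 1 → PDOK M r η D →
      |D.Y μ η| ≤ C * D.Z μ η ∧ |D.TG μ η| ≤ C * D.Z μ η ∧ |D.lam μ η * D.e| ≤ C * D.Z μ η ∧
      |D.k μ η * D.Gs μ η| ≤ C * D.Z μ η ∧ |D.k μ η * (D.lam μ η * D.ps)| ≤ C * D.Z μ η := by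
  have h1 := (oY hM).abs
  have h2 := ((oTG hM).mono (a' := -16) (b' := 8) (c' := 1)
    (by norm_num) (by norm_num) (by norm_num)).abs
  have h3 := ((ole hM).mono (a' := -16) (b' := 8) (c' := 1)
    (by norm_num) (by norm_num) (by norm_num)).abs
  have h4 := ((okG hM).mono (a' := -16) (b' := 8) (c' := 1)
    (by norm_num) (by norm_num) (by norm_num)).abs
  have h5 := ((okl hM).mono (a' := -16) (b' := 8) (c' := 1)
    (by norm_num) (by norm_num) (by norm_num)).abs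
  obtain ⟨C, -, h⟩ := (((h1.add h2).add h3).add h4).add h5
  refine ⟨C, fun μ r η D a1 a2 a3 a4 a5 a6 a7 => ?_⟩
  have h6 := (le_abs_self _).trans (h ⟨μ, r, η, D, a1, a2, a3, a4, a5, a6, a7⟩)
  rw [gaZ] at h6
  dsimp only at h6
  have b1 := abs_nonneg (D.Y μ η)
  have b2 := abs_nonneg (D.TG μ η)
  have b3 := abs_nonneg (D.lam μ η * D.e)
  have b4 := abs_nonneg (D.k μ η * D.Gs μ η)
  have b5 := abs_nonneg (D.k μ η * (D.lam μ η * D.ps))
  refine ⟨?_, ?_, ?_, ?_, ?_⟩ <;> linarith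

theorem qx3 : ∃ C : ℝ, ∀ (M μ η : ℝ) (D : PD), 1 ≤ M → 0 < μ → μ * M ^ 2 ≤ 1 / 2 → 0 < η → η ≤ 1 →
    |D.σ0| ≤ M → 1 ≤ D.Z μ η ∧
      Real.exp (-D.G μ η) ^ 2 ≤ Real.exp (-(D.t ^ 2 / (4 * η ^ 32) + D.p ^ 2 / (4 * η ^ 40))) ∧
      (Real.exp (-D.G μ η) * D.Z μ η) ^ 2 ≤ C * (1 / η) ^ 32 * D.b1 η *
        Real.exp (-(D.t ^ 2 / (4 * η ^ 32) + D.p ^ 2 / (4 * η ^ 40))) := by
  refine ⟨2 * 16 ^ 8, fun M μ η D hM hμ hμM hη hη1 hσ => ?_⟩
  obtain ⟨ha1, -⟩ := qx2_a0 hμ hμM hσ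
  have hu := qx2_ups hM hμ hμM hσ
  have hH := qx2_Hh D μ hη
  have hx : 0 ≤ D.tt μ ^ 2 / η ^ 32 := by positivity
  have hy : 0 ≤ D.p ^ 2 / η ^ 40 := by positivity
  have hG : D.tt μ ^ 2 / η ^ 32 / 2 + D.p ^ 2 / η ^ 40 / 2 ≤ D.G μ η := by
    have e : D.G μ η = D.a0 μ * (D.tt μ ^ 2 / η ^ 32) / 2 + D.p ^ 2 / η ^ 40 / 2 := by
      unfold PD.G; field_simp
    rw [e]; nlinarith
  have hG0 : 0 ≤ D.G μ η := by linarith
  have hQ : D.t ^ 2 / (4 * η ^ 32) + D.p ^ 2 / (4 * η ^ 40) ≤ D.G μ η := by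
    have hu2 : D.υ μ ^ 2 ≤ 1 / 4 := by
      have := pow_le_pow_left₀ (abs_nonneg _) hu 2
      rw [sq_abs] at this; linarith
    have ht : D.t ^ 2 ≤ 2 * D.tt μ ^ 2 + D.p ^ 2 / 2 := by
      have e : D.t = D.tt μ - D.υ μ * D.p := by unfold PD.tt; ring
      have : (D.υ μ * D.p) ^ 2 ≤ 1 / 4 * D.p ^ 2 := by
        rw [mul_pow]; exact mul_le_mul_of_nonneg_right hu2 (sq_nonneg _)
      rw [e]; nlinarith [sq_nonneg (D.tt μ + D.υ μ * D.p)]
    have hp : D.p ^ 2 / η ^ 32 ≤ D.p ^ 2 / η ^ 40 :=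
      div_le_div_of_nonneg_left (sq_nonneg _) (by positivity)
        (pow_le_pow_of_le_one hη.le hη1 (by norm_num))
    have h3 : D.t ^ 2 / η ^ 32 ≤ (2 * D.tt μ ^ 2 + D.p ^ 2 / 2) / η ^ 32 :=
      div_le_div_of_nonneg_right ht (by positivity)
    have e1 : D.t ^ 2 / (4 * η ^ 32) = D.t ^ 2 / η ^ 32 / 4 := by field_simp
    have e2 : D.p ^ 2 / (4 * η ^ 40) = D.p ^ 2 / η ^ 40 / 4 := by field_simp
    have e3 : (2 * D.tt μ ^ 2 + D.p ^ 2 / 2) / η ^ 32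
        = 2 * (D.tt μ ^ 2 / η ^ 32) + D.p ^ 2 / η ^ 32 / 2 := by field_simp
    rw [e1, e2]; rw [e3] at h3; linarith
  have hH1 : 1 ≤ 1 / η := by rw [le_div_iff₀ hη]; linarith
  have hs : 0 ≤ |D.p| / η ^ 28 := by positivity
  have hE : Real.exp (-D.G μ η) ≤
      Real.exp (-(D.t ^ 2 / (4 * η ^ 32) + D.p ^ 2 / (4 * η ^ 40))) :=
    Real.exp_le_exp.2 (by linarith)
  refine ⟨?_, ?_, ?_⟩
  · unfold PD.Z
    have h1 : 1 ≤ (1 / η) ^ 16 := one_le_pow₀ hH1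
    have h2 : 1 ≤ D.Hh μ η ^ 4 := one_le_pow₀ hH
    exact one_le_mul_of_one_le_of_one_le (one_le_mul_of_one_le_of_one_le h1 h2) (by linarith)
  · refine le_trans ?_ hE
    have h1 : Real.exp (-D.G μ η) ≤ 1 := Real.exp_le_one_iff.2 (by linarith)
    have h2 := Real.exp_pos (-D.G μ η)
    nlinarith
  · have h1 : D.Hh μ η ≤ 16 * Real.exp (D.G μ η / 8) := by
      have := Real.add_one_le_exp (D.G μ η / 8)
      unfold PD.Hh; linarith
    have h2 : D.Hh μ η ^ 8 ≤ 16 ^ 8 * Real.exp (D.G μ η) := by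
      have := pow_le_pow_left₀ (by linarith) h1 8
      rw [mul_pow, ← Real.exp_nat_mul] at this
      rwa [show ((8 : ℕ) : ℝ) * (D.G μ η / 8) = D.G μ η by push_cast; ring] at this
    have h3 : Real.exp (-D.G μ η) * D.Hh μ η ^ 8 ≤ 16 ^ 8 := by
      have := mul_le_mul_of_nonneg_left h2 (Real.exp_pos (-D.G μ η)).le
      rw [mul_left_comm, ← Real.exp_add, neg_add_cancel, Real.exp_zero, mul_one] at this
      exact this
    have h4 : (1 + |D.p| / η ^ 28) ^ 2 ≤ 2 * D.b1 η := by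
      have e : D.p ^ 2 / η ^ 56 = (|D.p| / η ^ 28) ^ 2 := by
        rw [div_pow, sq_abs, ← pow_mul]
      unfold PD.b1
      rw [e]; nlinarith [sq_nonneg (1 - |D.p| / η ^ 28)]
    have e : (Real.exp (-D.G μ η) * D.Z μ η) ^ 2 = (Real.exp (-D.G μ η) * D.Hh μ η ^ 8) *
        (1 / η) ^ 32 * (1 + |D.p| / η ^ 28) ^ 2 * Real.exp (-D.G μ η) := by
      unfold PD.Z; ring
    have h5 : 0 ≤ D.b1 η := by unfold PD.b1; positivity
    rw [e]
    calc _ ≤ 16 ^ 8 * (1 / η) ^ 32 * (2 * D.b1 η) *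
          Real.exp (-(D.t ^ 2 / (4 * η ^ 32) + D.p ^ 2 / (4 * η ^ 40))) := by
          gcongr
      _ = _ := by ring

end
end Vale.Agent.P229
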