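import Vale.Agent.P229.Tay
import Vale.Agent.P229.QX1
import Vale.Agent.P229.QX2

open scoped ContDiff
open MeasureTheory Metric

namespace Vale.Agent.P229
noncomputable section

theorem quasi_mul {a b A B : ℝ} (h : |a| ≤ A) (h' : |b| ≤ B) : |a * b| ≤ A * B := by
  rw [abs_mul]
  exact mul_le_mul h h' (abs_nonneg _) ((abs_nonneg _).trans h)

theorem quasi_add {a b A B : ℝ} (h : |a| ≤ A) (h' : |b| ≤ B) : |a + b| ≤ A + B :=
  (abs_add_le _ _).trans (add_le_add h h')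

theorem quasi_sub {a b A B : ℝ} (h : |a| ≤ A) (h' : |b| ≤ B) : |a - b| ≤ A + B :=
  (abs_sub _ _).trans (add_le_add h h')

theorem quasi_neg {a A : ℝ} (h : |a| ≤ A) : |-a| ≤ A := by rwa [abs_neg]

theorem quasi_bd {χ : Sm} (h : HasCompactSupport χ.1) : ∃ X : ℝ, 0 ≤ X ∧ ∀ x,
    |(ds χ).1 x| ≤ X ∧ |(dt χ).1 x| ≤ X ∧ |(ds (ds χ)).1 x| ≤ X ∧ |(ds (dt χ)).1 x| ≤ X ∧
      |(dt (dt χ)).1 x| ≤ X := by
  obtain ⟨X1, h1⟩ := exists_bound_compact (cs_ds h)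
  obtain ⟨X2, h2⟩ := exists_bound_compact (cs_dt h)
  obtain ⟨X3, h3⟩ := exists_bound_compact (cs_ds (cs_ds h))
  obtain ⟨X4, h4⟩ := exists_bound_compact (cs_ds (cs_dt h))
  obtain ⟨X5, h5⟩ := exists_bound_compact (cs_dt (cs_dt h))
  have e1 := (abs_nonneg _).trans (h1 0)
  have e2 := (abs_nonneg _).trans (h2 0)
  have e3 := (abs_nonneg _).trans (h3 0)
  have e4 := (abs_nonneg _).trans (h4 0)
  have e5 := (abs_nonneg _).trans (h5 0)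
  refine ⟨X1 + X2 + X3 + X4 + X5, by positivity, fun x => ⟨?_, ?_, ?_, ?_, ?_⟩⟩
  · linarith [h1 x]
  · linarith [h2 x]
  · linarith [h3 x]
  · linarith [h4 x]
  · linarith [h5 x]

theorem quasi_Q (σ k χ : Sm) (x : Pt) : (Qop σ k χ).1 x =
    (dt (dt χ)).1 x + (σ.1 x * (ds (dt χ)).1 x + (ds χ).1 x * (dt σ).1 x)
      + σ.1 x * ((ds (dt χ)).1 x + (σ.1 x * (ds (ds χ)).1 x + (ds χ).1 x * (ds σ).1 x))
      + (ds σ).1 x * ((dt χ).1 x + σ.1 x * (ds χ).1 x)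
      + (k.1 x * (ds (ds χ)).1 x + (ds χ).1 x * (ds k).1 x) := by
  simp only [Qop, T, map_add, ds_mul, dt_mul, dt_ds, ev_add, ev_mul]

theorem quasi_k (K : Coef) (μ η : ℝ) (x : Pt) : (K.k μ η).1 x = (mkPD K 1 x).k μ η := by
  simp [Coef.k, Coef.w, wq, mkPD, PD.k, PD.w]

theorem quasi_ks (K : Coef) (μ η : ℝ) (x : Pt) :
    (ds (K.k μ η)).1 x = (mkPD K 1 x).ks μ η := by
  simp only [Coef.k, Coef.w, wq, mkPD, PD.ks, PD.w, ds_mul, map_add, map_sub, ds_sq, ds_cst,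
    ds_cS, ds_cT, ev_add, ev_sub, ev_mul, ev_pow, ev_cst, ev_cS, ev_cT, ev_zero, ev_one, ev_two]
  ring

theorem quasi (M : ℝ) (hM : 1 ≤ M) : ∃ μ1 r1 η1 : ℝ, 0 < μ1 ∧ 0 < r1 ∧ 0 < η1 ∧
    ∀ (μ r : ℝ) (χ : Sm), 0 < μ → μ ≤ μ1 → r ≤ r1 → IsCut r χ → ∃ C : ℝ, 0 ≤ C ∧
      ∀ (η : ℝ) (K : Coef), 0 < η → η ≤ η1 → CoefOK M r η K → ∀ x ∈ closedBall (0 : Pt) r,
        (vq K μ η χ).1 x ^ 2 ≤ gs K.σ η x ∧
        (Qop K.σ (K.k μ η) (vq K μ η χ)).1 x ^ 2 ≤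
          C * (1 / η) ^ 32 * (bw K.σ η).1 x * gs K.σ η x := by
  obtain ⟨M', hMM, htay⟩ := tay M hM
  have hM' : 1 ≤ M' := hM.trans hMM
  have M0 : 0 < M' := zero_lt_one.trans_le hM'
  obtain ⟨C1, h1⟩ := qx1 M' hM'
  obtain ⟨C2, h2⟩ := qx2 M' hM'
  obtain ⟨C3, h3⟩ := qx3
  refine ⟨1 / 2 / M' ^ 2, 1 / 2 / M', 1 / M', by positivity, by positivity, by positivity,
    fun μ r χ hμ hμ1 hr hχ => ?_⟩
  rw [le_div_iff₀ (by positivity)] at hμ1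
  rw [le_div_iff₀' M0] at hr
  have hμ2 : μ ≤ 1 := by
    have := le_mul_of_one_le_right hμ.le (one_le_pow₀ (n := 2) hM')
    linarith
  obtain ⟨X, X0, hX⟩ := quasi_bd hχ.cpt
  obtain ⟨Q, hQ⟩ : ∃ Q, Q = X + (M * X + X * M) + M * (X + (M * X + X * M)) + M * (X + M * X)
    + (4 * M' * X + X * (12 * M' ^ 2)) := ⟨_, rfl⟩
  obtain ⟨A, hA⟩ : ∃ A, A = C1 + C2 + 4 * (X + M * X) * C2 + 4 * X * C2 + Q := ⟨_, rfl⟩
  refine ⟨A ^ 2 * |C3|, by positivity, fun η K hη hη1 hK x hx => ?_⟩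
  rw [le_div_iff₀' M0] at hη1
  have r0 : 0 ≤ r := (abs_nonneg _).trans (mem_box.1 hx).1
  have hr1 : r ≤ 1 := by
    have := le_mul_of_one_le_left r0 hM'
    linarith
  have hη2 : η ≤ 1 := (le_mul_of_one_le_left hη.le hM').trans hη1
  have hMη : M' * η ^ 32 ≤ 1 :=
    (mul_le_mul_of_nonneg_left (pow_le_of_le_one hη.le hη2 (by norm_num)) M0.le).trans hη1
  have hD := (htay r η K 1 hr1 hη hK le_rfl hM x hx).1
  have R := rbas hD hM' hr hη hη2 hMη hμ hμ2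
  have e1 := h1 μ r η _ hμ hμ1 hr hη hη2 hMη hD
  obtain ⟨e2, e3, e4, e5, e6⟩ := h2 μ r η _ hμ hμ1 hr hη hη2 hMη hD
  obtain ⟨z1, z2, z3⟩ := h3 M' μ η _ hM' hμ hμ1 hη hη2 hD.hσ0
  obtain ⟨b1, b2⟩ := qbridge K μ η hμ.le hη χ x
  obtain ⟨x1, x2, x3, x4, x5⟩ := hX x
  have hχ1 : |χ.1 x| ≤ 1 := abs_le.2 ⟨by linarith [(hχ.mem x).1], (hχ.mem x).2⟩
  have hc := Real.abs_cos_le_one ((mkPD K 1 x).lam μ η * (mkPD K 1 x).p)
  have hs := Real.abs_sin_le_one ((mkPD K 1 x).lam μ η * (mkPD K 1 x).p)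
  have hE : |Real.exp (-(mkPD K 1 x).G μ η)| ≤ Real.exp (-(mkPD K 1 x).G μ η) :=
    (abs_of_pos (Real.exp_pos _)).le
  constructor
  · refine le_trans ?_ z2
    rw [b1, ← sq_abs]
    refine pow_le_pow_left₀ (abs_nonneg _) ?_ 2
    simpa using quasi_mul hχ1 (quasi_mul hE hc)
  · have s0 := hK.σ0 x hx
    have s1 := hK.σs x hx
    have s2 := hK.σt x hx
    have k0 : |(K.k μ η).1 x| ≤ 4 * M' := by
      rw [quasi_k]
      have := mul_le_mul_of_nonneg_left R.W6 M0.le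
      linarith [R.k1]
    have k1 : |(ds (K.k μ η)).1 x| ≤ 12 * M' ^ 2 := by
      rw [quasi_ks]
      refine abs_le_of_sq_le_sq ?_ (by positivity)
      have := mul_le_mul_of_nonneg_left R.W6 (show 0 ≤ M' ^ 4 by positivity)
      have : 0 ≤ M' ^ 4 := by positivity
      linarith [R.ks2]
    have hT : |(T K.σ χ).1 x| ≤ X + M * X := quasi_add x2 (quasi_mul s0 x1)
    have hq : |(Qop K.σ (K.k μ η) χ).1 x| ≤ Q := by
      rw [quasi_Q, hQ]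
      exact quasi_add (quasi_add (quasi_add (quasi_add x5 (quasi_add (quasi_mul s0 x4)
        (quasi_mul x1 s2))) (quasi_mul s0 (quasi_add x4 (quasi_add (quasi_mul s0 x3)
        (quasi_mul x1 s1))))) (quasi_mul s1 (quasi_add x2 (quasi_mul s0 x1))))
        (quasi_add (quasi_mul k0 x3) (quasi_mul x1 k1))
    have h2' : |(2 : ℝ)| ≤ 2 := abs_two.le
    have hb := quasi_mul hE (quasi_add (quasi_add (quasi_add
      (quasi_mul hχ1 (quasi_sub (quasi_mul e1 hc) (quasi_mul e2 hs)))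
      (quasi_mul (quasi_mul h2' hT) (quasi_sub (quasi_mul (quasi_neg e3) hc) (quasi_mul e4 hs))))
      (quasi_mul (quasi_mul h2' x1) (quasi_sub (quasi_mul (quasi_neg e5) hc) (quasi_mul e6 hs))))
      (quasi_mul (hq.trans (le_mul_of_one_le_right ((abs_nonneg _).trans hq) z1)) hc))
    rw [← b2] at hb
    have hb2 : |(Qop K.σ (K.k μ η) (vq K μ η χ)).1 x| ≤
        A * (Real.exp (-(mkPD K 1 x).G μ η) * (mkPD K 1 x).Z μ η) :=
      hb.trans_eq (by rw [hA]; ring)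
    have hb3 := pow_le_pow_left₀ (abs_nonneg _) hb2 2
    rw [sq_abs, mul_pow] at hb3
    have q9 : (bw K.σ η).1 x = (mkPD K 1 x).b1 η :=
      (qform K μ η 1 0 hη χ x).2.2.2.2.2.2.2.2
    have b0 : 0 ≤ (mkPD K 1 x).b1 η := zero_le_one.trans R.b1
    rw [q9]
    refine hb3.trans ((mul_le_mul_of_nonneg_left z3 (sq_nonneg A)).trans ?_)
    have hg : 0 ≤ gs K.σ η x := (Real.exp_pos _).le
    calc A ^ 2 * (C3 * (1 / η) ^ 32 * (mkPD K 1 x).b1 η * gs K.σ η x)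
        ≤ A ^ 2 * (|C3| * (1 / η) ^ 32 * (mkPD K 1 x).b1 η * gs K.σ η x) := by
          gcongr
          exact le_abs_self _
      _ = _ := by ring

end
end Vale.Agent.P229
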