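import Vale.Agent.P229.Defs

open scoped ContDiff
open MeasureTheory Metric

namespace Vale.Agent.P229
noncomputable section

set_option maxHeartbeats 800000 in
theorem rbas {M μ r η : ℝ} {D : PD} (h : PDOK M r η D) (hM : 1 ≤ M) (hr : M * r ≤ 1 / 2)
    (hη : 0 < η) (hη1 : η ≤ 1) (hMη : M * η ^ 32 ≤ 1) (hμ : 0 < μ) (hμ1 : μ ≤ 1) :
    RB M μ r η D := by
  have sd : |D.s| ≤ D.d := le_max_left _ _
  have td : |D.t| ≤ D.d := le_max_right _ _
  have d0 : 0 ≤ D.d := (abs_nonneg _).trans sd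
  have dr : D.d ≤ r := max_le h.hs h.ht
  have hMd : M * D.d ≤ 1 / 2 := le_trans (by gcongr) hr
  have hd2 : D.d ≤ 1 / 2 := by nlinarith only [hMd, hM, d0]
  have e30 : 0 < η ^ 30 := by positivity
  have e56 : 0 < η ^ 56 := by positivity
  have e32 : 0 < η ^ 32 := by positivity
  have hden : 0 < η ^ 30 + D.t ^ 2 := by positivity
  have ρ0 : 0 < D.ρ η := by unfold PD.ρ; positivity
  have ρ1 : D.ρ η ≤ 1 := by unfold PD.ρ; rw [div_le_one hden]; linarith only [sq_nonneg D.t]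
  have ρt : D.ρ η * D.t ^ 2 ≤ η ^ 30 := by
    unfold PD.ρ; rw [div_mul_eq_mul_div, div_le_iff₀ hden]; nlinarith only [e30]
  have τa : |D.τ η| = |D.t| * D.ρ η := by unfold PD.τ; rw [abs_mul, abs_of_pos ρ0]
  have τt : |D.τ η| ≤ |D.t| := by rw [τa]; nlinarith only [abs_nonneg D.t, ρ1]
  have τt2 : |D.τ η| * |D.t| ≤ η ^ 30 := by
    rw [τa, show |D.t| * D.ρ η * |D.t| = D.ρ η * |D.t| ^ 2 by ring, sq_abs]; exact ρt
  have b1 : 1 ≤ D.b1 η := by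
    unfold PD.b1; have : 0 ≤ D.p ^ 2 / η ^ 56 := by positivity
    linarith
  have b0 : 0 < D.b1 η := by linarith
  obtain ⟨a, ha, ha0⟩ : ∃ a : ℝ, a = D.p ^ 2 / η ^ 56 ∧ 0 ≤ a := ⟨_, rfl, by positivity⟩
  have hb : D.b1 η = 1 + a := by rw [ha]; rfl
  have hB : D.B η = D.p * ((1 + a / 3) / (1 + a)) := by
    unfold PD.B; rw [hb, ha]; field_simp
  have q0 : 1 / 3 ≤ (1 + a / 3) / (1 + a) := by rw [le_div_iff₀ (by linarith)]; linarith
  have q1 : (1 + a / 3) / (1 + a) ≤ 1 := by rw [div_le_one (by linarith)]; linarith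
  have Bp : |D.B η| ≤ |D.p| := by
    rw [hB, abs_mul, abs_of_pos (by linarith : 0 < (1 + a / 3) / (1 + a))]
    nlinarith only [abs_nonneg D.p, q1]
  have pB : D.p ^ 2 / 3 ≤ D.p * D.B η := by rw [hB]; nlinarith only [sq_nonneg D.p, q0]
  have Γa : |D.Γ η| = 2 * |D.p| / (η ^ 56 + D.p ^ 2) := by
    unfold PD.Γ PD.b1
    rw [abs_div, abs_div, abs_mul, abs_of_pos e56, abs_of_pos (by positivity : 0 < 1 + D.p ^ 2 / η ^ 56),
      abs_two]
    field_simp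
  have hd56 : 0 < η ^ 56 + D.p ^ 2 := by positivity
  have Γ1 : |D.Γ η| ≤ 1 / η ^ 28 := by
    rw [Γa, div_le_div_iff₀ hd56 (by positivity), ← sq_abs D.p]
    have : η ^ 56 = (η ^ 28) ^ 2 := by ring
    rw [this]; nlinarith only [sq_nonneg (η ^ 28 - |D.p|)]
  have Γ2 : |D.p| * |D.Γ η| ≤ 2 := by
    rw [Γa, ← mul_div_assoc, div_le_iff₀ hd56]
    have : |D.p| * (2 * |D.p|) = 2 * D.p ^ 2 := by rw [← sq_abs D.p]; ring
    rw [this]; linarith
  have hσt : |D.σ0 * D.t| ≤ M * |D.t| := by rw [abs_mul]; gcongr; exact h.hσ0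
  have hp := abs_le.mp h.hp
  have hσt' := abs_le.mp hσt
  have hMd2 : M * D.d ^ 2 ≤ D.d / 2 := by nlinarith only [hMd, d0]
  have hMt : M * |D.t| ≤ M * D.d := by gcongr
  have pd : |D.p| ≤ 3 * M * D.d := by
    have h1 := abs_le.mp sd
    have h2 : D.d ≤ M * D.d := by nlinarith only [hM, d0]
    rw [abs_le]; constructor <;> linarith only [h1.1, h1.2, h2, hp.1, hp.2, hσt'.1, hσt'.2, hMd2, hMt, d0]
  have dp : D.d ≤ 2 * |D.p| + 3 * M * |D.t| := by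
    have h1 : |D.s| ≤ |D.p| + M * |D.t| + D.d / 2 := by
      have := le_abs_self D.p; have := neg_abs_le D.p
      rw [abs_le]; constructor <;> linarith
    have h2 : 0 ≤ M * |D.t| := by positivity
    have h3 : |D.t| ≤ M * |D.t| := by nlinarith only [abs_nonneg D.t, hM]
    rcases max_cases |D.s| |D.t| with ⟨h4, _⟩ | ⟨h4, _⟩
    · have : D.d = |D.s| := h4
      linarith
    · have : D.d = |D.t| := h4
      have := abs_nonneg D.p
      linarith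
  have τΓ : |D.τ η| * |D.Γ η| * D.d ≤ 4 * D.d + 3 * M * η ^ 2 := by
    have h1 : |D.τ η| * |D.t| * |D.Γ η| ≤ η ^ 2 := by
      calc |D.τ η| * |D.t| * |D.Γ η| ≤ η ^ 30 * (1 / η ^ 28) := by gcongr
        _ = η ^ 2 := by field_simp
    have h2 : |D.τ η| * (|D.p| * |D.Γ η|) ≤ D.d * 2 := by gcongr; exact τt.trans td
    calc |D.τ η| * |D.Γ η| * D.d ≤ |D.τ η| * |D.Γ η| * (2 * |D.p| + 3 * M * |D.t|) := by gcongr
      _ = 2 * (|D.τ η| * (|D.p| * |D.Γ η|)) + 3 * M * (|D.τ η| * |D.t| * |D.Γ η|) := by ring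
      _ ≤ 2 * (D.d * 2) + 3 * M * η ^ 2 := by gcongr
      _ = _ := by ring
  have s2 : D.s ^ 2 ≤ D.d ^ 2 := by rw [← sq_abs D.s]; gcongr
  have t2 : D.t ^ 2 ≤ D.d ^ 2 := by rw [← sq_abs D.t]; gcongr
  have ms0 : 0 ≤ μ * D.s ^ 2 := by positivity
  have W2 : η ^ 32 ≤ D.W μ η := by unfold PD.W; linarith only [sq_nonneg D.t, ms0]
  have W3 : D.t ^ 2 ≤ D.W μ η := by unfold PD.W; linarith only [ms0, e32]
  have W4 : μ * D.s ^ 2 ≤ D.W μ η := by unfold PD.W; linarith only [sq_nonneg D.t, e32]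
  have W1 : μ * D.d ^ 2 ≤ D.W μ η := by
    rcases max_cases |D.s| |D.t| with ⟨h4, _⟩ | ⟨h4, _⟩
    · have : D.d = |D.s| := h4
      rw [this, sq_abs]; exact W4
    · have : D.d = |D.t| := h4
      rw [this, sq_abs]; nlinarith only [sq_nonneg D.t, W3, hμ1]
  have W5 : D.W μ η ≤ 2 * D.d ^ 2 + η ^ 32 := by
    unfold PD.W; nlinarith only [sq_nonneg D.s, s2, t2, hμ1]
  have e32' : η ^ 32 ≤ 1 := pow_le_one₀ hη.le hη1
  have W6 : D.W μ η ≤ 2 := by nlinarith only [W5, e32', hd2, d0]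
  have W0 : 0 < D.W μ η := by linarith
  have h64 : M * η ^ 64 ≤ η ^ 32 := by
    have : M * η ^ 64 = M * η ^ 32 * η ^ 32 := by ring
    rw [this]; nlinarith only [hMη, e32]
  have hwb := abs_le.mp (h.hwb.trans h64)
  have hW : D.W μ η = D.t ^ 2 + μ * D.s ^ 2 + η ^ 32 := rfl
  have hw : D.w μ η = D.t ^ 2 + μ * D.s ^ 2 - η ^ 32 + D.wb := rfl
  have w1 : |D.w μ η| ≤ 2 * D.W μ η := by
    rw [abs_le]; constructor <;> linarith only [sq_nonneg D.t, hW, hw, hwb.1, hwb.2, ms0, e32]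
  have w2 : D.W μ η - 3 * η ^ 32 ≤ D.w μ η := by linarith only [hW, hw, hwb.1]
  have m0 : 0 < D.m := lt_of_lt_of_le (by positivity) h.m_lo
  have k1 : |D.k μ η| ≤ 2 * M * D.W μ η := by
    unfold PD.k; rw [abs_mul, abs_of_pos m0]
    calc D.m * |D.w μ η| ≤ M * (2 * D.W μ η) := by gcongr; exact h.m_hi
      _ = _ := by ring
  have aux : ∀ a b : ℝ, |a| ≤ M → |b| ≤ M * η ^ 64 →
      |a * D.w μ η + D.m * b| ≤ 3 * M ^ 2 * D.W μ η := by
    intro a b ha hb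
    have h1 : |a * D.w μ η| ≤ M * (2 * D.W μ η) := by rw [abs_mul]; gcongr
    have h2 : |D.m * b| ≤ M * D.W μ η := by
      rw [abs_mul, abs_of_pos m0]; gcongr
      · exact h.m_hi
      · exact hb.trans (h64.trans W2)
    have h3 := abs_add_le (a * D.w μ η) (D.m * b)
    have h4 : M * D.W μ η ≤ M ^ 2 * D.W μ η := by gcongr; nlinarith only [hM]
    linarith only [h1, h2, h3, h4]
  have ks1 : |D.ks μ η - 2 * μ * D.s * D.m| ≤ 3 * M ^ 2 * D.W μ η := by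
    have := aux D.ms D.wbs h.hms h.hwbs
    rwa [show D.ms * D.w μ η + D.m * D.wbs = D.ks μ η - 2 * μ * D.s * D.m by unfold PD.ks; ring] at this
  have kt1 : |D.kt μ η - 2 * D.t * D.m| ≤ 3 * M ^ 2 * D.W μ η := by
    have := aux D.mt D.wbt h.hmt h.hwbt
    rwa [show D.mt * D.w μ η + D.m * D.wbt = D.kt μ η - 2 * D.t * D.m by unfold PD.kt; ring] at this
  have ks2 : D.ks μ η ^ 2 ≤ 64 * M ^ 4 * D.W μ η := by
    have h1 : (D.ks μ η - 2 * μ * D.s * D.m) ^ 2 ≤ (3 * M ^ 2 * D.W μ η) ^ 2 := by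
      rw [← sq_abs]; gcongr
    have h2 : (3 * M ^ 2 * D.W μ η) ^ 2 ≤ 18 * M ^ 4 * D.W μ η := by
      have : 0 ≤ M ^ 4 * D.W μ η := by positivity
      nlinarith only [this, W6]
    have h3 : (2 * μ * D.s * D.m) ^ 2 ≤ 4 * M ^ 4 * D.W μ η := by
      have a1 : D.m ^ 2 ≤ M ^ 4 := by
        have : D.m ^ 2 ≤ M ^ 2 := by gcongr; exact h.m_hi
        have : M ^ 2 ≤ M ^ 4 := pow_le_pow_right₀ hM (by norm_num)
        linarith
      have a2 : μ * (μ * D.s ^ 2) ≤ D.W μ η := by nlinarith only [W4, hμ1, ms0]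
      calc (2 * μ * D.s * D.m) ^ 2 = 4 * D.m ^ 2 * (μ * (μ * D.s ^ 2)) := by ring
        _ ≤ 4 * M ^ 4 * D.W μ η := by gcongr
    have : 0 ≤ M ^ 4 * D.W μ η := by positivity
    nlinarith only [sq_nonneg (D.ks μ η - 2 * (2 * μ * D.s * D.m)), this, h1, h2, h3]
  have c01 : |D.c0 η| ≤ 1 := by
    unfold PD.c0; rw [abs_le]; constructor <;> nlinarith only [ρ0, ρ1]
  have c02 : D.c0' η ^ 2 ≤ 4 * (D.W μ η / η ^ 60) := by
    have a1 : ((1 / 8 + D.ρ η / 2) * D.ρ η ^ 2) ^ 2 ≤ 1 := by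
      have : (1 / 8 + D.ρ η / 2) * D.ρ η ^ 2 ≤ 1 := by
        have : D.ρ η ^ 2 ≤ 1 := pow_le_one₀ ρ0.le ρ1
        nlinarith only [this, ρ1, ρ0, sq_nonneg (D.ρ η)]
      have h0 : 0 ≤ (1 / 8 + D.ρ η / 2) * D.ρ η ^ 2 := by positivity
      nlinarith only [this, h0]
    calc D.c0' η ^ 2 = 4 * (((1 / 8 + D.ρ η / 2) * D.ρ η ^ 2) ^ 2 * D.t ^ 2 / η ^ 60) := by
          unfold PD.c0'; field_simp; ring
      _ ≤ 4 * (1 * D.W μ η / η ^ 60) := by gcongr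
      _ = _ := by ring
  exact ⟨d0, dr, sd, td, ρ0, ρ1, ρt, τt, τt2, b1, Bp, pB, Γ1, Γ2, pd, dp, τΓ, W1, W2, W3, W4, W5, W6,
    w1, w2, k1, ks1, kt1, ks2, c01, c02⟩

end
end Vale.Agent.P229
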