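import Vale.Agent.P229.Adj

open scoped ContDiff
open MeasureTheory Metric

namespace Vale.Agent.P229
noncomputable section

theorem sob_one {r : ℝ} (hr : 0 < r) {g g' : ℝ → ℝ} (hd : ∀ t, HasDerivAt g (g' t) t)
    (hc : Continuous g') {x : ℝ} (hx : |x| ≤ r) :
    g x ^ 2 ≤ (1 / (2 * r) + 1) * ∫ t in (-r)..r, (g t ^ 2 + g' t ^ 2) := by
  have hg : Continuous g := continuous_iff_continuousAt.2 fun t => (hd t).continuousAt
  have hI : Continuous fun t => g t ^ 2 + g' t ^ 2 := by fun_prop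
  obtain ⟨hx1, hx2⟩ := abs_le.1 hx
  set I := ∫ t in (-r)..r, (g t ^ 2 + g' t ^ 2) with hIdef
  have hsub : ∀ a b, -r ≤ a → a ≤ b → b ≤ r → ∫ t in a..b, (g t ^ 2 + g' t ^ 2) ≤ I :=
    fun a b h1 h2 h3 => intervalIntegral.integral_mono_interval h1 h2 h3
      (Filter.Eventually.of_forall fun t => by positivity) (hI.intervalIntegrable _ _)
  have hftc : ∀ a b, ∫ t in a..b, 2 * g t * g' t = g b ^ 2 - g a ^ 2 := fun a b =>
    intervalIntegral.integral_eq_sub_of_hasDerivAt (f := fun t => g t ^ 2)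
      (fun t _ => by simpa using (hd t).fun_pow 2)
      ((by fun_prop : Continuous fun t => 2 * g t * g' t).intervalIntegrable _ _)
  have h1 : ∀ y ∈ Set.Icc (-r) r, g x ^ 2 - I ≤ g y ^ 2 + g' y ^ 2 := fun y hy => by
    have h0 : 0 ≤ g' y ^ 2 := sq_nonneg _
    rcases le_total y x with h | h
    · have := intervalIntegral.integral_mono_on (μ := volume) h
        ((by fun_prop : Continuous fun t => 2 * g t * g' t).intervalIntegrable _ _)
        (hI.intervalIntegrable _ _) fun t _ => by nlinarith [sq_nonneg (g t - g' t)]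
      rw [hftc] at this
      linarith [hsub y x hy.1 h hx2]
    · have := intervalIntegral.integral_mono_on (μ := volume) h
        ((by fun_prop : Continuous fun t => -(2 * g t * g' t)).intervalIntegrable _ _)
        (hI.intervalIntegrable _ _) fun t _ => by nlinarith [sq_nonneg (g t + g' t)]
      rw [intervalIntegral.integral_neg, hftc] at this
      linarith [hsub x y hx1 h hy.2]
  have h2 := intervalIntegral.integral_mono_on (μ := volume) (by linarith : -r ≤ r)
    (continuous_const.intervalIntegrable _ _) (hI.intervalIntegrable _ _) h1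
  rw [intervalIntegral.integral_const, smul_eq_mul, ← hIdef] at h2
  have h3 : g x ^ 2 - I ≤ 1 / (2 * r) * I := by
    rw [one_div, ← div_eq_inv_mul, le_div_iff₀ (by positivity)]
    linarith
  linarith

theorem sob_ds (f : Sm) (s t : ℝ) : HasDerivAt (fun σ => f.1 (σ, t)) ((ds f).1 (s, t)) s :=
  (Sm.diff f (s, t)).hasFDerivAt.comp_hasDerivAt s ((hasDerivAt_id s).prodMk (hasDerivAt_const s t))

theorem sob_dt (f : Sm) (s t : ℝ) : HasDerivAt (fun τ => f.1 (s, τ)) ((dt f).1 (s, t)) t :=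
  (Sm.diff f (s, t)).hasFDerivAt.comp_hasDerivAt t ((hasDerivAt_const t s).prodMk (hasDerivAt_id t))

theorem sob_box {r : ℝ} (hr : 0 < r) {H : Pt → ℝ} (hH : Continuous H) :
    ∫ y in closedBall (0 : Pt) r, H y = ∫ s in (-r)..r, ∫ t in (-r)..r, H (s, t) := by
  have e : closedBall (0 : Pt) r = Set.Icc (-r) r ×ˢ Set.Icc (-r) r := by
    ext y
    rw [mem_box, abs_le, abs_le]
    rfl
  have hi := intOn hH r
  have hr' : -r ≤ r := by linarith
  rw [e] at hi ⊢
  rw [Measure.volume_eq_prod, setIntegral_prod _ hi]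
  simp only [intervalIntegral.integral_of_le hr', integral_Icc_eq_integral_Ioc]

theorem sob {r : ℝ} (hr : 0 < r) : ∃ C : ℝ, 0 ≤ C ∧ ∀ (f : Sm), ∀ x ∈ closedBall (0 : Pt) (r / 2),
    f.1 x ^ 2 ≤ C * ∫ y in closedBall (0 : Pt) r,
      (f.1 y ^ 2 + (ds f).1 y ^ 2 + (dt f).1 y ^ 2 + (ds (dt f)).1 y ^ 2) := by
  have hK : 0 ≤ 1 / (2 * r) + 1 := by positivity
  refine ⟨(1 / (2 * r) + 1) * (1 / (2 * r) + 1), mul_nonneg hK hK, fun f x hx => ?_⟩
  obtain ⟨s, t⟩ := x
  obtain ⟨hs, ht⟩ := mem_box.1 hx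
  have c0 := Sm.cont f
  have c1 := Sm.cont (ds f)
  have c2 := Sm.cont (dt f)
  have c3 := Sm.cont (ds (dt f))
  have hH : Continuous fun y : Pt =>
      f.1 y ^ 2 + (ds f).1 y ^ 2 + (dt f).1 y ^ 2 + (ds (dt f)).1 y ^ 2 := by fun_prop
  rw [sob_box hr hH, mul_assoc]
  refine (sob_one hr (fun σ => sob_ds f σ t) (by fun_prop) (x := s) (by linarith)).trans
    (mul_le_mul_of_nonneg_left ?_ hK)
  rw [← intervalIntegral.integral_const_mul]
  refine intervalIntegral.integral_mono_on (by linarith)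
    ((by fun_prop : Continuous fun σ : ℝ => f.1 (σ, t) ^ 2 + (ds f).1 (σ, t) ^ 2).intervalIntegrable
      _ _)
    ((continuous_const.mul (intervalIntegral.continuous_parametric_intervalIntegral_of_continuous'
      (by exact hH) _ _)).intervalIntegrable _ _) fun σ _ => ?_
  have h1 := sob_one hr (fun τ => sob_dt f σ τ) (by fun_prop) (x := t) (by linarith)
  have h2 := sob_one hr (fun τ => sob_dt (ds f) σ τ) (by rw [dt_ds]; fun_prop) (x := t)
    (by linarith)
  rw [dt_ds] at h2
  refine (add_le_add h1 h2).trans (le_of_eq ?_)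
  rw [← mul_add, ← intervalIntegral.integral_add
    ((by fun_prop : Continuous fun τ : ℝ => f.1 (σ, τ) ^ 2 + (dt f).1 (σ, τ) ^ 2).intervalIntegrable
      _ _)
    ((by fun_prop : Continuous fun τ : ℝ =>
      (ds f).1 (σ, τ) ^ 2 + (ds (dt f)).1 (σ, τ) ^ 2).intervalIntegrable _ _)]
  exact congrArg _ (intervalIntegral.integral_congr fun τ _ => by ring)

end
end Vale.Agent.P229
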