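import Vale.Agent.P229.Base
import Vale.Agent.P229.OmCls
import Vale.Agent.P229.DEq
import Vale.Agent.P229.Sob

open scoped ContDiff
open MeasureTheory Metric

namespace Vale.Agent.P229
noncomputable section

variable {I : Type} {Λ r0 : ℝ} {N : ℕ} {cB μ M r1 : ℝ}

theorem step_darb (F : Fam I Λ r0 N cB μ M r1) (hp : Par Λ r0 N cB μ M r1) (i : I) :
    Darb (F.φ i) (F.z i) (ball (0 : Pt) r1) :=
  fun x hx => (F.sol i).darb x (ball_subset_ball hp.r11.le hx)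

theorem rem_good (F : Fam I Λ r0 N cB μ M r1) (hp : Par Λ r0 N cB μ M r1) {J : ℕ} {r : ℝ}
    (hr : 0 < r) (hr1 : r < r1) (hJ : 8 ≤ J) (h : F.Inv J r) :
    L2 (F.ctx J r) J fun i => rem Λ μ (F.η i) (F.φ i) (F.z i) J := by
  have hc := ctx_ok F hp J hr hr1
  obtain ⟨h1, h2, h3, h4⟩ := om_cls hc hp.cB0 hp.cB1 hp.μ0 hp.μ1
  exact (deq (φ := F.φ) (z := F.z) hc hp.hM hr1 (step_darb F hp) F.aux h.1 h.2.1 h1 h2 h3 h4 μ
    (j := J) (by omega)).1 le_rfl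

theorem step_dtt (F : Fam I Λ r0 N cB μ M r1) (hp : Par Λ r0 N cB μ M r1) {J : ℕ} {r : ℝ}
    (hr : 0 < r) (hr1 : r < r1) (h : F.Inv J r) :
    Cls (F.ctx J r) 2 fun i => dt (dt (F.z i)) := by
  have hc := ctx_ok F hp J hr hr1
  obtain ⟨h1, h2, h3, h4⟩ := om_cls hc hp.cB0 hp.cB1 hp.μ0 hp.μ1
  exact (dcls (φ := F.φ) (z := F.z) hc hp.hM hr1 (step_darb F hp) F.aux h.1 h.2.1 h1 h2 h3
    h4).2.2.2.2

theorem step_ey (N : ℕ) {J : ℕ} (hJ : 8 ≤ J) : ey N J + 31 ≤ ey N (J + 1) := by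
  unfold ey; omega

theorem step_bw (σ : Sm) (η : ℝ) (x : Pt) : 0 ≤ (bw σ η).1 x := by
  have h1 : (0 : ℝ) ≤ 1 / η ^ 56 := by
    apply div_nonneg zero_le_one
    exact Even.pow_nonneg (by decide) η
  have h2 : (bw σ η).1 x = 1 + 1 / η ^ 56 * (pp σ).1 x ^ 2 := by simp [bw]
  rw [h2]
  exact add_nonneg zero_le_one (mul_nonneg h1 (sq_nonneg _))

theorem step_wt {μ : ℝ} (hμ : 0 < μ) (η : ℝ) (x : Pt) : η ^ 32 ≤ Wt μ η x := by
  unfold Wt
  have := mul_nonneg hμ.le (sq_nonneg x.1)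
  nlinarith [sq_nonneg x.2]

theorem step_wt0 {μ : ℝ} (hμ : 0 < μ) (η : ℝ) (x : Pt) : 0 ≤ Wt μ η x :=
  le_trans (Even.pow_nonneg (by decide) η) (step_wt hμ η x)

theorem step_wt_cont (μ η : ℝ) : Continuous (Wt μ η) := by
  unfold Wt; fun_prop

theorem step_en_cont (σ : Sm) (μ η : ℝ) (u : Sm) : Continuous (en σ μ η u) := by
  have h1 := Sm.cont (bw σ η)
  have h2 := Sm.cont (T σ u)
  have h3 := Sm.cont (ds u)
  have h4 := step_wt_cont μ η
  unfold en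
  exact h1.fun_mul ((h2.fun_pow 2).fun_add (h4.fun_mul (h3.fun_pow 2)))

theorem step_pow {η : ℝ} (h0 : 0 < η) (h1 : η ≤ 1) {a b : ℕ} (hab : a + 31 ≤ b) :
    (1 / η) ^ 62 * ((1 / η) ^ a) ^ 2 ≤ ((1 / η) ^ b) ^ 2 ∧
      ((1 / η) ^ a) ^ 2 ≤ η ^ 32 * ((1 / η) ^ b) ^ 2 := by
  have hH : 1 ≤ 1 / η := by rw [le_div_iff₀ h0]; linarith
  have k1 : (1 / η) ^ 62 * ((1 / η) ^ a) ^ 2 ≤ ((1 / η) ^ b) ^ 2 := by
    rw [← pow_mul, ← pow_mul, ← pow_add]
    exact pow_le_pow_right₀ hH (by omega)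
  refine ⟨k1, ?_⟩
  have k2 : (1 / η) ^ 32 * ((1 / η) ^ a) ^ 2 ≤ ((1 / η) ^ b) ^ 2 := by
    rw [← pow_mul, ← pow_mul, ← pow_add]
    exact pow_le_pow_right₀ hH (by omega)
  have k3 : η ^ 32 * (1 / η) ^ 32 = 1 := by
    rw [← mul_pow, mul_one_div_cancel h0.ne', one_pow]
  calc ((1 / η) ^ a) ^ 2 = η ^ 32 * ((1 / η) ^ 32 * ((1 / η) ^ a) ^ 2) := by
        rw [← mul_assoc, k3, one_mul]
    _ ≤ η ^ 32 * ((1 / η) ^ b) ^ 2 := mul_le_mul_of_nonneg_left k2 (pow_pos h0 32).le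

theorem step_arith {C C1 C2 C3 M e30 e2 e32 H62 X Y A B D : ℝ} (he : e30 * e2 = e32)
    (h30 : 0 ≤ e30) (h2 : 0 ≤ e2) (hH : 0 ≤ H62) (hX : 0 ≤ X) (hY : 0 ≤ Y)
    (hA0 : 0 ≤ A) (hB0 : 0 ≤ B) (hD0 : 0 ≤ D)
    (hA : A ≤ M ^ 2 * (C1 * (e2 * Y))) (hB : B ≤ C2 * X) (hD : D ≤ C3 * (e32 * X))
    (k1 : H62 * X ≤ Y) (k2 : X ≤ e32 * Y) :
    C * (e30 * A + B + H62 * D) ≤ (|C| * (M ^ 2 * |C1| + |C2| + |C3|)) * (e32 * Y) := by
  have h32 : 0 ≤ e32 := he ▸ mul_nonneg h30 h2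
  have a1 : e30 * A ≤ M ^ 2 * |C1| * (e32 * Y) := by
    calc e30 * A ≤ e30 * (M ^ 2 * (|C1| * (e2 * Y))) := by
          refine mul_le_mul_of_nonneg_left (hA.trans ?_) h30
          exact mul_le_mul_of_nonneg_left
            (mul_le_mul_of_nonneg_right (le_abs_self _) (mul_nonneg h2 hY)) (sq_nonneg _)
      _ = M ^ 2 * |C1| * (e32 * Y) := by rw [← he]; ring
  have a2 : B ≤ |C2| * (e32 * Y) :=
    hB.trans ((mul_le_mul_of_nonneg_right (le_abs_self _) hX).trans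
      (mul_le_mul_of_nonneg_left k2 (abs_nonneg _)))
  have a3 : H62 * D ≤ |C3| * (e32 * Y) := by
    calc H62 * D ≤ H62 * (|C3| * (e32 * X)) :=
          mul_le_mul_of_nonneg_left (hD.trans
            (mul_le_mul_of_nonneg_right (le_abs_self _) (mul_nonneg h32 hX))) hH
      _ = |C3| * (e32 * (H62 * X)) := by ring
      _ ≤ |C3| * (e32 * Y) :=
          mul_le_mul_of_nonneg_left (mul_le_mul_of_nonneg_left k1 h32) (abs_nonneg _)
  have s0 : 0 ≤ e30 * A + B + H62 * D :=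
    add_nonneg (add_nonneg (mul_nonneg h30 hA0) hB0) (mul_nonneg hH hD0)
  calc C * (e30 * A + B + H62 * D) ≤ |C| * (e30 * A + B + H62 * D) :=
        mul_le_mul_of_nonneg_right (le_abs_self _) s0
    _ ≤ |C| * ((M ^ 2 * |C1| + |C2| + |C3|) * (e32 * Y)) := by
        refine mul_le_mul_of_nonneg_left ?_ (abs_nonneg _)
        linarith
    _ = _ := by ring

theorem en_bound (F : Fam I Λ r0 N cB μ M r1) (hp : Par Λ r0 N cB μ M r1) {J : ℕ} {r η1 : ℝ}
    (hr : 0 < r) (hr1 : r < r1) (hJ : 8 ≤ J) (hJN : J ≤ 32 * N) (hE : ENat M μ r η1)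
    (hη : ∀ i, F.η i ≤ η1) (h : F.Inv J r) : ∃ C : ℝ, ∀ i,
      ∫ x in closedBall (0 : Pt) (r / 2), en (F.σ i) μ (F.η i) (dsn J (F.z i)) x ≤
        C * (F.η i ^ 32 * ((1 / F.η i) ^ ey N (J + 1)) ^ 2) := by
  obtain ⟨C, hC⟩ := hE
  obtain ⟨C1, hC1⟩ := om_src N J (by omega) hp.cB0 hp.cB1
  obtain ⟨C2, hC2⟩ := rem_good F hp hr hr1 hJ h
  obtain ⟨C3, hC3⟩ := h.2.2
  refine ⟨|C| * (M ^ 2 * |C1| + |C2| + |C3|), fun i => ?_⟩
  have h0 := F.pos i
  have h1 : F.η i ≤ 1 := (F.le i).trans hp.cB1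
  obtain ⟨-, hs, hw⟩ := hC1 μ (F.η i) r h0 h1
  have hK := (F.co i J hJN).mono hr1.le
  have hν : (J : ℝ) + 1 ≤ M := by
    have : (J : ℝ) ≤ 32 * N := by exact_mod_cast hJN
    linarith [hp.hMN]
  have hν1 : (1 : ℝ) ≤ (J : ℝ) + 1 := by
    have : (0 : ℝ) ≤ J := Nat.cast_nonneg J
    linarith
  have key := hC (F.η i) h0 (hη i) (coef Λ μ (F.η i) (F.φ i) (F.z i) J) (J + 1) (dsn J (F.z i))
    ((coef Λ μ (F.η i) (F.φ i) (F.z i) J).mh * dsn J (wv (F.φ i)))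
    (rem Λ μ (F.η i) (F.φ i) (F.z i) J) hK hν1 hν
    (fun x _ => by unfold rem; rw [ev_sub]; ring)
    (fun x _ hx => by
      rw [ev_mul]
      have := hs x hx
      rw [show (dsn J (wv (F.φ i))).1 x = 0 from this, mul_zero])
  obtain ⟨k1, k2⟩ := step_pow h0 h1 (step_ey N hJ)
  refine key.trans (step_arith (e2 := F.η i ^ 2) (X := ((1 / F.η i) ^ ey N J) ^ 2) (by ring)
    (pow_pos h0 30).le (sq_nonneg _) (pow_nonneg (one_div_pos.mpr h0).le 62) (sq_nonneg _)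
    (sq_nonneg _) (integral_nonneg fun x => sq_nonneg _)
    (integral_nonneg fun x => mul_nonneg (step_bw _ _ x) (sq_nonneg _))
    (integral_nonneg fun x => mul_nonneg (mul_nonneg (step_bw _ _ x) (step_wt0 hp.μ0 _ x))
      (sq_nonneg _)) ?_ (hC2 i) (hC3 i) k1 k2)
  have hw' : ∫ x in closedBall (0 : Pt) r, (dsn J (wv (F.φ i))).1 x ^ 2 ≤
      C1 * (F.η i ^ 2 * ((1 / F.η i) ^ ey N (J + 1)) ^ 2) := by
    rw [← mul_pow]; exact hw
  refine le_trans ?_ (mul_le_mul_of_nonneg_left hw' (sq_nonneg M))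
  rw [← integral_const_mul]
  refine setIntegral_mono_on (intOn ((Sm.cont _).fun_pow 2) r)
    (intOn (continuous_const.fun_mul ((Sm.cont _).fun_pow 2)) r) measurableSet_closedBall
    fun x hx => ?_
  rw [ev_mul, mul_pow]
  refine mul_le_mul_of_nonneg_right ?_ (sq_nonneg _)
  have := hK.mh0 x hx
  exact sq_le_sq' (abs_le.mp this).1 (abs_le.mp this).2

theorem step_l2_res (F : Fam I Λ r0 N cB μ M r1) {J J' n : ℕ} {r : ℝ} (hr : 0 < r) {f : I → Sm}
    (h : L2 (F.ctx J r) n f) : L2 (F.ctx J' (r / 2)) n f := by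
  obtain ⟨C, hC⟩ := h
  refine ⟨C, fun i => le_trans ?_ (hC i)⟩
  refine setIntegral_mono_set
    (intOn ((Sm.cont (bw (F.σ i) (F.η i))).fun_mul ((Sm.cont (f i)).fun_pow 2)) r)
    (Filter.Eventually.of_forall fun x => mul_nonneg (step_bw _ _ x) (sq_nonneg _))
    (HasSubset.Subset.eventuallyLE (closedBall_subset_closedBall (by
      show r / 2 ≤ r
      linarith)))

theorem step_sup_res (F : Fam I Λ r0 N cB μ M r1) {J J' n : ℕ} {r : ℝ} (hr : 0 < r) {f : I → Sm}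
    (h : Sup (F.ctx J r) n f) : Sup (F.ctx J' (r / 2)) n f := by
  obtain ⟨C, hC⟩ := h
  exact ⟨C, fun i x hx => hC i x (closedBall_subset_closedBall (by
    show r / 2 ≤ r
    linarith) hx)⟩

theorem step_plain {c : Ctx I} (hc : c.OK) {n : ℕ} {f : I → Sm} (h : L2 c n f) :
    ∃ C : ℝ, 0 ≤ C ∧ ∀ i, ∫ x in closedBall (0 : Pt) c.r, (f i).1 x ^ 2 ≤
      C * ((1 / c.η i) ^ ey c.N n) ^ 2 := by
  obtain ⟨C, hC⟩ := h
  refine ⟨|C|, abs_nonneg _, fun i => le_trans ?_ ((hC i).trans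
    (mul_le_mul_of_nonneg_right (le_abs_self _) (sq_nonneg _)))⟩
  refine setIntegral_mono_on (intOn ((Sm.cont _).fun_pow 2) _)
    (intOn ((hc.cont i).fun_mul ((Sm.cont _).fun_pow 2)) _) measurableSet_closedBall fun x _ => ?_
  have := hc.one i x
  nlinarith [sq_nonneg ((f i).1 x)]

theorem step_sob {c : Ctx I} (hc : c.OK) {n : ℕ} {f : I → Sm} (h1 : L2 c n f)
    (h2 : L2 c n fun i => ds (f i)) (h3 : L2 c n fun i => dt (f i))
    (h4 : L2 c n fun i => ds (dt (f i))) :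
    ∃ C : ℝ, ∀ i, ∀ x ∈ closedBall (0 : Pt) (c.r / 2), |(f i).1 x| ≤ C * (1 / c.η i) ^ ey c.N n := by
  obtain ⟨C, hC0, hC⟩ := sob hc.hr
  obtain ⟨C1, p1, q1⟩ := step_plain hc h1
  obtain ⟨C2, p2, q2⟩ := step_plain hc h2
  obtain ⟨C3, p3, q3⟩ := step_plain hc h3
  obtain ⟨C4, p4, q4⟩ := step_plain hc h4
  refine ⟨Real.sqrt (C * (C1 + C2 + C3 + C4)), fun i x hx => ?_⟩
  have hH : 0 ≤ (1 / c.η i) ^ ey c.N n := pow_nonneg (one_div_pos.mpr (hc.pos i)).le _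
  have hs : 0 ≤ C * (C1 + C2 + C3 + C4) := mul_nonneg hC0 (by linarith)
  refine abs_le_of_sq_le_sq' ?_ (mul_nonneg (Real.sqrt_nonneg _) hH) |> abs_le.mpr
  rw [mul_pow, Real.sq_sqrt hs]
  refine (hC (f i) x hx).trans ?_
  have i1 := intOn ((Sm.cont (f i)).fun_pow 2) c.r
  have i2 := intOn ((Sm.cont (ds (f i))).fun_pow 2) c.r
  have i3 := intOn ((Sm.cont (dt (f i))).fun_pow 2) c.r
  have i4 := intOn ((Sm.cont (ds (dt (f i)))).fun_pow 2) c.r
  rw [integral_add (by exact (i1.add i2).add i3) i4, integral_add (by exact i1.add i2) i3,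
    integral_add i1 i2, mul_assoc]
  refine mul_le_mul_of_nonneg_left ?_ hC0
  have := q1 i
  have := q2 i
  have := q3 i
  have := q4 i
  linarith

theorem step_top (F : Fam I Λ r0 N cB μ M r1) (hp : Par Λ r0 N cB μ M r1) {J : ℕ} {r η1 : ℝ}
    (hr : 0 < r) (hr1 : r < r1) (hJ : 8 ≤ J) (hJN : J ≤ 32 * N) (hE : ENat M μ r η1)
    (hη : ∀ i, F.η i ≤ η1) (h : F.Inv J r) :
    L2 (F.ctx (J + 1) (r / 2)) (J + 1) (fun i => ds (dsn J (F.z i))) ∧
      L2 (F.ctx (J + 1) (r / 2)) (J + 1) (fun i => T (F.σ i) (dsn J (F.z i))) := by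
  obtain ⟨C, hC⟩ := en_bound F hp hr hr1 hJ hJN hE hη h
  constructor
  · refine ⟨C, fun i => ?_⟩
    have h0 := pow_pos (F.pos i) 32
    have k : F.η i ^ 32 * ∫ x in closedBall (0 : Pt) (r / 2),
        (bw (F.σ i) (F.η i)).1 x * (ds (dsn J (F.z i))).1 x ^ 2 ≤
        F.η i ^ 32 * (C * ((1 / F.η i) ^ ey N (J + 1)) ^ 2) := by
      refine le_trans ?_ ((hC i).trans_eq (by ring))
      rw [← integral_const_mul]
      refine setIntegral_mono_on
        (intOn (continuous_const.fun_mul ((Sm.cont _).fun_mul ((Sm.cont _).fun_pow 2))) _)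
        (intOn (step_en_cont _ _ _ _) _) measurableSet_closedBall fun x _ => ?_
      unfold en
      rw [mul_left_comm]
      refine mul_le_mul_of_nonneg_left ?_ (step_bw _ _ x)
      have := mul_le_mul_of_nonneg_right (step_wt hp.μ0 (F.η i) x)
        (sq_nonneg ((ds (dsn J (F.z i))).1 x))
      linarith [sq_nonneg ((T (F.σ i) (dsn J (F.z i))).1 x)]
    exact le_of_mul_le_mul_left k h0
  · refine ⟨|C|, fun i => ?_⟩
    have h0 := pow_pos (F.pos i) 32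
    have h1 : F.η i ^ 32 ≤ 1 := pow_le_one₀ (F.pos i).le ((F.le i).trans hp.cB1)
    have k : C * (F.η i ^ 32 * ((1 / F.η i) ^ ey N (J + 1)) ^ 2) ≤
        |C| * ((1 / F.η i) ^ ey N (J + 1)) ^ 2 :=
      (mul_le_mul_of_nonneg_right (le_abs_self _) (mul_nonneg h0.le (sq_nonneg _))).trans
        (mul_le_mul_of_nonneg_left (mul_le_of_le_one_left (sq_nonneg _) h1) (abs_nonneg _))
    refine le_trans ?_ ((hC i).trans k)
    refine setIntegral_mono_on
      (intOn ((Sm.cont (bw (F.σ i) (F.η i))).fun_mul ((Sm.cont _).fun_pow 2)) _)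
      (intOn (step_en_cont _ _ _ _) _) measurableSet_closedBall fun x _ => ?_
    unfold en
    refine mul_le_mul_of_nonneg_left ?_ (step_bw _ _ x)
    have := mul_nonneg (step_wt0 hp.μ0 (F.η i) x) (sq_nonneg ((ds (dsn J (F.z i))).1 x))
    linarith

theorem step_dt {c : Ctx I} (hc : c.OK) {n : ℕ} {σ u : I → Sm} {A : ℝ}
    (hσ : ∀ i, ∀ x ∈ closedBall (0 : Pt) c.r, |(σ i).1 x| ≤ A)
    (h1 : L2 c n fun i => ds (u i)) (h2 : L2 c n fun i => T (σ i) (u i)) :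
    L2 c n fun i => dt (u i) := by
  obtain ⟨C1, q1⟩ := h1
  obtain ⟨C2, q2⟩ := h2
  refine ⟨2 * C2 + 2 * A ^ 2 * C1, fun i => ?_⟩
  have i1 := intOn ((hc.cont i).fun_mul ((Sm.cont (ds (u i))).fun_pow 2)) c.r
  have i2 := intOn ((hc.cont i).fun_mul ((Sm.cont (T (σ i) (u i))).fun_pow 2)) c.r
  have k : ∫ x in closedBall (0 : Pt) c.r, c.β i x * (dt (u i)).1 x ^ 2 ≤
      ∫ x in closedBall (0 : Pt) c.r, (2 * (c.β i x * (T (σ i) (u i)).1 x ^ 2) +
        2 * A ^ 2 * (c.β i x * (ds (u i)).1 x ^ 2)) := by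
    refine setIntegral_mono_on (intOn ((hc.cont i).fun_mul ((Sm.cont _).fun_pow 2)) _)
      ((i2.const_mul _).add (i1.const_mul _)) measurableSet_closedBall fun x hx => ?_
    have hb : 0 ≤ c.β i x := le_trans zero_le_one (hc.one i x)
    have hT : (T (σ i) (u i)).1 x = (dt (u i)).1 x + (σ i).1 x * (ds (u i)).1 x := rfl
    have hs : (σ i).1 x ^ 2 ≤ A ^ 2 :=
      sq_le_sq' (abs_le.mp (hσ i x hx)).1 (abs_le.mp (hσ i x hx)).2
    have e1 : (dt (u i)).1 x ^ 2 ≤ 2 * (T (σ i) (u i)).1 x ^ 2 + 2 * A ^ 2 * (ds (u i)).1 x ^ 2 := by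
      rw [hT]
      have := mul_le_mul_of_nonneg_right hs (sq_nonneg ((ds (u i)).1 x))
      nlinarith [sq_nonneg ((dt (u i)).1 x + 2 * ((σ i).1 x * (ds (u i)).1 x))]
    have := mul_le_mul_of_nonneg_left e1 hb
    linarith
  rw [integral_add (i2.const_mul _) (i1.const_mul _), integral_const_mul, integral_const_mul] at k
  have a1 := mul_le_mul_of_nonneg_left (q1 i) (mul_nonneg zero_le_two (sq_nonneg A))
  have a2 := q2 i
  linarith

theorem step_ez {n : ℕ} (N : ℕ) (hn : 8 < n) : ez N n = ey N (n + 2) := by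
  unfold ez; rw [if_neg (by omega)]

theorem step (F : Fam I Λ r0 N cB μ M r1) (hp : Par Λ r0 N cB μ M r1) {J : ℕ} {r η1 : ℝ}
    (hr : 0 < r) (hr1 : r < r1) (hJ : 8 ≤ J) (hJN : J ≤ 32 * N) (hE : ENat M μ r η1)
    (hη : ∀ i, F.η i ≤ η1) (h : F.Inv J r) : F.Inv (J + 1) (r / 2) := by
  have hc := ctx_ok F hp J hr hr1
  have hc' := ctx_ok F hp (J + 1) (half_pos hr) (by linarith : r / 2 < r1)
  obtain ⟨t1, t2⟩ := step_top F hp hr hr1 hJ hJN hE hη h
  have t3 : L2 (F.ctx (J + 1) (r / 2)) (J + 1) fun i => dt (dsn J (F.z i)) :=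
    step_dt hc' (A := M) (fun i x hx => (F.co i J hJN).σ0 x (closedBall_subset_closedBall (by
      show r / 2 ≤ r1
      linarith) hx)) t1 t2
  have hP := h.1
  have hQ := h.2.1
  have hR := step_dtt F hp hr hr1 h
  refine ⟨fun l => ⟨fun hl => ?_, fun hl => ?_⟩, fun l => ⟨fun hl => ?_, fun hl => ?_⟩, ?_⟩
  · change l + 1 ≤ J + 1 at hl
    by_cases hlJ : l + 1 ≤ J
    · exact step_l2_res F hr ((hP l).1 hlJ)
    · obtain rfl : l = J := by omega
      simpa only [dsn_ds] using t1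
  · change l + 1 ≤ 8 ∨ l + 1 + 3 ≤ J + 1 at hl
    by_cases hlJ : l + 1 ≤ 8 ∨ l + 1 + 3 ≤ J
    · exact step_sup_res F hr ((hP l).2 hlJ)
    · have e : l + 3 = J := by omega
      have g1 : L2 (F.ctx J r) J fun i => dsn l (ds (F.z i)) :=
        ((hP l).mono hc (by omega)).1 le_rfl
      have g2 : L2 (F.ctx J r) J fun i => ds (dsn l (ds (F.z i))) := by
        have := ((hP (l + 1)).mono hc (n' := J) (by omega)).1 le_rfl
        simpa only [dsn_succ] using this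
      have g3 : L2 (F.ctx J r) J fun i => dt (dsn l (ds (F.z i))) := by
        have := ((hQ (l + 1)).mono hc (n' := J) (by omega)).1 le_rfl
        simpa only [dsn_succ, dsn_ds, dsn_dt, dt_ds] using this
      have g4 : L2 (F.ctx J r) J fun i => ds (dt (dsn l (ds (F.z i)))) := by
        have := ((hQ (l + 1 + 1)).mono hc (n' := J) (by omega)).1 le_rfl
        simpa only [dsn_succ, dsn_ds, dsn_dt, dt_ds] using this
      obtain ⟨C, hC⟩ := step_sob hc g1 g2 g3 g4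
      refine ⟨C, fun i x hx => ?_⟩
      have e2 : ez N (l + 1) = ey N J := by rw [step_ez N (by omega), ← e]
      have := hC i x hx
      change |(dsn l (ds (F.z i))).1 x| ≤ C * (1 / F.η i) ^ ez N (l + 1)
      rw [e2]; exact this
  · change l + 1 ≤ J + 1 at hl
    by_cases hlJ : l + 1 ≤ J
    · exact step_l2_res F hr ((hQ l).1 hlJ)
    · obtain rfl : l = J := by omega
      simpa only [dsn_dt] using t3
  · change l + 1 ≤ 8 ∨ l + 1 + 3 ≤ J + 1 at hl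
    by_cases hlJ : l + 1 ≤ 8 ∨ l + 1 + 3 ≤ J
    · exact step_sup_res F hr ((hQ l).2 hlJ)
    · have e : l + 3 = J := by omega
      have g1 : L2 (F.ctx J r) J fun i => dsn l (dt (F.z i)) :=
        ((hQ l).mono hc (by omega)).1 le_rfl
      have g2 : L2 (F.ctx J r) J fun i => ds (dsn l (dt (F.z i))) := by
        have := ((hQ (l + 1)).mono hc (n' := J) (by omega)).1 le_rfl
        simpa only [dsn_succ] using this
      have g3 : L2 (F.ctx J r) J fun i => dt (dsn l (dt (F.z i))) := by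
        have := ((hR l).mono hc (n' := J) (by omega)).1 le_rfl
        simpa only [dsn_dt] using this
      have g4 : L2 (F.ctx J r) J fun i => ds (dt (dsn l (dt (F.z i)))) := by
        have := ((hR (l + 1)).mono hc (n' := J) (by omega)).1 le_rfl
        simpa only [dsn_succ, dsn_dt] using this
      obtain ⟨C, hC⟩ := step_sob hc g1 g2 g3 g4
      refine ⟨C, fun i x hx => ?_⟩
      have e2 : ez N (l + 1) = ey N J := by rw [step_ez N (by omega), ← e]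
      have := hC i x hx
      change |(dsn l (dt (F.z i))).1 x| ≤ C * (1 / F.η i) ^ ez N (l + 1)
      rw [e2]; exact this
  · obtain ⟨C, hC⟩ := en_bound F hp hr hr1 hJ hJN hE hη h
    refine ⟨C, fun i => le_trans ?_ (hC i)⟩
    refine setIntegral_mono_on
      (intOn (((Sm.cont (bw (F.σ i) (F.η i))).fun_mul (step_wt_cont _ _)).fun_mul
        ((Sm.cont _).fun_pow 2)) _)
      (intOn (step_en_cont _ _ _ _) _) measurableSet_closedBall fun x _ => ?_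
    unfold en
    rw [dsn_succ, mul_assoc]
    refine mul_le_mul_of_nonneg_left ?_ (step_bw _ _ x)
    linarith [sq_nonneg ((T (F.σ i) (dsn J (F.z i))).1 x)]

end
end Vale.Agent.P229
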