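import Vale.Agent.P229.QBr

open scoped ContDiff
open MeasureTheory Metric

namespace Vale.Agent.P229
noncomputable section

theorem tay_m2 {a b A B : ℝ} (ha : |a| ≤ A) (hb : |b| ≤ B) : |a * b| ≤ A * B := by
  rw [abs_mul]
  exact mul_le_mul ha hb (abs_nonneg _) ((abs_nonneg _).trans ha)

theorem tay_sub {a b A B : ℝ} (ha : |a| ≤ A) (hb : |b| ≤ B) : |a - b| ≤ A + B :=
  (abs_sub _ _).trans (add_le_add ha hb)

theorem tay_add {a b A B : ℝ} (ha : |a| ≤ A) (hb : |b| ≤ B) : |a + b| ≤ A + B :=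
  (abs_add_le _ _).trans (add_le_add ha hb)

theorem tay_e (σ : Sm) : T σ (pp σ) = -cst (σ.1 0) - cst ((ds σ).1 0) * cS
    - cst ((dt σ).1 0 - σ.1 0 * (ds σ).1 0) * cT + σ * (1 - cst ((ds σ).1 0) * cT) := by
  refine Sm.ext' fun x => ?_
  simp only [T, pp, map_sub, ds_mul, dt_mul, ds_sq, dt_sq, ds_cst, dt_cst, ds_cS, dt_cS, ds_cT, dt_cT,
    ev_add, ev_sub, ev_mul, ev_neg, ev_cst, ev_cS, ev_cT, ev_zero, ev_one, ev_two]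
  ring

theorem tay_e0 (σ : Sm) : (T σ (pp σ)).1 0 = 0 := by
  rw [tay_e]
  simp

theorem tay_es (σ : Sm) (x : Pt) : (ds (T σ (pp σ))).1 x
    = ((ds σ).1 x - (ds σ).1 0) - (ds σ).1 0 * x.2 * (ds σ).1 x := by
  rw [tay_e]
  simp only [map_sub, map_add, map_neg, ds_mul, ds_cst, ds_cS, ds_cT, ds_one,
    ev_add, ev_sub, ev_mul, ev_neg, ev_cst, ev_cS, ev_cT, ev_zero, ev_one]
  ring

theorem tay_et (σ : Sm) (x : Pt) : (dt (T σ (pp σ))).1 x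
    = ((dt σ).1 x - (dt σ).1 0) - (ds σ).1 0 * (σ.1 x - σ.1 0) - (ds σ).1 0 * x.2 * (dt σ).1 x := by
  rw [tay_e]
  simp only [map_sub, map_add, map_neg, dt_mul, dt_cst, dt_cS, dt_cT, dt_one,
    ev_add, ev_sub, ev_mul, ev_neg, ev_cst, ev_cS, ev_cT, ev_zero, ev_one]
  ring

theorem tay_ps (σ : Sm) (x : Pt) : (ds (pp σ)).1 x - 1 = -((ds σ).1 0 * x.2) := by
  simp only [pp, map_sub, ds_mul, ds_sq, ds_cst, ds_cS, ds_cT,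
    ev_add, ev_sub, ev_mul, ev_pow, ev_cst, ev_cS, ev_cT, ev_zero, ev_one, ev_two]
  ring

theorem tay_p (σ : Sm) (x : Pt) : (pp σ).1 x - (x.1 - σ.1 0 * x.2)
    = -((ds σ).1 0 * (x.1 * x.2)) - ((dt σ).1 0 - σ.1 0 * (ds σ).1 0) * (x.2 * x.2) / 2 := by
  simp only [pp, ev_sub, ev_mul, ev_pow, ev_cst, ev_cS, ev_cT]
  ring

theorem tay_s (x : Pt) : |x.1| ≤ ‖x‖ := by rw [norm_pt]; exact le_max_left _ _
theorem tay_t (x : Pt) : |x.2| ≤ ‖x‖ := by rw [norm_pt]; exact le_max_right _ _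

theorem tay_grad {M r η : ℝ} {K : Coef} (hM : 1 ≤ M) (h : CoefOK M r η K) :
    ∀ x ∈ closedBall (0 : Pt) r, |(ds (T K.σ (pp K.σ))).1 x| ≤ 5 * M ^ 2 * ‖x‖ ∧
      |(dt (T K.σ (pp K.σ))).1 x| ≤ 5 * M ^ 2 * ‖x‖ := by
  intro x hx
  have hr : 0 ≤ r := (norm_nonneg x).trans (mem_closedBall_zero_iff.mp hx)
  have h0 : (0 : Pt) ∈ closedBall (0 : Pt) r := mem_closedBall_self hr
  have l0 := lip0 K.σ h.σs h.σt x hx
  have l1 := lip0 (ds K.σ) h.σss (fun y hy => by rw [dt_ds]; exact h.σst y hy) x hx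
  have l2 := lip0 (dt K.σ) h.σst h.σtt x hx
  have hn := norm_nonneg x
  have hMM : M * ‖x‖ ≤ M ^ 2 * ‖x‖ := mul_le_mul_of_nonneg_right (by nlinarith) hn
  have hM2 : 0 ≤ M ^ 2 * ‖x‖ := by positivity
  constructor
  · rw [tay_es]
    refine (tay_sub l1 (tay_m2 (tay_m2 (h.σs 0 h0) (tay_t x)) (h.σs x hx))).trans ?_
    linarith
  · rw [tay_et]
    refine (tay_sub (tay_sub l2 (tay_m2 (h.σs 0 h0) l0))
      (tay_m2 (tay_m2 (h.σs 0 h0) (tay_t x)) (h.σt x hx))).trans ?_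
    linarith

theorem tay_eb {M r η : ℝ} {K : Coef} (hM : 1 ≤ M) (h : CoefOK M r η K) :
    ∀ x ∈ closedBall (0 : Pt) r, |(T K.σ (pp K.σ)).1 x| ≤ 10 * M ^ 2 * ‖x‖ ^ 2 := by
  intro x hx
  have hxr : ‖x‖ ≤ r := mem_closedBall_zero_iff.mp hx
  have key : ∀ y ∈ closedBall (0 : Pt) ‖x‖, |(ds (T K.σ (pp K.σ))).1 y| ≤ 5 * M ^ 2 * ‖x‖ ∧
      |(dt (T K.σ (pp K.σ))).1 y| ≤ 5 * M ^ 2 * ‖x‖ := by
    intro y hy
    have hyx : ‖y‖ ≤ ‖x‖ := mem_closedBall_zero_iff.mp hy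
    have := tay_grad hM h y (closedBall_subset_closedBall hxr hy)
    have a : 5 * M ^ 2 * ‖y‖ ≤ 5 * M ^ 2 * ‖x‖ := mul_le_mul_of_nonneg_left hyx (by positivity)
    exact ⟨this.1.trans a, this.2.trans a⟩
  have := lip0 (T K.σ (pp K.σ)) (fun y hy => (key y hy).1) (fun y hy => (key y hy).2) x
    (mem_closedBall_zero_iff.mpr le_rfl)
  rw [tay_e0, sub_zero] at this
  refine this.trans (le_of_eq ?_)
  ring

theorem tay (M : ℝ) (hM : 1 ≤ M) : ∃ M' : ℝ, M ≤ M' ∧ ∀ (r η : ℝ) (K : Coef) (ν : ℝ), r ≤ 1 →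
    0 < η → CoefOK M r η K → 1 ≤ ν → ν ≤ M → ∀ x ∈ closedBall (0 : Pt) r,
      PDOK M' r η (mkPD K ν x) ∧ |K.mh.1 x - K.mh.1 0| ≤ M' * ‖x‖ := by
  have hM0 : 0 < M := by linarith
  have p1 : M ≤ M ^ 2 := by nlinarith
  have p2 : M ^ 2 ≤ M ^ 3 := by nlinarith
  have hMM : M ≤ 10 * M ^ 3 := by nlinarith
  refine ⟨10 * M ^ 3, hMM, ?_⟩
  intro r η K ν _ hη h hν1 hν2 x hx
  have hr : 0 ≤ r := (norm_nonneg x).trans (mem_closedBall_zero_iff.mp hx)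
  have h0 : (0 : Pt) ∈ closedBall (0 : Pt) r := mem_closedBall_self hr
  have hn := norm_nonneg x
  have hinv : 1 / (10 * M ^ 3) ≤ 1 / M := one_div_le_one_div_of_le hM0 hMM
  have hη64 : M * η ^ 64 ≤ 10 * M ^ 3 * η ^ 64 := mul_le_mul_of_nonneg_right hMM (by positivity)
  have q1 : M * ‖x‖ ≤ M ^ 3 * ‖x‖ := mul_le_mul_of_nonneg_right (p1.trans p2) hn
  have q2 : M ^ 2 * ‖x‖ ≤ M ^ 3 * ‖x‖ := mul_le_mul_of_nonneg_right p2 hn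
  have q0 : 0 ≤ M ^ 3 * ‖x‖ := by positivity
  have q3 : M * ‖x‖ ^ 2 ≤ M ^ 3 * ‖x‖ ^ 2 := mul_le_mul_of_nonneg_right (p1.trans p2) (sq_nonneg _)
  have q4 : M ^ 2 * ‖x‖ ^ 2 ≤ M ^ 3 * ‖x‖ ^ 2 := mul_le_mul_of_nonneg_right p2 (sq_nonneg _)
  have q5 : 0 ≤ M ^ 3 * ‖x‖ ^ 2 := by positivity
  have hg := tay_grad hM h x hx
  refine ⟨⟨(mem_box.1 hx).1, (mem_box.1 hx).2, hinv.trans (h.m_lo x hx),
    ((le_abs_self _).trans (h.m0 x hx)).trans hMM, hinv.trans (h.m_lo 0 h0),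
    ((le_abs_self _).trans (h.m0 0 h0)).trans hMM, (h.ms x hx).trans hMM, (h.mt x hx).trans hMM,
    (h.σ0 x hx).trans hMM, (h.σs x hx).trans hMM, (h.σ0 0 h0).trans hMM, (h.g10 0 h0).trans hMM,
    (h.g30 x hx).trans hMM, ?_, ?_, ?_, ?_, ?_, ?_, (h.wb0 x hx).trans hη64,
    (h.wbs x hx).trans hη64, (h.wbt x hx).trans hη64, hν1, hν2.trans hMM⟩, ?_⟩
  · show |(T K.σ (pp K.σ)).1 x| ≤ 10 * M ^ 3 * ‖x‖ ^ 2
    refine (tay_eb hM h x hx).trans ?_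
    linarith
  · show |(dt (T K.σ (pp K.σ))).1 x + K.σ.1 x * (ds (T K.σ (pp K.σ))).1 x| ≤ 10 * M ^ 3 * ‖x‖
    refine (tay_add hg.2 (tay_m2 (h.σ0 x hx) hg.1)).trans ?_
    linarith
  · show |(pp K.σ).1 x - (x.1 - K.σ.1 0 * x.2)| ≤ 10 * M ^ 3 * ‖x‖ ^ 2
    rw [tay_p]
    have a1 := abs_le.1 (tay_m2 (h.σs 0 h0) (tay_m2 (tay_s x) (tay_t x)))
    have a2 := abs_le.1 (tay_m2 (tay_sub (h.σt 0 h0) (tay_m2 (h.σ0 0 h0) (h.σs 0 h0)))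
      (tay_m2 (tay_t x) (tay_t x)))
    rw [abs_le]
    constructor <;> linarith [a1.1, a1.2, a2.1, a2.2]
  · show |(ds (pp K.σ)).1 x - 1| ≤ 10 * M ^ 3 * ‖x‖
    rw [tay_ps, abs_neg]
    refine (tay_m2 (h.σs 0 h0) (tay_t x)).trans ?_
    linarith
  · show |K.g1.1 x - K.g1.1 0| ≤ 10 * M ^ 3 * ‖x‖
    refine (lip0 K.g1 h.g1s h.g1t x hx).trans ?_
    linarith
  · show |K.m.1 x - K.m.1 0| ≤ 10 * M ^ 3 * ‖x‖
    refine (lip0 K.m h.ms h.mt x hx).trans ?_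
    linarith
  · refine (lip0 K.mh h.mhs h.mht x hx).trans ?_
    linarith

end
end Vale.Agent.P229
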